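import Vale.Agent.P260Z.Dav.Sk

/-!
# P260: the elementary properties of absolute extensors
-/

noncomputable section

namespace Vale.Agent.P260Z

open Set Topology Filter

namespace AE

variable {T T' : Type} [TopologicalSpace T] [TopologicalSpace T'] {Y : Set T} {Y' : Set T'}

theorem nonempty (h : AE Y) : Y.Nonempty := h.1

theorem ret (r : T → T') (i : T' → T) (h : AE Y) (hr : ContinuousOn r Y) (mr : MapsTo r Y Y')
    (hi : ContinuousOn i Y') (mi : MapsTo i Y' Y) (e : ∀ y ∈ Y', r (i y) = y) : AE Y' := by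
  refine ⟨h.1.imp' r fun y hy => mr hy, fun Z _ _ K A f hK hA hAK hf mf => ?_⟩
  obtain ⟨g, g1, g2, g3⟩ := h.2 Z K A (i ∘ f) hK hA hAK (hi.comp hf mf) (mi.comp mf)
  refine ⟨r ∘ g, hr.comp g1 g2, mr.comp g2, fun z hz => ?_⟩
  rw [Function.comp_apply, g3 hz]
  exact e _ (mf hz)

theorem emb {φ : T → T'} (hφ : IsEmbedding (Y.domRestrict φ)) (h : AE Y) : AE (φ '' Y) := by
  have := h.1.to_type
  have hinj : InjOn φ Y := fun x hx y hy e =>
    congrArg Subtype.val (hφ.injective (a₁ := ⟨x, hx⟩) (a₂ := ⟨y, hy⟩) e)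
  have hm : MapsTo (Function.invFunOn φ Y) (φ '' Y) Y := fun y hy => Function.invFunOn_mem hy
  have he : ∀ y ∈ φ '' Y, φ (Function.invFunOn φ Y y) = y := fun y hy => Function.invFunOn_eq hy
  refine h.ret φ (Function.invFunOn φ Y) (continuousOn_iff_continuous_domRestrict.2 hφ.continuous)
    (mapsTo_image φ Y) ?_ hm he
  rw [continuousOn_iff_continuous_domRestrict]
  have h1 : Continuous fun y : φ '' Y => (⟨Function.invFunOn φ Y y, hm y.2⟩ : Y) := by
    rw [hφ.isInducing.continuous_iff]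
    exact continuous_subtype_val.congr fun y => (he y y.2).symm
  exact continuous_subtype_val.comp h1

theorem cpt [T2Space T'] {φ : T → T'} (hY : IsCompact Y) (hφ : ContinuousOn φ Y)
    (hi : InjOn φ Y) (h : AE Y) : AE (φ '' Y) := by
  have := isCompact_iff_compactSpace.1 hY
  exact h.emb ((continuousOn_iff_continuous_domRestrict.1 hφ).isClosedEmbedding
    fun x y e => Subtype.ext (hi x.2 y.2 e)).isEmbedding

theorem real : AE (univ : Set ℝ) := by
  refine ⟨univ_nonempty, fun Z _ _ K A f _ hA _ hf _ => ?_⟩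
  obtain ⟨g, hg⟩ := ContinuousMap.exists_restrict_eq hA
    (⟨A.domRestrict f, continuousOn_iff_continuous_domRestrict.1 hf⟩ : C(A, ℝ))
  exact ⟨g, g.continuous.continuousOn, mapsTo_univ _ _,
    fun z hz => DFunLike.congr_fun hg ⟨z, hz⟩⟩

theorem icc {a b : ℝ} (hab : a ≤ b) : AE (Icc a b) :=
  real.ret (fun x => (projIcc a b hab x : ℝ)) id
    (continuous_subtype_val.comp continuous_projIcc).continuousOn
    (fun x _ => (projIcc a b hab x).2) continuousOn_id (mapsTo_univ _ _)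
    fun _ hy => congrArg Subtype.val (projIcc_of_mem hab hy)

theorem prod (h : AE Y) (h' : AE Y') : AE (Y ×ˢ Y') := by
  refine ⟨h.1.prod h'.1, fun Z _ _ K A f hK hA hAK hf mf => ?_⟩
  obtain ⟨g, g1, g2, g3⟩ := h.2 Z K A (fun z => (f z).1) hK hA hAK hf.fst fun z hz => (mf hz).1
  obtain ⟨g', g1', g2', g3'⟩ :=
    h'.2 Z K A (fun z => (f z).2) hK hA hAK hf.snd fun z hz => (mf hz).2
  exact ⟨fun z => (g z, g' z), g1.prodMk g1', fun z hz => ⟨g2 hz, g2' hz⟩,
    fun z hz => Prod.ext (g3 hz) (g3' hz)⟩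

theorem pi {ι : Type} {T : ι → Type} [∀ i, TopologicalSpace (T i)] {Y : ∀ i, Set (T i)}
    (h : ∀ i, AE (Y i)) : AE (Set.pi univ Y) := by
  refine ⟨univ_pi_nonempty_iff.2 fun i => (h i).1, fun Z _ _ K A f hK hA hAK hf mf => ?_⟩
  choose g g1 g2 g3 using fun i => (h i).2 Z K A (fun z => f z i) hK hA hAK
    (continuousOn_pi.1 hf i) fun z hz => mf hz i (mem_univ i)
  exact ⟨fun z i => g i z, continuousOn_pi.2 g1, fun z hz i _ => g2 i hz,
    fun z hz => funext fun i => g3 i hz⟩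

theorem dir (h : ∀ K ⊆ Y, IsCompact K → ∃ Y', K ⊆ Y' ∧ Y' ⊆ Y ∧ AE Y') : AE Y := by
  refine ⟨?_, fun Z _ _ K A f hK hA hAK hf mf => ?_⟩
  · obtain ⟨Y', -, h1, h2⟩ := h ∅ (empty_subset _) isCompact_empty
    exact h2.1.mono h1
  · obtain ⟨Y', h0, h1, h2⟩ := h (f '' A) mf.image_subset
      ((hK.of_isClosed_subset hA hAK).image_of_continuousOn hf)
    obtain ⟨g, g1, g2, g3⟩ := h2.2 Z K A f hK hA hAK hf fun z hz => h0 (mem_image_of_mem f hz)
    exact ⟨g, g1, g2.mono_right h1, g3⟩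

end AE

theorem ae1 : AE1 where
  ret := fun r i h => h.ret r i
  emb := AE.emb
  cpt := AE.cpt
  icc := AE.icc
  real := AE.real
  prod := AE.prod
  pi := AE.pi
  dir := AE.dir

end Vale.Agent.P260Z
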