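import Vale.Agent.P260Z.Dav.Sk

/-!
# P260: unions of absolute extensors
-/

noncomputable section

namespace Vale.Agent.P260Z

open Set Topology Filter Metric

theorem AE2x.glue {Z T : Type} [TopologicalSpace Z] [TopologicalSpace T] {s t : Set Z}
    {f g : Z → T} (hs : IsClosed s) (ht : IsClosed t) (hf : ContinuousOn f s)
    (hg : ContinuousOn g t) (h : EqOn f g (s ∩ t)) :
    ∃ k : Z → T, ContinuousOn k (s ∪ t) ∧ EqOn k f s ∧ EqOn k g t := by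
  classical
  have h1 : EqOn (s.piecewise f g) f s := piecewise_eqOn s f g
  have h2 : EqOn (s.piecewise f g) g t := fun z hz => by
    by_cases h3 : z ∈ s
    · exact (h1 h3).trans (h ⟨h3, hz⟩)
    · exact piecewise_eq_of_notMem s f g h3
  exact ⟨_, (hf.congr h1).union_of_isClosed (hg.congr h2) hs ht, h1, h2⟩

theorem AE.union {T : Type} [TopologicalSpace T] {Y Y' : Set T} (hY : IsClosed Y)
    (hY' : IsClosed Y') (h : AE Y) (h' : AE Y') (h0 : AE (Y ∩ Y')) : AE (Y ∪ Y') := by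
  refine ⟨h.1.mono subset_union_left, fun Z _ _ K A f hK hA hAK hf hm => ?_⟩
  let _ := TopologicalSpace.metrizableSpaceMetric Z
  have c1 := hf.preimage_isClosed_of_isClosed hA hY
  have c2 := hf.preimage_isClosed_of_isClosed hA hY'
  have key : ∀ {S S' : Set Z}, IsClosed S → ∀ z ∈ S', infEDist z S ≤ infEDist z S' → z ∈ S :=
    fun hS z hz h1 => (mem_iff_infEDist_zero_of_closed hS).2
      (le_antisymm (h1.trans_eq (infEDist_zero_of_mem hz)) bot_le)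
  set K₁ := K ∩ {z | infEDist z (A ∩ f ⁻¹' Y) ≤ infEDist z (A ∩ f ⁻¹' Y')}
  set K₂ := K ∩ {z | infEDist z (A ∩ f ⁻¹' Y') ≤ infEDist z (A ∩ f ⁻¹' Y)}
  have k1 : IsCompact K₁ := hK.inter_right (isClosed_le continuous_infEDist continuous_infEDist)
  have k2 : IsCompact K₂ := hK.inter_right (isClosed_le continuous_infEDist continuous_infEDist)
  have m1 : ∀ z ∈ A, z ∈ K₁ → f z ∈ Y := fun z hz h1 =>
    (hm hz).elim id fun h2 => (key c1 z (mem_inter hz h2) h1.2).2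
  have m2 : ∀ z ∈ A, z ∈ K₂ → f z ∈ Y' := fun z hz h1 =>
    (hm hz).elim (fun h2 => (key c2 z (mem_inter hz h2) h1.2).2) id
  have k0 := k1.inter_right k2.isClosed
  obtain ⟨g₀, a1, a2, a3⟩ := h0.2 Z (K₁ ∩ K₂) (K₁ ∩ K₂ ∩ A) f k0 (k0.isClosed.inter hA)
    inter_subset_left (hf.mono inter_subset_right) fun z hz =>
      ⟨m1 z hz.2 hz.1.1, m2 z hz.2 hz.1.2⟩
  obtain ⟨f₁, b1, b2, b3⟩ := AE2x.glue k0.isClosed hA a1 hf a3
  obtain ⟨g₁, d1, d2, d3⟩ := h.2 Z K₁ ((K₁ ∩ K₂ ∪ A) ∩ K₁) f₁ k1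
    ((k0.isClosed.union hA).inter k1.isClosed) inter_subset_right (b1.mono inter_subset_left)
    fun z hz => hz.1.elim (fun h1 => b2 h1 ▸ (a2 h1).1) fun h1 => b3 h1 ▸ m1 z h1 hz.2
  obtain ⟨g₂, e1, e2, e3⟩ := h'.2 Z K₂ ((K₁ ∩ K₂ ∪ A) ∩ K₂) f₁ k2
    ((k0.isClosed.union hA).inter k2.isClosed) inter_subset_right (b1.mono inter_subset_left)
    fun z hz => hz.1.elim (fun h1 => b2 h1 ▸ (a2 h1).2) fun h1 => b3 h1 ▸ m2 z h1 hz.2
  obtain ⟨g, g1, g2, g3⟩ := AE2x.glue k1.isClosed k2.isClosed d1 e1 fun z hz =>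
    (d3 ⟨Or.inl hz, hz.1⟩).trans (e3 ⟨Or.inl hz, hz.2⟩).symm
  have hc : K ⊆ K₁ ∪ K₂ := fun z hz =>
    (le_total (infEDist z (A ∩ f ⁻¹' Y)) (infEDist z (A ∩ f ⁻¹' Y'))).elim
      (fun h1 => Or.inl ⟨hz, h1⟩) fun h1 => Or.inr ⟨hz, h1⟩
  refine ⟨g, g1.mono hc, fun z hz => (hc hz).elim (fun h1 => Or.inl (g2 h1 ▸ d2 h1))
    fun h1 => Or.inr (g3 h1 ▸ e2 h1), fun z hz => (hc (hAK hz)).elim (fun h1 => ?_) fun h1 => ?_⟩
  · exact (g2 h1).trans ((d3 ⟨Or.inr hz, h1⟩).trans (b3 hz))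
  · exact (g3 h1).trans ((e3 ⟨Or.inr hz, h1⟩).trans (b3 hz))

theorem AE.fam {T : Type} [TopologicalSpace T] {F : Set (Set T)}
    (h : ∀ Y ∈ F, IsClosed Y ∧ AE Y) (hi : ∀ Y ∈ F, ∀ Y' ∈ F, Y ∩ Y' ∈ F) :
    ∀ F' ⊆ F, F'.Finite → F'.Nonempty → AE (⋃₀ F') := by
  intro F'
  induction hn : F'.ncard using Nat.strong_induction_on generalizing F' with
  | _ n ih =>
  rintro hs hf ⟨Y, hY⟩
  rcases (F' \ {Y}).eq_empty_or_nonempty with h0 | h0
  · rw [(sdiff_eq_empty.1 h0).antisymm (singleton_subset_iff.2 hY), sUnion_singleton]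
    exact (h Y (hs hY)).2
  · have h1 : (F' \ {Y}).ncard < n := hn ▸ ncard_sdiff_singleton_lt_of_mem hY hf
    have h2 : F' \ {Y} ⊆ F := sdiff_subset.trans hs
    have h3 := ih _ ((ncard_image_le (f := fun Y' => Y ∩ Y') (hf.sdiff (t := {Y}))).trans_lt h1) _
      rfl (by
        rintro _ ⟨Y', h3, rfl⟩
        exact hi Y (hs hY) Y' (h2 h3)) (hf.sdiff.image _) (h0.image _)
    rw [sUnion_image, ← inter_iUnion₂, ← sUnion_eq_biUnion] at h3
    rw [← insert_eq_of_mem hY, ← insert_sdiff_singleton, sUnion_insert]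
    exact AE.union (h Y (hs hY)).1 
      (sUnion_eq_biUnion ▸ hf.sdiff.isClosed_biUnion fun Y' h4 => (h Y' (h2 h4)).1)
      (h Y (hs hY)).2 (ih _ h1 _ rfl h2 hf.sdiff h0) h3

theorem ae2 : AE2 := ⟨AE.union, AE.fam⟩

end Vale.Agent.P260Z
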