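import Vale.Agent.P260Z.Dav.Sk

/-!
# P260: extension over locally compact spaces, absolute extensors are contractible
-/

noncomputable section

namespace Vale.Agent.P260Z

open Set Topology Filter

theorem ae3_ext {T : Type} [TopologicalSpace T] {Y : Set T} (hY : AE Y) {Z : Type}
    [TopologicalSpace Z] [T2Space Z] [LocallyCompactSpace Z] [SecondCountableTopology Z]
    (A : Set Z) (f : Z → T) (hA : IsClosed A) (hf : ContinuousOn f A) (hm : MapsTo f A Y) :
    ∃ g : Z → T, Continuous g ∧ (∀ z, g z ∈ Y) ∧ EqOn g f A := by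
  classical
  let K := CompactExhaustion.choice Z
  let P : ℕ → (Z → T) → Prop := fun n g =>
    ContinuousOn g (K n) ∧ MapsTo g (K n) Y ∧ EqOn g f (A ∩ K n)
  have hc : ∀ n, IsClosed (K n) := fun n => (K.isCompact n).isClosed
  obtain ⟨g₀, hg₀⟩ : ∃ g, P 0 g := hY.2 Z (K 0) (A ∩ K 0) f (K.isCompact 0) (hA.inter (hc 0))
    inter_subset_right (hf.mono inter_subset_left) (hm.mono_left inter_subset_left)
  have step : ∀ n (g : {g // P n g}), ∃ g' : {g // P (n + 1) g}, EqOn g'.1 g.1 (K n) := by
    rintro n ⟨g, h1, h2, h3⟩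
    have e1 : EqOn ((K n).piecewise g f) g (K n) := piecewise_eqOn _ _ _
    have e2 : EqOn ((K n).piecewise g f) f (A ∩ K (n + 1)) := by
      intro z hz
      by_cases h : z ∈ K n
      · rw [e1 h]
        exact h3 ⟨hz.1, h⟩
      · exact piecewise_eq_of_notMem _ _ _ h
    obtain ⟨g', k1, k2, k3⟩ := hY.2 Z (K (n + 1)) (K n ∪ A ∩ K (n + 1)) ((K n).piecewise g f)
      (K.isCompact _) ((hc n).union (hA.inter (hc _)))
      (union_subset (K.subset_succ n) inter_subset_right)
      (ContinuousOn.union_of_isClosed (h1.congr e1) ((hf.mono inter_subset_left).congr e2) (hc n)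
        (hA.inter (hc _)))
      (by
        rintro z (hz | hz)
        · rw [e1 hz]
          exact h2 hz
        · rw [e2 hz]
          exact hm hz.1)
    exact ⟨⟨g', k1, k2, fun z hz => (k3 (Or.inr hz)).trans (e2 hz)⟩,
      fun z hz => (k3 (Or.inl hz)).trans (e1 hz)⟩
  choose F hF using step
  let s : ∀ n, {g // P n g} := fun n => Nat.rec ⟨g₀, hg₀⟩ F n
  have hs : ∀ n, EqOn (s (n + 1)).1 (s n).1 (K n) := fun n => hF n (s n)
  have hs' : ∀ m n, m ≤ n → EqOn (s n).1 (s m).1 (K m) := by
    intro m n hmn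
    induction n, hmn using Nat.le_induction with
    | base => exact fun z _ => rfl
    | succ n hmn ih => exact fun z hz => (hs n (K.subset hmn hz)).trans (ih hz)
  have hg : ∀ n, EqOn (fun z => (s (K.find z)).1 z) (s n).1 (K n) := fun n z hz =>
    (hs' _ _ (K.mem_iff_find_le.1 hz) (K.mem_find z)).symm
  refine ⟨fun z => (s (K.find z)).1 z, ?_, fun z => (s _).2.2.1 (K.mem_find z),
    fun z hz => (s _).2.2.2 ⟨hz, K.mem_find z⟩⟩
  rw [continuous_iff_continuousAt]
  intro z
  obtain ⟨n, hn⟩ := K.exists_mem_nhds z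
  exact ((s n).2.1.congr (hg n)).continuousAt hn

theorem ae3_contr {T : Type} [TopologicalSpace T] [T2Space T] [LocallyCompactSpace T]
    [SecondCountableTopology T] (h : AE (univ : Set T)) : ContractibleSpace T := by
  classical
  obtain ⟨y, -⟩ := h.1
  have c0 : IsClosed {p : unitInterval × T | p.1 = 0} :=
    isClosed_eq continuous_fst continuous_const
  have c1 : IsClosed {p : unitInterval × T | p.1 = 1} :=
    isClosed_eq continuous_fst continuous_const
  let f : unitInterval × T → T := fun p => if p.1 = 0 then p.2 else y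
  have e0 : EqOn f Prod.snd {p : unitInterval × T | p.1 = 0} := fun p hp => if_pos hp
  have e1 : EqOn f (fun _ => y) {p : unitInterval × T | p.1 = 1} := fun p hp =>
    if_neg fun h0 => zero_ne_one (h0.symm.trans hp)
  obtain ⟨g, hg, -, hg2⟩ := ae3_ext h ({p : unitInterval × T | p.1 = 0} ∪ {p | p.1 = 1}) f
    (c0.union c1) (ContinuousOn.union_of_isClosed (continuousOn_snd.congr e0)
      (continuousOn_const.congr e1) c0 c1) (mapsTo_univ _ _)
  rw [contractible_iff_id_nullhomotopic]
  exact ⟨y, ⟨⟨⟨g, hg⟩, fun x => (hg2 (Or.inl rfl)).trans (e0 rfl),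
    fun x => (hg2 (Or.inr rfl)).trans (e1 rfl)⟩⟩⟩

theorem ae3 : AE3 where
  ext hY _ _ _ _ _ A f hA hf hm := ae3_ext hY A f hA hf hm
  contr h := ae3_contr h

end Vale.Agent.P260Z
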