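import Vale.Agent.P260Z.Dav.Sk

/-!
# P260: cocompact sets are absorbed in the base chamber
-/

noncomputable section

namespace Vale.Agent.P260Z

open Set Topology

namespace DavisData
variable {G S : Type} [Group G] [MulAction G S] {C : CG G S} (D : DavisData C)

namespace Absb

theorem ga_pt (g : G) (w : C.W) (x : D.X) : D.ga g (D.pt w x) = D.pt (C.act g w) (g • x) := by
  rw [ga, smul_pt]
  simp

theorem exists_pt (z : D.Mt) : ∃ w x, z = D.pt w x := by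
  obtain ⟨⟨w, x⟩, rfl⟩ := Quotient.exists_rep z
  exact ⟨w, x, rfl⟩

theorem sub_sat (K : Set D.Mt) : K ⊆ D.sat K := fun z hz => by
  obtain ⟨w, x, rfl⟩ := exists_pt D z
  exact mem_iUnion.2 ⟨1, _, hz, by rw [ga_pt]; simp⟩

theorem main (ha : C.Api) (hb : D.Basic) (h : D.Step) (F : Finset C.W) :
    ∀ (T : Set C.W) (K : Set D.Mt), (∀ (g : G), ∀ v ∈ T, C.act g v ∈ T) → C.Down T →
      (∀ v ∈ T, ∃ w ∈ F, v ∈ C.orb w) → IsCompact K → K ⊆ D.U T →
      ∃ e : D.Mt → D.X, ContinuousOn e (D.sat K) ∧ InjOn e (D.sat K) ∧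
        ∀ (g : G), ∀ z ∈ D.sat K, e (D.ga g z) = g • e z := by
  classical
  induction F using Finset.strongInduction with
  | H F ih =>
  intro T K hi hd hF hK hU
  by_cases h1 : ∀ v ∈ T, v = 1
  · refine ⟨D.fold, hb.cont_fold.continuousOn, fun z hz z' hz' e => ?_, fun g z _ => ?_⟩
    · have key : ∀ z ∈ D.sat K, z = D.pt 1 (D.fold z) := fun z hz => by
        obtain ⟨g, y, hy, rfl⟩ := mem_iUnion.1 hz
        obtain ⟨w, hw, x, rfl⟩ := hU hy
        rw [h1 w hw, ga_pt, map_one, fold_pt]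
      rw [key z hz, key z' hz', e]
    · obtain ⟨w, x, rfl⟩ := exists_pt D z
      rw [ga_pt, fold_pt, fold_pt]
  have hT : ∀ v ∈ T, ∃ w ∈ F.filter (· ∈ T), C.len v = C.len w := fun v hv => by
    obtain ⟨w, hw, g, rfl⟩ := hF v hv
    refine ⟨w, Finset.mem_filter.2 ⟨hw, ?_⟩, ha.len_act g w⟩
    simpa using hi g⁻¹ _ hv
  push Not at h1
  obtain ⟨v₀, hv₀, hne⟩ := h1
  obtain ⟨w, hw, hm⟩ := (F.filter (· ∈ T)).exists_max_image C.len
    ((hT v₀ hv₀).imp fun _ h => h.1)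
  have hmax : ∀ v ∈ T, C.len v ≤ C.len w := fun v hv => by
    obtain ⟨w', hw', e⟩ := hT v hv
    exact e.trans_le (hm w' hw')
  obtain ⟨hwF, hwT⟩ := Finset.mem_filter.1 hw
  have hw1 : w ≠ 1 := by
    rintro rfl
    exact hne (ha.eq_one (Nat.le_zero.1 ((hmax v₀ hv₀).trans_eq ha.len_one)))
  obtain ⟨e, e1, e2, e3, e4⟩ := h T w K hi hd hwT hw1 hmax hK hU
  obtain ⟨f, f1, f2, f3⟩ := ih (F.erase w) (Finset.erase_ssubset hwF) (T \ C.orb w) (e '' K)
    (fun g v hv => ⟨hi g v hv.1, fun ⟨k, hk⟩ => hv.2 ⟨g⁻¹ * k, by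
      have hk' : C.act k w = C.act g v := hk
      simp [hk']⟩⟩)
    (fun v hv s hs => ⟨hd v hv.1 s hs, fun ⟨k, hk⟩ => by
      have hk' : C.act k w = v * C.gen s := hk
      have h2 := ha.len_in hs
      have h3 := hmax v hv.1
      rw [← hk', ha.len_act] at h2
      omega⟩)
    (fun v hv => by
      obtain ⟨w', hw', h2⟩ := hF v hv.1
      exact ⟨w', Finset.mem_erase.2 ⟨fun e => hv.2 (e ▸ h2), hw'⟩, h2⟩)
    (hK.image_of_continuousOn (e1.mono (sub_sat D K))) e4.image_subset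
  have hm : MapsTo e (D.sat K) (D.sat (e '' K)) := fun z hz => by
    obtain ⟨g, y, hy, rfl⟩ := mem_iUnion.1 hz
    exact mem_iUnion.2 ⟨g, e y, mem_image_of_mem e hy, (e3 g y (sub_sat D K hy)).symm⟩
  exact ⟨f ∘ e, f1.comp e1 hm, f2.comp e2 hm, fun g z hz => by
    rw [Function.comp_apply, e3 g z hz, f3 g _ (hm hz), Function.comp_apply]⟩

end Absb

theorem absorb_of (ha : C.Api) (hb : D.Basic) (h : D.Step) : D.Absorb := fun K hK => by
  obtain ⟨T, h1, h2, h3⟩ := ha.hull (hb.fin hK)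
  refine Absb.main D ha hb h h2.toFinset {v | ∃ w ∈ T, v ∈ C.orb w} K ?_ ?_
    (fun v ⟨w, hw, hv⟩ => ⟨w, h2.mem_toFinset.2 hw, hv⟩) hK fun z hz => ?_
  · rintro g _ ⟨w, hw, k, rfl⟩
    exact ⟨w, hw, g * k, by simp⟩
  · rintro _ ⟨w, hw, k, rfl⟩ s hs
    refine ⟨_, h3 w hw (k⁻¹ • s) ((ha.in_act k w _).1 (by simpa using hs)), k, by simp⟩
  · obtain ⟨w, x, rfl⟩ := Absb.exists_pt D z
    exact ⟨w, ⟨w, h1 ⟨_, hz, x, rfl⟩, 1, by simp⟩, x, rfl⟩

end DavisData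

end Vale.Agent.P260Z
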