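import Vale.Agent.P260Z.Dav.Sk

/-!
# P260: the action of the fundamental group on the universal cover
-/

noncomputable section

namespace Vale.Agent.P260Z

open Set Topology Filter

variable {G S : Type} [Group G] [MulAction G S] {C : CG G S}

theorem DavisData.act_of (D : DavisData C) (ha : C.Api) (hb : D.Basic) (hch : D.Chart) :
    D.Act := by
  obtain ⟨ch⟩ := hch
  have hpt : ∀ z : D.Mt, ∃ w x, z = D.pt w x := by
    rintro ⟨w, x⟩
    exact ⟨w, x, rfl⟩
  have hs : ∀ (γ : C.Pi) w x, γ • D.pt w x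
      = D.pt (γ.1.left * C.act γ.1.right w) (γ.1.right • x) := fun γ w x => rfl
  have := ha.cntW
  have : SigmaCompactSpace D.Mt := ⟨by
    have h1 : (univ : Set D.Mt) = ⋃ w, range (D.pt w) := (eq_univ_of_forall fun z => by
      obtain ⟨w, x, rfl⟩ := hpt z
      exact mem_iUnion.2 ⟨w, x, rfl⟩).symm
    rw [h1]
    exact isSigmaCompact_iUnion _ fun w => isSigmaCompact_range (hb.emb w).continuous⟩
  refine ⟨hb.t2, ChartedSpace.locallyCompactSpace E4 D.Mt,
    ChartedSpace.secondCountable_of_sigmaCompact E4 D.Mt,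
    ⟨fun γ => hb.cts.continuous_const_smul γ.1⟩, ⟨fun {K L} hK hL => ?_⟩,
    isCancelSMul_iff_eq_one_of_smul_eq.2 fun γ z h => ?_, ?_⟩
  · have h1 := (D.pd.finite_disjoint_inter_image (hK.image hb.cont_fold)
      (hL.image hb.cont_fold)).prod ((hb.fin hK).prod (hb.fin hL))
    refine ((h1.image fun p => (⟨p.2.2 * (C.act p.1 p.2.1)⁻¹, p.1⟩ : C.Gam)).preimage
      Subtype.val_injective.injOn).subset ?_
    rintro γ ⟨_, ⟨z, hz, rfl⟩, h2⟩
    obtain ⟨w, x, rfl⟩ := hpt z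
    refine ⟨(γ.1.right, w, γ.1.left * C.act γ.1.right w),
      ⟨⟨_, ⟨_, ⟨_, hz, rfl⟩, rfl⟩, _, h2, rfl⟩, ⟨_, hz, x, rfl⟩, _, h2, _, (hs γ w x).symm⟩, ?_⟩
    exact SemidirectProduct.ext (mul_inv_cancel_right _ _) rfl
  · obtain ⟨w, x, rfl⟩ := hpt z
    obtain ⟨h1, h2⟩ := D.pt_eq.1 ((hs γ w x).symm.trans h)
    have h3 : γ.1.right = 1 := IsCancelSMul.eq_one_of_smul h1
    have h4 : C.par γ.1.left = 1 := γ.2
    have h5 := ha.par_Wof (hb.sig_clique _) h2
      (by rw [map_mul, map_inv, map_mul, h4, C.par_act, one_mul, inv_mul_cancel])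
    rw [h3, map_one, MulAut.one_apply, inv_mul_eq_one, mul_eq_right] at h5
    exact Subtype.ext (SemidirectProduct.ext h5 h3)
  · obtain ⟨K, hK, h⟩ := D.cpt
    have : Nonempty C.W := ⟨1⟩
    refine ⟨⋃ a, D.pt (Function.invFun C.par a) '' K,
      isCompact_iUnion fun a => hK.image (hb.emb _).continuous, fun z => ?_⟩
    obtain ⟨w, x, rfl⟩ := hpt z
    obtain ⟨g, hg⟩ := h x
    refine ⟨⟨⟨Function.invFun C.par (C.par w) * (C.act g w)⁻¹, g⟩, ?_⟩,
      mem_iUnion.2 ⟨C.par w, _, hg, ?_⟩⟩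
    · show C.par (_ * _) = 1
      rw [map_mul, map_inv, C.par_act, Function.invFun_eq (f := C.par) ⟨w, rfl⟩,
        mul_inv_cancel]
    · rw [hs, inv_mul_cancel_right]

end Vale.Agent.P260Z
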