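import Vale.Agent.P260Z.Dav.Sk

/-!
# P260: products of cliques in a right angled Coxeter group
-/

noncomputable section

namespace Vale.Agent.P260Z

open Set

namespace CG
variable {G S : Type} [Group G] [MulAction G S] (C : CG G S)

namespace ApiAux

open Classical

variable {C}

theorem comm {τ : Set S} (h : C.gr.IsClique τ) {s t : S} (hs : s ∈ τ) (ht : t ∈ τ) :
    Commute (C.gen s) (C.gen t) := by
  by_cases e : s = t
  · rw [e]
  · exact C.gen_comm (h hs ht e)

theorem col_inj {τ : Set S} (h : C.gr.IsClique τ) : InjOn C.col τ := fun s hs t ht e => by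
  by_contra h1
  exact C.col_ne (h hs ht h1) e

theorem fin {τ : Set S} (h : C.gr.IsClique τ) : τ.Finite :=
  Finite.of_finite_image (toFinite _) (col_inj h)

theorem pr_empty : C.pr ∅ = 1 := by simp [pr]

theorem pr_insert {ρ : Finset S} {s : S} (h : C.gr.IsClique (insert s (ρ : Set S)))
    (hs : s ∉ ρ) : C.pr (insert s ρ) = C.pr ρ * C.gen s := by
  have h1 : (insert s ρ).toList.Perm (ρ.toList ++ [s]) :=
    (Finset.toList_insert hs).trans (List.perm_append_singleton s ρ.toList).symm
  have h2 := (h1.map C.gen).prod_eq' (List.pairwise_map.2 (List.pairwise_of_forall_mem_list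
    fun a ha b hb => comm h (by simpa using ha) (by simpa using hb)))
  simpa [pr] using h2

theorem pr_gen {ρ : Finset S} {s : S} (h : C.gr.IsClique (insert s (ρ : Set S))) :
    C.pr ρ * C.gen s = C.pr (symmDiff ρ {s}) := by
  by_cases hs : s ∈ ρ
  · have e : symmDiff ρ {s} = ρ.erase s := by
      ext t
      simp only [Finset.mem_symmDiff, Finset.mem_singleton, Finset.mem_erase]
      grind
    have h1 := pr_insert (ρ := ρ.erase s) (s := s) (h.subset (insert_subset_insert
      (Finset.coe_subset.2 (ρ.erase_subset s)))) (Finset.notMem_erase s ρ)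
    rw [Finset.insert_erase hs] at h1
    rw [e, h1, mul_assoc, C.gen_mul_self, mul_one]
  · rw [← pr_insert h hs]
    congr 1
    ext t
    simp only [Finset.mem_symmDiff, Finset.mem_singleton, Finset.mem_insert]
    grind

theorem pr_mul {ρ ρ' : Finset S} (h : C.gr.IsClique ((ρ : Set S) ∪ ρ')) :
    C.pr ρ * C.pr ρ' = C.pr (symmDiff ρ ρ') := by
  induction ρ' using Finset.induction_on with
  | empty => rw [pr_empty, mul_one, ← Finset.bot_eq_empty, symmDiff_bot]
  | insert s ρ' hs ih =>
    rw [pr_insert (h.subset (by rw [← Finset.coe_insert]; exact subset_union_right)) hs, ← mul_assoc, ih (h.subset (by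
      intro t; simp only [Finset.coe_insert, mem_union, mem_insert_iff]; tauto)),
      pr_gen (h.subset (by
        intro t
        simp only [Finset.coe_insert, mem_union, mem_insert_iff, Finset.mem_coe,
          Finset.mem_symmDiff]
        tauto))]
    congr 1
    ext t
    simp only [Finset.mem_symmDiff, Finset.mem_singleton, Finset.mem_insert]
    grind

theorem pr_inv {ρ : Finset S} (h : C.gr.IsClique (ρ : Set S)) : (C.pr ρ)⁻¹ = C.pr ρ :=
  inv_eq_of_mul_eq_one_right (by
    rw [pr_mul (by rwa [union_self]), symmDiff_self, Finset.bot_eq_empty, pr_empty])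

theorem clique_smul (g : G) {ρ : Finset S} (h : C.gr.IsClique (ρ : Set S)) :
    C.gr.IsClique (ρ.image (g • ·) : Set S) := by
  intro a ha b hb hab
  simp only [Finset.coe_image, mem_image, Finset.mem_coe] at ha hb
  obtain ⟨a, ha, rfl⟩ := ha
  obtain ⟨b, hb, rfl⟩ := hb
  exact C.adj_smul g (h ha hb fun e => hab (by rw [e]))

theorem pr_act (g : G) {ρ : Finset S} (h : C.gr.IsClique (ρ : Set S)) :
    C.act g (C.pr ρ) = C.pr (ρ.image (g • ·)) := by
  induction ρ using Finset.induction_on with
  | empty => simp [pr_empty]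
  | insert s ρ hs ih =>
    have h1 := clique_smul g h
    rw [Finset.image_insert] at h1 ⊢
    rw [pr_insert (by simpa using h) hs, map_mul, ih (h.subset (by simp)), act_gen,
      pr_insert (by simpa using h1) (by simpa using hs)]

theorem mem_Wof {τ : Set S} {u : C.W} (h : C.gr.IsClique τ) :
    u ∈ C.Wof τ ↔ ∃ ρ : Finset S, (ρ : Set S) ⊆ τ ∧ u = C.pr ρ := by
  constructor
  · intro hu
    refine Subgroup.closure_induction
      (p := fun u _ => ∃ ρ : Finset S, (ρ : Set S) ⊆ τ ∧ u = C.pr ρ) ?_ ?_ ?_ ?_ hu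
    · rintro _ ⟨s, hs, rfl⟩
      exact ⟨{s}, by simpa using hs, by simp [pr]⟩
    · exact ⟨∅, by simp, pr_empty.symm⟩
    · rintro _ _ _ _ ⟨ρ, h1, rfl⟩ ⟨ρ', h2, rfl⟩
      refine ⟨_, fun t ht => ?_, pr_mul (h.subset (union_subset h1 h2))⟩
      rcases Finset.mem_symmDiff.1 ht with h3 | h3
      exacts [h1 h3.1, h2 h3.1]
    · rintro _ _ ⟨ρ, h1, rfl⟩
      exact ⟨ρ, h1, pr_inv (h.subset h1)⟩
  · rintro ⟨ρ, h1, rfl⟩
    refine Subgroup.list_prod_mem _ fun x hx => Subgroup.subset_closure ?_
    obtain ⟨s, hs, rfl⟩ := List.mem_map.1 hx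
    exact ⟨s, h1 (by simpa using hs), rfl⟩

theorem hom_pr {ι : Type} (φ : C.W →* Multiplicative (ι → ZMod 2)) (ρ : Finset S) (i : ι) :
    (φ (C.pr ρ)).toAdd i = ∑ s ∈ ρ, (φ (C.gen s)).toAdd i := by
  have : φ (C.pr ρ) = ∏ s ∈ ρ, φ (C.gen s) := by
    rw [pr, map_list_prod, List.map_map, Finset.prod_map_toList]
    rfl
  rw [this, toAdd_prod, Finset.sum_apply]

theorem par_Wof {τ : Set S} {u : C.W} (h : C.gr.IsClique τ) (hu : u ∈ C.Wof τ)
    (hp : C.par u = 1) : u = 1 := by
  obtain ⟨ρ, h1, rfl⟩ := (mem_Wof h).1 hu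
  rcases ρ.eq_empty_or_nonempty with rfl | ⟨s, hs⟩
  · exact pr_empty
  · have h2 := hom_pr C.par ρ (C.col s)
    rw [hp, Finset.sum_eq_single s (fun t ht e => by
      simpa [par, Pi.single_apply] using fun e' => e (col_inj h (h1 ht) (h1 hs) e'.symm))
      (fun e => absurd hs e)] at h2
    simp [par] at h2

theorem pr_inj {ρ ρ' : Finset S} (h : C.pr ρ = C.pr ρ') : ρ = ρ' := by
  let φ : C.W →* Multiplicative (S → ZMod 2) :=
    C.lift (fun s => Multiplicative.ofAdd (Pi.single s 1))
      (fun s => by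
        rw [← ofAdd_add, ← Pi.single_add]
        have : (1 : ZMod 2) + 1 = 0 := rfl
        simp [this])
      fun _ _ _ => mul_comm _ _
  have h1 : ∀ (ρ : Finset S) s, (φ (C.pr ρ)).toAdd s = if s ∈ ρ then 1 else 0 := fun ρ s => by
    rw [hom_pr]
    simp [φ, Pi.single_apply]
  ext s
  have h2 := h1 ρ s
  rw [h, h1] at h2
  by_cases a : s ∈ ρ <;> by_cases b : s ∈ ρ' <;> simp_all

variable (h : C.Len)
include h

theorem len_act_le (g : G) (w : C.W) : C.len (C.act g w) ≤ C.len w := by
  obtain ⟨l, h1, h2⟩ := h.word w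
  have := h.len_le (l.map (g • ·))
  rw [List.length_map, h1] at this
  refine le_trans (le_of_eq ?_) this
  rw [← h2, map_list_prod, List.map_map, List.map_map]
  congr 3

theorem len_act (g : G) (w : C.W) : C.len (C.act g w) = C.len w :=
  (len_act_le h g w).antisymm (by simpa using len_act_le h g⁻¹ (C.act g w))

theorem in_act (g : G) (w : C.W) (s : S) : g • s ∈ C.In (C.act g w) ↔ s ∈ C.In w := by
  show C.len _ < _ ↔ C.len _ < _
  rw [← act_gen, ← map_mul, len_act h, len_act h]

theorem in_pr (w : C.W) {ρ : Finset S} {s : S} (hc : C.gr.IsClique (insert s (ρ : Set S)))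
    (hs : s ∉ ρ) : s ∈ C.In (w * C.pr ρ) ↔ s ∈ C.In w := by
  induction ρ using Finset.induction_on with
  | empty => rw [pr_empty, mul_one]
  | insert t ρ ht ih =>
    rw [Finset.mem_insert, not_or] at hs
    rw [pr_insert (hc.subset (by simp)) ht, ← mul_assoc,
      h.in_adj (hc (by simp) (by simp) (Ne.symm hs.1)),
      ih (hc.subset (insert_subset_insert (by simp))) hs.2]

theorem len_pr (w : C.W) {ρ : Finset S} (hc : C.gr.IsClique (ρ : Set S)) :
    C.len (w * C.pr ρ) + 2 * (ρ.filter (· ∈ C.In w)).card = C.len w + ρ.card := by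
  induction ρ using Finset.induction_on with
  | empty => simp [pr_empty]
  | insert s ρ hs ih =>
    have hc' : C.gr.IsClique (insert s (ρ : Set S)) := by simpa using hc
    have h1 := ih (hc.subset (by simp))
    rw [pr_insert hc' hs, ← mul_assoc, Finset.card_insert_of_notMem hs, Finset.filter_insert]
    split_ifs with h2
    · have := h.len_in ((in_pr h w hc' hs).2 h2)
      rw [Finset.card_insert_of_notMem (by simp [hs])]
      omega
    · have := h.len_out fun h3 => h2 ((in_pr h w hc' hs).1 h3)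
      omega

theorem down_pr {T : Set C.W} {w : C.W} {ρ δ : Finset S} (hT : C.Down T)
    (hc : C.gr.IsClique (δ ∪ ρ : Finset S)) (hd : ∀ s ∈ δ, s ∉ ρ ∧ s ∈ C.In w)
    (hw : w * C.pr ρ ∈ T) : w * C.pr (δ ∪ ρ) ∈ T := by
  induction δ using Finset.induction_on with
  | empty => simpa using hw
  | insert s δ hs ih =>
    rw [Finset.insert_union] at hc ⊢
    have hc' : C.gr.IsClique (insert s ((δ ∪ ρ : Finset S) : Set S)) := by
      rwa [Finset.coe_insert] at hc
    have h1 : s ∉ δ ∪ ρ := by simp [hs, (hd s (by simp)).1]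
    rw [pr_insert hc' h1, ← mul_assoc]
    exact hT _ (ih (hc'.subset (subset_insert _ _)) fun t ht => hd t (by simp [ht])) s
      ((in_pr h w hc' h1).2 (hd s (by simp)).2)

theorem hull_one (w : C.W) : ∃ T, w ∈ T ∧ T.Finite ∧ C.Down T := by
  induction hn : C.len w using Nat.strong_induction_on generalizing w with
  | _ n ih =>
    choose! T h1 h2 h3 using fun s (hs : s ∈ C.In w) => ih _ (hn ▸ hs) (w * C.gen s) rfl
    refine ⟨insert w (⋃ s ∈ C.In w, T s), mem_insert _ _,
      ((fin (h.clique w)).biUnion h2).insert w, ?_⟩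
    rintro v (rfl | hv) s hs
    · exact Or.inr (mem_biUnion hs (h1 s hs))
    · obtain ⟨t, ht, hv⟩ := mem_iUnion₂.1 hv
      exact Or.inr (mem_biUnion ht (h3 t ht v hv s hs))

end ApiAux

open ApiAux in
theorem api_of (C : CG G S) (h : C.Len) : C.Api where
  toLen := h
  cntW := by
    have := C.cnt
    exact Function.Surjective.countable (f := fun l : List S => (l.map C.gen).prod)
      fun w => (h.word w).imp fun _ hl => hl.2
  len_act := len_act h
  in_act := in_act h
  act_free {g w} hw e := by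
    obtain ⟨s, hs⟩ := h.in_ne hw
    have h1 := (in_act h g w s).2 hs
    rw [e] at h1
    exact C.free g s (col_inj (h.clique w) h1 hs (C.col_smul g s))
  fin := fin
  pr_empty := pr_empty
  pr_insert := pr_insert
  pr_mul := pr_mul
  pr_inv := pr_inv
  pr_act := pr_act
  mem_Wof := mem_Wof
  par_Wof := par_Wof
  pr_inj _ _ := pr_inj
  len_pr := len_pr h
  down_pr {T w ρ ρ'} hT hc hs hd hw := by
    classical
    have e : ρ' \ ρ ∪ ρ = ρ' := Finset.sdiff_union_of_subset hs
    rw [← e]
    refine down_pr h hT (by rwa [e]) (fun s hs => ?_) hw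
    rw [Finset.mem_sdiff] at hs
    exact ⟨hs.2, hd s hs.1 hs.2⟩
  hull {F} hF := by
    choose T h1 h2 h3 using hull_one h
    refine ⟨⋃ w ∈ F, T w, fun w hw => mem_biUnion hw (h1 w), hF.biUnion fun w _ => h2 w, ?_⟩
    intro v hv s hs
    obtain ⟨w, hw, hv⟩ := mem_iUnion₂.1 hv
    exact mem_biUnion hw (h3 w v hv s hs)

end CG

end Vale.Agent.P260Z
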