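import Vale.Agent.P260Z.Dav.Sk

/-!
# P260: the point set topology of the universal cover
-/

noncomputable section

namespace Vale.Agent.P260Z

open Set Topology Filter

namespace DavisData
variable {G S : Type} [Group G] [MulAction G S] {C : CG G S} (D : DavisData C)

theorem bc_inj : InjOn D.c C.Col := fun a ha b hb h =>
  congrArg Subtype.val (D.c_emb.injective (a₁ := ⟨a, ha⟩) (a₂ := ⟨b, hb⟩) h)

theorem bsig_c {q} (hq : q ∈ C.Col) : D.sig (D.c q) = {s | q s = 1} := by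
  ext s
  constructor
  · rintro ⟨q', hq', h, hs⟩
    rw [← D.bc_inj hq' hq h]
    exact hs
  · intro h
    exact ⟨q, hq, rfl, h⟩

theorem bsig_not {x} (hx : x ∉ D.c '' C.Col) : D.sig x = ∅ := by
  ext s
  constructor
  · rintro ⟨q, hq, h, _⟩
    exact absurd ⟨q, hq, h⟩ hx
  · intro h
    exact h.elim

theorem bsig_clique (x : D.X) : C.gr.IsClique (D.sig x) := by
  by_cases hx : x ∈ D.c '' C.Col
  · obtain ⟨q, hq, rfl⟩ := hx
    rw [D.bsig_c hq]
    refine hq.1.2.subset fun s hs => ?_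
    have h1 : q s = 1 := hs
    show q s ≠ 0
    rw [h1]
    exact one_ne_zero
  · rw [D.bsig_not hx]
    exact SimpleGraph.isClique_empty

theorem bsig_empty {x} : D.sig x = ∅ ↔ x ∉ D.c '' C.Bd := by
  constructor
  · rintro h ⟨q, ⟨hq, s, hs⟩, rfl⟩
    have : s ∈ D.sig (D.c q) := ⟨q, hq, rfl, hs⟩
    rw [h] at this
    exact this
  · intro h
    ext s
    constructor
    · rintro ⟨q, hq, hx, hs⟩
      exact absurd ⟨q, ⟨hq, s, hs⟩, hx⟩ h
    · intro h
      exact h.elim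

theorem brange : range (C.Col.domRestrict D.c) = D.c '' C.Col := by
  ext y
  constructor
  · rintro ⟨q, rfl⟩
    exact ⟨q.1, q.2, rfl⟩
  · rintro ⟨q, hq, rfl⟩
    exact ⟨⟨q, hq⟩, rfl⟩

theorem bsig_nhds (hc : C.ConeF) (x : D.X) : ∀ᶠ y in 𝓝 x, D.sig y ⊆ D.sig x := by
  by_cases hx : x ∈ D.c '' C.Col
  · obtain ⟨q, hq, rfl⟩ := hx
    obtain ⟨s0, hs0⟩ := hq.2.2
    obtain ⟨F, hF, hev⟩ := hc.lf hq.1 ⟨s0, by linarith⟩
    have hT : Tendsto (Subtype.val : C.Col → S → ℝ) (𝓝 ⟨q, hq⟩) (𝓝[C.Cone] q) :=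
      tendsto_nhdsWithin_iff.2 ⟨continuous_subtype_val.tendsto _,
        Eventually.of_forall fun q' => q'.2.1⟩
    have h2 : ∀ᶠ q' : C.Col in 𝓝 ⟨q, hq⟩, ∀ s ∈ F, q s ≠ 1 → q'.1 s ≠ 1 := by
      rw [eventually_all_finite hF]
      intro s _
      by_cases h : q s = 1
      · exact Eventually.of_forall fun _ h' => absurd h h'
      · have hcs : Continuous fun q' : C.Col => q'.1 s :=
          (continuous_apply s).comp continuous_subtype_val
        have := hcs.continuousAt (x := ⟨q, hq⟩) |>.eventually_ne (y := 1) h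
        exact this.mono fun _ h1 _ => h1
    have h3 : ∀ᶠ q' : C.Col in 𝓝 ⟨q, hq⟩,
        D.sig (C.Col.domRestrict D.c q') ⊆ D.sig (D.c q) := by
      filter_upwards [hT.eventually hev, h2] with q' h1 h2
      show D.sig (D.c q'.1) ⊆ _
      rw [D.bsig_c q'.2, D.bsig_c hq]
      intro s hs
      have hs1 : q'.1 s = 1 := hs
      by_contra hn
      exact h2 s (h1 s (by rw [hs1]; exact one_ne_zero)) hn hs1
    have h4 : ∀ᶠ y in map (C.Col.domRestrict D.c) (𝓝 ⟨q, hq⟩), D.sig y ⊆ D.sig (D.c q) := h3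
    rw [D.c_emb.isInducing.map_nhds_eq, eventually_nhdsWithin_iff, D.brange] at h4
    filter_upwards [h4] with y hy
    by_cases hy' : y ∈ D.c '' C.Col
    · exact hy hy'
    · rw [D.bsig_not hy']
      exact empty_subset _
  · have hcl : IsClosed (D.c '' C.Col) := D.brange ▸ D.c_emb.isClosed_range
    filter_upwards [hcl.isOpen_compl.mem_nhds hx] with y hy
    rw [D.bsig_not hy]
    exact empty_subset _

theorem bclosed_Bd (hc : C.ConeF) : IsClosed (D.c '' C.Bd) := by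
  rw [← isOpen_compl_iff, isOpen_iff_mem_nhds]
  intro x hx
  filter_upwards [D.bsig_nhds hc x] with y hy
  rw [D.bsig_empty.2 hx] at hy
  exact D.bsig_empty.1 (subset_empty_iff.1 hy)

theorem bcont_pt (w : C.W) : Continuous (D.pt w) :=
  continuous_quotient_mk'.comp (Continuous.prodMk_right w)

theorem bisOpen_iff {O : Set D.Mt} : IsOpen O ↔ ∀ w, IsOpen (D.pt w ⁻¹' O) := by
  refine ⟨fun h w => h.preimage (D.bcont_pt w), fun h => ?_⟩
  have h1 : IsOpen ((Quotient.mk D.rel) ⁻¹' O) := by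
    have : (Quotient.mk D.rel) ⁻¹' O = ⋃ w : C.W, ({w} : Set C.W) ×ˢ (D.pt w ⁻¹' O) := by
      ext ⟨w, x⟩
      constructor
      · intro hx
        exact mem_iUnion.2 ⟨w, rfl, hx⟩
      · intro hx
        obtain ⟨w', h1, h2⟩ := mem_iUnion.1 hx
        have h3 : w = w' := h1
        subst h3
        exact h2
    rw [this]
    exact isOpen_iUnion fun w => (isOpen_discrete _).prod (h w)
  exact isOpen_coinduced.2 h1

theorem bisClosed_iff {O : Set D.Mt} : IsClosed O ↔ ∀ w, IsClosed (D.pt w ⁻¹' O) := by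
  simp only [← isOpen_compl_iff, D.bisOpen_iff, preimage_compl]

theorem bcont_fold : Continuous D.fold := by
  rw [continuous_def]
  intro U hU
  rw [D.bisOpen_iff]
  intro w
  exact hU

theorem bexists (z : D.Mt) : ∃ w x, z = D.pt w x := by
  obtain ⟨⟨w, x⟩, rfl⟩ := Quotient.exists_rep z
  exact ⟨w, x, rfl⟩

theorem bWof_mono {τ τ' : Set S} (h : τ ⊆ τ') : C.Wof τ ≤ C.Wof τ' :=
  Subgroup.closure_mono (image_mono h)

theorem bWof_empty : C.Wof ∅ = ⊥ := by
  simp [CG.Wof]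

theorem bclosed_mem (hc : C.ConeF) (u : C.W) : IsClosed {y | u ∈ C.Wof (D.sig y)} := by
  rw [← isOpen_compl_iff, isOpen_iff_mem_nhds]
  intro x hx
  filter_upwards [D.bsig_nhds hc x] with y hy hu
  exact hx (bWof_mono hy hu)

theorem bpre (w w' : C.W) (A : Set D.X) :
    D.pt w' ⁻¹' (D.pt w '' A) = A ∩ {y | w⁻¹ * w' ∈ C.Wof (D.sig y)} := by
  ext y
  constructor
  · rintro ⟨x, hx, h⟩
    obtain ⟨rfl, h2⟩ := D.pt_eq.1 h
    exact ⟨hx, h2⟩
  · rintro ⟨h1, h2⟩
    exact ⟨y, h1, D.pt_eq.2 ⟨rfl, h2⟩⟩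

theorem bemb (hc : C.ConeF) (w : C.W) : IsClosedEmbedding (D.pt w) := by
  refine IsClosedEmbedding.of_continuous_injective_isClosedMap (D.bcont_pt w)
    (fun x y h => (D.pt_eq.1 h).1) fun A hA => ?_
  rw [D.bisClosed_iff]
  intro w'
  rw [D.bpre]
  exact hA.inter (D.bclosed_mem hc _)

theorem bopen_int (hc : C.ConeF) (w : C.W) : IsOpen (D.pt w '' (D.c '' C.Bd)ᶜ) := by
  rw [D.bisOpen_iff]
  intro w'
  rw [D.bpre]
  by_cases h : w⁻¹ * w' = 1
  · have : {y | w⁻¹ * w' ∈ C.Wof (D.sig y)} = univ := by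
      rw [h]
      exact eq_univ_of_forall fun y => (C.Wof (D.sig y)).one_mem
    rw [this, inter_univ]
    exact (D.bclosed_Bd hc).isOpen_compl
  · have : (D.c '' C.Bd)ᶜ ∩ {y | w⁻¹ * w' ∈ C.Wof (D.sig y)} = ∅ := by
      refine eq_empty_of_forall_notMem fun y hy => h ?_
      have h2 : w⁻¹ * w' ∈ C.Wof (D.sig y) := hy.2
      rw [D.bsig_empty.2 hy.1, bWof_empty] at h2
      exact h2
    rw [this]
    exact isOpen_empty

/-- the standard neighbourhood -/
def bV (w : C.W) (x : D.X) : Set D.Mt :=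
  {z | ∃ w', w⁻¹ * w' ∈ C.Wof (D.sig x) ∧
    ∃ y ∈ interior {y | D.sig y ⊆ D.sig x}, z = D.pt w' y}

theorem bmem_V {w w' : C.W} {x y : D.X} : D.pt w' y ∈ D.bV w x ↔
    w⁻¹ * w' ∈ C.Wof (D.sig x) ∧ y ∈ interior {y | D.sig y ⊆ D.sig x} := by
  constructor
  · rintro ⟨w'', h1, y', h2, h3⟩
    obtain ⟨rfl, h4⟩ := D.pt_eq.1 h3
    refine ⟨?_, h2⟩
    have h5 := bWof_mono (interior_subset h2) h4
    have h6 := mul_mem h1 (inv_mem h5)
    simpa [mul_assoc] using h6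
  · rintro ⟨h1, h2⟩
    exact ⟨w', h1, y, h2, rfl⟩

theorem bopen_V (w : C.W) (x : D.X) : IsOpen (D.bV w x) := by
  rw [D.bisOpen_iff]
  intro w'
  by_cases h : w⁻¹ * w' ∈ C.Wof (D.sig x)
  · have : D.pt w' ⁻¹' D.bV w x = interior {y | D.sig y ⊆ D.sig x} := by
      ext y
      exact D.bmem_V.trans ⟨fun h => h.2, fun h' => ⟨h, h'⟩⟩
    rw [this]
    exact isOpen_interior
  · have : D.pt w' ⁻¹' D.bV w x = ∅ :=
      eq_empty_of_forall_notMem fun y hy => h (D.bmem_V.1 hy).1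
    rw [this]
    exact isOpen_empty

theorem bself_V (hc : C.ConeF) (w : C.W) (x : D.X) : D.pt w x ∈ D.bV w x :=
  D.bmem_V.2 ⟨by simp, mem_interior_iff_mem_nhds.2 (D.bsig_nhds hc x)⟩

theorem bfin_Wof (ha : C.Api) {τ : Set S} (h : C.gr.IsClique τ) :
    (C.Wof τ : Set C.W).Finite := by
  have h1 : {ρ : Finset S | (ρ : Set S) ⊆ τ}.Finite :=
    (ha.fin h).finite_subsets.preimage Finset.coe_injective.injOn
  refine (h1.image C.pr).subset fun u hu => ?_
  obtain ⟨ρ, h2, rfl⟩ := (ha.mem_Wof h).1 hu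
  exact ⟨ρ, h2, rfl⟩

theorem blf (ha : C.Api) (hc : C.ConeF) : LocallyFinite fun w => range (D.pt w) := by
  intro z
  obtain ⟨w, x, rfl⟩ := D.bexists z
  refine ⟨D.bV w x, (D.bopen_V w x).mem_nhds (D.bself_V hc w x), ?_⟩
  refine ((bfin_Wof ha (D.bsig_clique x)).image (w * ·)).subset ?_
  rintro w' ⟨_, ⟨y, rfl⟩, hy⟩
  exact ⟨w⁻¹ * w', (D.bmem_V.1 hy).1, by simp⟩

theorem bt2 (hc : C.ConeF) : T2Space D.Mt := by
  refine ⟨fun z z' hne => ?_⟩
  obtain ⟨w, x, rfl⟩ := D.bexists z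
  obtain ⟨w', x', rfl⟩ := D.bexists z'
  by_cases hx : x = x'
  · subst hx
    refine ⟨D.bV w x, D.bV w' x, D.bopen_V _ _, D.bopen_V _ _, D.bself_V hc _ _,
      D.bself_V hc _ _, ?_⟩
    rw [Set.disjoint_left]
    intro z h1 h2
    obtain ⟨w'', y, rfl⟩ := D.bexists z
    have h3 := mul_mem (D.bmem_V.1 h1).1 (inv_mem (D.bmem_V.1 h2).1)
    exact hne (D.pt_eq.2 ⟨rfl, by simpa [mul_assoc] using h3⟩)
  · exact separated_by_continuous D.bcont_fold (by simpa using hx)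

theorem bcts : ContinuousConstSMul C.Gam D.Mt := by
  refine ⟨fun γ => ?_⟩
  rw [continuous_def]
  intro O hO
  rw [D.bisOpen_iff]
  intro w
  exact ((D.bisOpen_iff.1 hO) (γ.left * C.act γ.right w)).preimage
    (continuous_const_smul γ.right)

theorem basic_of (D : DavisData C) (ha : C.Api) (hc : C.ConeF) : D.Basic where
  c_inj := D.bc_inj
  sig_c := D.bsig_c
  sig_clique := D.bsig_clique
  sig_empty := D.bsig_empty
  sig_nhds := D.bsig_nhds hc
  closed_Bd := D.bclosed_Bd hc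
  isOpen_iff := D.bisOpen_iff
  cont_fold := D.bcont_fold
  emb := D.bemb hc
  open_int := D.bopen_int hc
  lf := D.blf ha hc
  fin := fun hK => by
    simpa only [inter_comm] using (D.blf ha hc).finite_nonempty_inter_compact hK
  t2 := D.bt2 hc
  cts := D.bcts

end DavisData

end Vale.Agent.P260Z
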