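import Vale.Agent.P260Z.Dav.Sk

/-!
# P260: the union of the panels of a simplex is an absolute extensor
-/

noncomputable section

namespace Vale.Agent.P260Z

open Set Topology

namespace BsAux
variable {G S : Type} [Group G] [MulAction G S] (C : CG G S)

open Classical in
/-- one coordinate of a box -/
def side (ρ τ : Set S) (s : S) : Set ℝ :=
  if s ∈ ρ then Icc 1 1 else if s ∈ τ then Icc 0 1 else Icc 0 0

/-- the face of the cube of `τ` where the coordinates in `ρ` are `1` -/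
def box (ρ τ : Set S) : Set (S → ℝ) := Set.pi univ (side ρ τ)

theorem mem_box {ρ τ : Set S} (h : ρ ⊆ τ) {q : S → ℝ} :
    q ∈ box ρ τ ↔ (∀ s, 0 ≤ q s) ∧ (∀ s, q s ≤ 1) ∧ (∀ s ∈ ρ, q s = 1) ∧ ∀ s, q s ≠ 0 → s ∈ τ := by
  simp only [box, Set.mem_pi, mem_univ, true_imp_iff]
  constructor
  · intro H
    refine ⟨fun s => ?_, fun s => ?_, fun s hs => ?_, fun s hs => ?_⟩
    · have := H s
      unfold side at this
      split_ifs at this <;> linarith [this.1]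
    · have := H s
      unfold side at this
      split_ifs at this <;> linarith [this.2]
    · have := H s
      unfold side at this
      rw [if_pos hs] at this
      exact le_antisymm this.2 this.1
    · by_contra hn
      have := H s
      unfold side at this
      rw [if_neg fun h' => hn (h h'), if_neg hn] at this
      exact hs (le_antisymm this.2 this.1)
  · rintro ⟨h0, h1, h2, h3⟩ s
    unfold side
    split_ifs with a b
    · exact ⟨(h2 s a).ge, h1 s⟩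
    · exact ⟨h0 s, h1 s⟩
    · have : q s = 0 := by
        by_contra hn
        exact b (h3 s hn)
      exact ⟨this.ge, this.le⟩

theorem closed_box (ρ τ : Set S) : IsClosed (box ρ τ) := by
  refine isClosed_set_pi fun s _ => ?_
  unfold side
  split_ifs <;> exact isClosed_Icc

theorem ae_box (h1 : AE1) (ρ τ : Set S) : AE (box ρ τ) := by
  refine h1.pi fun s => ?_
  unfold side
  split_ifs
  · exact h1.icc le_rfl
  · exact h1.icc zero_le_one
  · exact h1.icc le_rfl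

/-- the points whose coordinates in `ρ` are `1` -/
def face (ρ : Set S) : Set (S → ℝ) := {q | q ∈ C.Cone ∧ (∀ s, q s ≤ 1) ∧ ∀ s ∈ ρ, q s = 1}

/-- the boxes of a face -/
def boxes (ρ : Set S) : Set (Set (S → ℝ)) := box ρ '' {τ | ρ ⊆ τ ∧ C.gr.IsClique τ}

theorem sub_nb {τ : Set S} (hτ : C.gr.IsClique τ) {s : S} (hs : s ∈ τ) :
    τ ⊆ insert s (C.gr.neighborSet s) := by
  intro t ht
  by_cases h : t = s
  · exact Or.inl h
  · exact Or.inr (hτ hs ht (Ne.symm h))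

theorem boxes_fin {ρ : Set S} (hρ : ρ.Nonempty) : (boxes C ρ).Finite := by
  obtain ⟨s, hs⟩ := hρ
  refine Finite.image _ (((C.lf s).insert s).finite_subsets.subset ?_)
  rintro τ ⟨h, hτ⟩
  exact sub_nb C hτ (h hs)

theorem face_eq (ρ : Set S) : face C ρ = ⋃₀ boxes C ρ := by
  ext q
  constructor
  · rintro ⟨⟨h0, hc⟩, h1, h2⟩
    have hs : ρ ⊆ {s | q s ≠ 0} := fun s hs => by
      show q s ≠ 0
      rw [h2 s hs]
      exact one_ne_zero
    exact ⟨_, ⟨_, ⟨hs, hc⟩, rfl⟩, (mem_box hs).2 ⟨h0, h1, h2, fun _ h => h⟩⟩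
  · rintro ⟨_, ⟨τ, ⟨h, hτ⟩, rfl⟩, hq⟩
    obtain ⟨h0, h1, h2, h3⟩ := (mem_box h).1 hq
    exact ⟨⟨h0, hτ.subset h3⟩, h1, h2⟩

theorem closed_face {ρ : Set S} (hρ : ρ.Nonempty) : IsClosed (face C ρ) := by
  rw [face_eq, sUnion_eq_biUnion]
  refine (boxes_fin C hρ).isClosed_biUnion ?_
  rintro _ ⟨τ, _, rfl⟩
  exact closed_box ρ τ

theorem ae_face (h1 : AE1) (h2 : AE2) {ρ : Set S} (hρ : ρ.Nonempty) (hc : C.gr.IsClique ρ) :
    AE (face C ρ) := by
  rw [face_eq]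
  refine h2.fam (F := boxes C ρ) ?_ ?_ _ Subset.rfl (boxes_fin C hρ) ⟨_, ρ, ⟨Subset.rfl, hc⟩, rfl⟩
  · rintro _ ⟨τ, _, rfl⟩
    exact ⟨closed_box ρ τ, ae_box h1 ρ τ⟩
  · rintro _ ⟨τ, ⟨h, hτ⟩, rfl⟩ _ ⟨τ', ⟨h', _⟩, rfl⟩
    refine ⟨τ ∩ τ', ⟨subset_inter h h', hτ.subset inter_subset_left⟩, ?_⟩
    ext q
    rw [mem_inter_iff, mem_box h, mem_box h', mem_box (subset_inter h h')]
    constructor
    · rintro ⟨a, b, c, d⟩
      exact ⟨⟨a, b, c, fun s hs => (d s hs).1⟩, a, b, c, fun s hs => (d s hs).2⟩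
    · rintro ⟨⟨a, b, c, d⟩, -, -, -, e⟩
      exact ⟨a, b, c, fun s hs => ⟨d s hs, e s hs⟩⟩

end BsAux

open BsAux in
theorem CG.bsAE_of {G S : Type} [Group G] [MulAction G S] (C : CG G S) (h1 : AE1) (h2 : AE2)
    (hc : C.ConeF) : C.BsAE := by
  have _ := hc
  intro σ hσ hq
  have hfin : σ.Finite := by
    obtain ⟨s, hs⟩ := hσ
    exact ((C.lf s).insert s).subset (sub_nb C hq hs)
  have e : C.Bs σ = ⋃₀ (face C '' {ρ | ρ ⊆ σ ∧ ρ.Nonempty}) := by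
    ext q
    constructor
    · rintro ⟨⟨a, b, -⟩, s, hs, h⟩
      refine ⟨_, ⟨{s}, ⟨singleton_subset_iff.2 hs, singleton_nonempty s⟩, rfl⟩, a, b, ?_⟩
      rintro _ rfl
      exact h
    · rintro ⟨_, ⟨ρ, ⟨h, s, hs⟩, rfl⟩, a, b, c⟩
      refine ⟨⟨a, b, s, ?_⟩, s, h hs, c s hs⟩
      rw [c s hs]
      norm_num
  rw [e]
  refine h2.fam (F := face C '' {ρ | ρ ⊆ σ ∧ ρ.Nonempty}) ?_ ?_ _ Subset.rfl
    (Finite.image _ (hfin.finite_subsets.subset fun ρ h => h.1)) ⟨_, σ, ⟨Subset.rfl, hσ⟩, rfl⟩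
  · rintro _ ⟨ρ, ⟨h, hρ⟩, rfl⟩
    exact ⟨closed_face C hρ, ae_face C h1 h2 hρ (hq.subset h)⟩
  · rintro _ ⟨ρ, ⟨h, hρ⟩, rfl⟩ _ ⟨ρ', ⟨h', _⟩, rfl⟩
    refine ⟨ρ ∪ ρ', ⟨union_subset h h', hρ.inl⟩, ?_⟩
    ext q
    constructor
    · rintro ⟨a, b, c⟩
      exact ⟨⟨a, b, fun s hs => c s (Or.inl hs)⟩, a, b, fun s hs => c s (Or.inr hs)⟩
    · rintro ⟨⟨a, b, c⟩, -, -, d⟩
      exact ⟨a, b, fun s hs => hs.elim (c s) (d s)⟩

end Vale.Agent.P260Z
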