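import Vale.Agent.P260Z.Dav.Sk

/-!
# P260: the universal cover is a manifold
-/

noncomputable section

namespace Vale.Agent.P260Z

open Set Topology Filter

namespace Cht

/-- charts are transported along two open embeddings -/
theorem transfer {Y T T' : Type} [TopologicalSpace Y] [TopologicalSpace T] [TopologicalSpace T']
    {φ : Y → T} {ψ : Y → T'} (h1 : IsOpenEmbedding φ) (h2 : IsOpenEmbedding ψ) (y : Y)
    (h : ∃ e : OpenPartialHomeomorph T' E4, ψ y ∈ e.source) :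
    ∃ e : OpenPartialHomeomorph T E4, φ y ∈ e.source := by
  obtain ⟨e, he⟩ := h
  have : Nonempty Y := ⟨y⟩
  refine ⟨(h1.toOpenPartialHomeomorph φ).symm.trans ((h2.toOpenPartialHomeomorph ψ).trans e), ?_⟩
  simpa [h1.toOpenPartialHomeomorph_left_inv] using he

variable {G S : Type} [Group G] [MulAction G S] {C : CG G S}

theorem smul_cone {q : S → ℝ} (hq : q ∈ C.Cone) {a : ℝ} (ha : 0 < a) : a • q ∈ C.Cone :=
  ⟨fun s => mul_nonneg ha.le (hq.1 s), hq.2.subset fun _ hs => right_ne_zero_of_mul hs⟩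

theorem mx_smul (hc : C.ConeF) {q : S → ℝ} (hq : q ∈ C.Cone) {a : ℝ} (ha : 0 < a) :
    mx univ (a • q) = a * mx univ q := by
  have h1 := smul_cone hq ha
  refine le_antisymm ?_ ?_
  · rcases hc.mx_eq univ h1 with h | ⟨s, hs, h⟩
    · rw [h]
      exact mul_nonneg ha.le (hc.mx_nonneg univ hq)
    · rw [h]
      exact mul_le_mul_of_nonneg_left (hc.le_mx hq hs) ha.le
  · rcases hc.mx_eq univ hq with h | ⟨s, hs, h⟩
    · rw [h, mul_zero]
      exact hc.mx_nonneg univ h1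
    · rw [h]
      exact hc.le_mx h1 hs

theorem bounds (hc : C.ConeF) {q : S → ℝ} (hq : q ∈ C.Cone) {a b : ℝ} (ha : 0 ≤ a) :
    ((∀ s, q s < b) ∧ ∃ s, a < q s) ↔ a < mx univ q ∧ mx univ q < b := by
  constructor
  · rintro ⟨h1, s, h2⟩
    have h3 := h2.trans_le (hc.le_mx hq (mem_univ s))
    rcases hc.mx_eq univ hq with h | ⟨t, -, h⟩
    · linarith
    · exact ⟨h3, h ▸ h1 t⟩
  · rintro ⟨h1, h2⟩
    rcases hc.mx_eq univ hq with h | ⟨t, -, h⟩
    · linarith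
    · exact ⟨fun s => (hc.le_mx hq (mem_univ s)).trans_lt h2, t, h ▸ h1⟩

/-- the radial map with the profile `r ↦ a r + b` -/
def rad (a b : ℝ) (q : S → ℝ) : S → ℝ := ((a * mx univ q + b) / mx univ q) • q

theorem rad_spec (hc : C.ConeF) {q : S → ℝ} (hq : q ∈ C.Cone) {a b : ℝ} (h0 : 0 < mx univ q)
    (h1 : 0 < a * mx univ q + b) :
    rad a b q ∈ C.Cone ∧ mx univ (rad a b q) = a * mx univ q + b :=
  ⟨smul_cone hq (div_pos h1 h0), by
    rw [rad, mx_smul hc hq (div_pos h1 h0), div_mul_cancel₀ _ h0.ne']⟩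

theorem rad_rad (hc : C.ConeF) {q : S → ℝ} (hq : q ∈ C.Cone) {a b a' b' : ℝ} (h0 : 0 < mx univ q)
    (h1 : 0 < a * mx univ q + b) (h2 : a' * (a * mx univ q + b) + b' = mx univ q) :
    rad a' b' (rad a b q) = q := by
  rw [rad, (rad_spec hc hq h0 h1).2, h2, rad, smul_smul, div_mul_div_cancel₀ h1.ne', div_self h0.ne',
    one_smul]

theorem rad_cont (hc : C.ConeF) (a b : ℝ) :
    ContinuousOn (rad a b) {q : S → ℝ | q ∈ C.Cone ∧ ∃ s, 0 < q s} :=
  (((continuousOn_const.mul (hc.mx_cont univ)).add continuousOn_const).div (hc.mx_cont univ)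
    fun _ ⟨h, s, hs⟩ => (hs.trans_le (hc.le_mx h (mem_univ s))).ne').smul continuousOn_id

theorem sto_iff (hc : C.ConeF) {q : S → ℝ} :
    q ∈ C.Sto ↔ q ∈ C.Cone ∧ 1 / 2 < mx univ q ∧ mx univ q < 3 / 2 :=
  and_congr_right fun h => bounds hc h (by norm_num)

theorem mid_iff (hc : C.ConeF) {q : S → ℝ} :
    (q ∈ C.Col ∧ (∃ s, 1 / 2 < q s) ∧ q ∉ C.Bd) ↔
      q ∈ C.Cone ∧ 1 / 2 < mx univ q ∧ mx univ q < 1 := by
  constructor
  · rintro ⟨h1, h2, h3⟩
    exact ⟨h1.1, (bounds hc h1.1 (by norm_num)).1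
      ⟨fun s => (h1.2.1 s).lt_of_ne fun e => h3 ⟨h1, s, e⟩, h2⟩⟩
  · rintro ⟨h1, h2⟩
    obtain ⟨h3, s, h4⟩ := (bounds hc h1 (by norm_num)).2 h2
    exact ⟨⟨h1, fun s => (h3 s).le, s, h4.le⟩, ⟨s, h4⟩, fun ⟨_, t, ht⟩ => (h3 t).ne ht⟩

theorem lam_mid (hc : C.ConeF) {q : S → ℝ} (hq : q ∈ C.Sto) :
    rad (1 / 2) (1 / 4) q ∈ C.Col ∧ (∃ s, 1 / 2 < rad (1 / 2) (1 / 4) q s) ∧
      rad (1 / 2) (1 / 4) q ∉ C.Bd := by
  obtain ⟨h1, h2, h3⟩ := (sto_iff hc).1 hq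
  obtain ⟨h4, h5⟩ := rad_spec hc h1 (a := 1 / 2) (b := 1 / 4) (by linarith) (by linarith)
  exact (mid_iff hc).2 ⟨h4, by linarith, by linarith⟩

variable (D : DavisData C)

/-- the open star embeds in the interior of the collar -/
theorem lam_emb (hc : C.ConeF) (hb : D.Basic) :
    IsOpenEmbedding fun q : C.Sto => D.c (rad (1 / 2) (1 / 4) q.1) := by
  let l : C.Sto → C.Col := fun q => ⟨rad (1 / 2) (1 / 4) q.1, (lam_mid hc q.2).1⟩
  have l1 : Continuous l :=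
    ((rad_cont hc _ _).comp_continuous continuous_subtype_val fun q =>
      ⟨q.2.1, q.2.2.2.imp fun _ h => by linarith⟩).subtype_mk _
  have l2 : Continuous fun p : C.Col => rad 2 (-(1 / 2)) p.1 :=
    (rad_cont hc _ _).comp_continuous continuous_subtype_val fun q =>
      ⟨q.2.1, q.2.2.2.imp fun _ h => by linarith⟩
  have l3 : (fun p : C.Col => rad 2 (-(1 / 2)) p.1) ∘ l = Subtype.val := funext fun q => by
    obtain ⟨h1, h2, -⟩ := (sto_iff hc).1 q.2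
    exact rad_rad hc h1 (by linarith) (by linarith) (by ring)
  have l4 : IsEmbedding l := IsEmbedding.of_comp l1 l2 (l3 ▸ IsEmbedding.subtypeVal)
  refine ⟨D.c_emb.isEmbedding.comp l4, ?_⟩
  convert D.c_open.inter hb.closed_Bd.isOpen_compl using 1
  ext x
  constructor
  · rintro ⟨q, rfl⟩
    obtain ⟨h1, h2, h3⟩ := lam_mid hc q.2
    exact ⟨⟨_, ⟨h1, h2⟩, rfl⟩, fun ⟨p, p1, p2⟩ => h3 (hb.c_inj p1.1 h1 p2 ▸ p1)⟩
  · rintro ⟨⟨p, ⟨p1, p2⟩, rfl⟩, p3⟩
    obtain ⟨h1, h2, h3⟩ := (mid_iff hc).1 ⟨p1, p2, fun h => p3 ⟨p, h, rfl⟩⟩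
    obtain ⟨h4, h5⟩ := rad_spec hc h1 (a := 2) (b := -(1 / 2)) (by linarith) (by linarith)
    refine ⟨⟨_, (sto_iff hc).2 ⟨h4, by linarith, by linarith⟩⟩, congrArg D.c ?_⟩
    exact rad_rad hc h1 (by linarith) (by linarith) (by ring)

theorem phi_emb (hs : D.Star) (w : C.W) : IsOpenEmbedding fun q : C.Sto => D.Phi w q.1 := by
  have h : C.Sto ⊆ C.St := fun q hq =>
    ⟨hq.1, fun s => (hq.2.1 s).le, hq.2.2.imp fun _ h => h.le⟩
  refine ⟨(hs.emb w).isEmbedding.comp (IsEmbedding.inclusion h), ?_⟩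
  rw [← image_eq_range]
  exact hs.opn w

end Cht

open Cht in
theorem DavisData.chart_of {G S : Type} [Group G] [MulAction G S] {C : CG G S} (D : DavisData C)
    (hc : C.ConeF) (hb : D.Basic) (hs : D.Star) : D.Chart := by
  have key : ∀ z : D.Mt, ∃ e : OpenPartialHomeomorph D.Mt E4, z ∈ e.source := by
    rintro ⟨w, x⟩
    change ∃ e : OpenPartialHomeomorph D.Mt E4, D.pt w x ∈ e.source
    by_cases hx : x ∈ D.c '' C.Bd
    · obtain ⟨q, ⟨q1, s, q2⟩, rfl⟩ := hx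
      have hq : q ∈ C.Sto := ⟨q1.1, fun t => by linarith [q1.2.1 t], s, by linarith⟩
      rw [← hs.col w q1]
      refine transfer (phi_emb D hs w) (lam_emb D hc hb) ⟨q, hq⟩ (D.chart _ ?_)
      obtain ⟨h1, -, h3⟩ := lam_mid hc hq
      exact fun ⟨p, p1, p2⟩ => h3 (hb.c_inj p1.1 h1 p2 ▸ p1)
    · have h1 : IsOpenEmbedding fun y : ((D.c '' C.Bd)ᶜ : Set D.X) => D.pt w y.1 :=
        ⟨(hb.emb w).isEmbedding.comp IsEmbedding.subtypeVal, by
          rw [← image_eq_range]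
          exact hb.open_int w⟩
      exact transfer h1 hb.closed_Bd.isOpen_compl.isOpenEmbedding_subtypeVal ⟨x, hx⟩ (D.chart x hx)
  choose e he using key
  exact ⟨⟨range e, e, he, mem_range_self⟩⟩

end Vale.Agent.P260Z
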