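import Vale.Agent.P260Z.Dav.Sk

/-!
# P260: the cone over the flag complex
-/

noncomputable section

namespace Vale.Agent.P260Z

open Set Topology Filter

namespace CG
variable {G S : Type} [Group G] [MulAction G S] {C : CG G S}

namespace ConeA

theorem clique_fin {τ : Set S} (h : C.gr.IsClique τ) : τ.Finite :=
  Finite.of_finite_image (toFinite (C.col '' τ)) fun a ha b hb e => by
    by_contra hn
    exact C.col_ne (h ha hb hn) e

theorem closed : IsClosed C.Cone := by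
  have e : C.Cone = (⋂ s, {q | 0 ≤ q s}) ∩
      ⋂ s, ⋂ t, ⋂ (_ : s ≠ t), ⋂ (_ : ¬ C.gr.Adj s t), {q | q s * q t = 0} := by
    ext q
    simp only [Cone, mem_inter_iff, mem_iInter, mem_ofPred_eq, mul_eq_zero]
    refine and_congr Iff.rfl ⟨fun h s t h1 h2 => ?_, fun h s hs t ht h1 => ?_⟩
    · by_contra hn
      exact h2 (h (not_or.1 hn).1 (not_or.1 hn).2 h1)
    · by_contra hn
      exact (h s t h1 hn).elim hs ht
  rw [e]
  exact (isClosed_iInter fun s => isClosed_le continuous_const (continuous_apply s)).inter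
    (isClosed_iInter fun s => isClosed_iInter fun t => isClosed_iInter fun _ =>
      isClosed_iInter fun _ => isClosed_eq (by fun_prop) continuous_const)

variable {σ : Set S} {q : S → ℝ} {s : S}

theorem fin_im (σ : Set S) (h : q ∈ C.Cone) : (insert 0 (q '' σ)).Finite :=
  (((clique_fin h.2).image q).insert 0).subset (by
    rintro _ (rfl | ⟨s, -, rfl⟩)
    · exact Or.inl rfl
    · exact or_iff_not_imp_left.2 fun o => ⟨s, o, rfl⟩)

theorem mx_nonneg (σ : Set S) (h : q ∈ C.Cone) : 0 ≤ mx σ q :=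
  le_csSup (fin_im σ h).bddAbove (Or.inl rfl)

theorem le_mx (h : q ∈ C.Cone) (hs : s ∈ σ) : q s ≤ mx σ q :=
  le_csSup (fin_im σ h).bddAbove (Or.inr ⟨s, hs, rfl⟩)

theorem mx_eq (σ : Set S) (h : q ∈ C.Cone) : mx σ q = 0 ∨ ∃ s ∈ σ, mx σ q = q s :=
  ((insert_nonempty _ _).csSup_mem (fin_im σ h)).imp id fun ⟨s, h1, h2⟩ => ⟨s, h1, h2.symm⟩

theorem supp (h : q ∈ C.Cone) (hs : q s ≠ 0) {t : S} (ht : q t ≠ 0) :
    t ∈ insert s (C.gr.neighborSet s) :=
  or_iff_not_imp_left.2 fun o => h.2 hs ht (Ne.symm o)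

theorem lf (hs : ∃ s, 0 < q s) : ∃ F : Set S, F.Finite ∧
    ∀ᶠ q' in 𝓝[C.Cone] q, ∀ s, q' s ≠ 0 → s ∈ F := by
  obtain ⟨s, hs⟩ := hs
  refine ⟨_, (C.lf s).insert s, ?_⟩
  filter_upwards [self_mem_nhdsWithin, mem_nhdsWithin_of_mem_nhds
    ((isOpen_lt continuous_const (continuous_apply s)).mem_nhds hs)] with q' h1 h2 t ht
  exact supp h1 (ne_of_gt h2) ht

theorem mx_cont (σ : Set S) : ContinuousOn (mx σ) {q | q ∈ C.Cone ∧ ∃ s, 0 < q s} := fun q hq => by
  obtain ⟨F, hF, h⟩ := lf (C := C) hq.2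
  refine ContinuousWithinAt.mono (t := C.Cone) (tendsto_order.2 ⟨fun a ha => ?_, fun a ha => ?_⟩)
    fun _ h => h.1
  · rcases mx_eq σ hq.1 with e | ⟨s, hs, e⟩
    · filter_upwards [self_mem_nhdsWithin] with q' h1
      exact (e ▸ ha).trans_le (mx_nonneg σ h1)
    · filter_upwards [self_mem_nhdsWithin, mem_nhdsWithin_of_mem_nhds
        ((isOpen_lt continuous_const (continuous_apply s)).mem_nhds (e ▸ ha))] with q' h1 h2
      exact lt_of_lt_of_le h2 (le_mx h1 hs)
  · have h0 := (mx_nonneg σ hq.1).trans_lt ha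
    filter_upwards [self_mem_nhdsWithin, h, mem_nhdsWithin_of_mem_nhds
      ((biInter_mem (hF.inter_of_left σ)).2 fun s hs =>
        (isOpen_lt (continuous_apply s) continuous_const).mem_nhds
          ((le_mx hq.1 hs.2).trans_lt ha))] with q' h1 h2 h3
    rcases mx_eq σ h1 with e | ⟨s, hs, e⟩
    · rwa [e]
    · by_cases h4 : q' s = 0
      · rwa [e, h4]
      · exact e ▸ mem_iInter₂.1 h3 s ⟨h2 s h4, hs⟩

theorem closed_ex (hσ : σ.Finite) (a : ℝ) : IsClosed {q : S → ℝ | ∃ s ∈ σ, a ≤ q s} := by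
  have := hσ.isClosed_biUnion fun s _ =>
    isClosed_le (continuous_const (y := a)) (continuous_apply (A := fun _ : S => ℝ) s)
  convert this using 1
  ext q
  simp

theorem cpt (b : ℝ) {a : ℝ} (hσ : σ.Finite) :
    IsCompact {q | q ∈ C.Cone ∧ (∀ s, q s ≤ b) ∧ ∃ s ∈ σ, a ≤ q s} :=
  (isCompact_Icc (a := fun _ => 0) (b := fun _ => b)).of_isClosed_subset
    (closed.inter ((isClosed_le continuous_id (continuous_const (y := fun _ => b))).inter
      (closed_ex hσ a))) fun _ h => ⟨h.1.1, h.2.1⟩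

theorem mem_big (h : q ∈ C.Cone) : s ∈ big q ↔ 1 < q s := by
  have h1 : {s | 1 < q s}.Finite := (clique_fin h.2).subset fun t (ht : 1 < q t) =>
    (one_pos.trans ht).ne'
  rw [big, dif_pos h1, Finite.mem_toFinset]
  rfl

theorem fld_mem (h : q ∈ C.St) : fld q ∈ C.Col := by
  obtain ⟨⟨h0, h1⟩, h2, s, hs⟩ := h
  refine ⟨⟨fun t => le_min (h0 t) (by linarith [h2 t]),
    Set.Pairwise.mono (s := {t | q t ≠ 0}) (fun t ht o => ht ?_) h1⟩,
    fun t => ?_, s, le_min hs (by linarith [h2 s])⟩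
  · simp [fld, o]
  · rcases le_total (q t) 1 with h | h
    · exact min_le_of_left_le h
    · exact min_le_of_right_le (by linarith)

theorem fld_col (h : q ∈ C.Col) : fld q = q :=
  funext fun t => min_eq_left (by linarith [h.2.1 t])

theorem cpt_Bs (hσ : σ.Finite) : IsCompact (C.Bs σ) := by
  convert cpt (C := C) 1 (a := 1) hσ using 1
  ext q
  exact ⟨fun ⟨h, s, h1, h2⟩ => ⟨h.1, h.2.1, s, h1, h2.ge⟩, fun ⟨h, h0, s, h1, h2⟩ =>
    ⟨⟨h, h0, s, by linarith⟩, s, h1, (h0 s).antisymm h2⟩⟩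

end ConeA

open ConeA in
theorem coneF (C : CG G S) : C.ConeF :=
  ⟨closed, fun h => clique_fin h.2, fun σ _ => mx_nonneg σ, le_mx, fun σ _ => mx_eq σ, mx_cont,
    fun b h _ => cpt b h, fun _ => ConeA.lf, mem_big, fld_mem, fld_col, cpt_Bs⟩

end CG

end Vale.Agent.P260Z
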