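import Mathlib

/-!
# P260: absolute extensors, right angled Coxeter groups, the reflection group construction
-/

noncomputable section

namespace Vale.Agent.P260Z

open Set Topology

abbrev E4 : Type := EuclideanSpace ℝ (Fin 4)

/-- `Y` is an absolute extensor for compact metrizable pairs -/
def AE {T : Type} [TopologicalSpace T] (Y : Set T) : Prop :=
  Y.Nonempty ∧ ∀ (Z : Type) [TopologicalSpace Z] [TopologicalSpace.MetrizableSpace Z]
    (K A : Set Z) (f : Z → T), IsCompact K → IsClosed A → A ⊆ K → ContinuousOn f A →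
    MapsTo f A Y → ∃ g : Z → T, ContinuousOn g K ∧ MapsTo g K Y ∧ EqOn g f A

/-- some covering space is contractible -/
def Aspherical (M : Type) [TopologicalSpace M] : Prop :=
  ∃ (E : Type) (_ : TopologicalSpace E) (p : E → M),
    IsCoveringMap p ∧ Function.Surjective p ∧ ContractibleSpace E

/-- a counterexample -/
def Counter : Prop :=
  ∃ (M N : Type) (_ : TopologicalSpace M) (_ : TopologicalSpace N) (_ : ChartedSpace E4 M)
    (_ : ChartedSpace E4 N), T2Space M ∧ CompactSpace M ∧ ConnectedSpace M ∧ T2Space N ∧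
    CompactSpace N ∧ ConnectedSpace N ∧ Aspherical M ∧ Aspherical N ∧
    Nonempty (ContinuousMap.HomotopyEquiv M N) ∧ IsEmpty (M ≃ₜ N)

/-- a coloured locally finite graph with a free action -/
structure CG (G S : Type) [Group G] [MulAction G S] where
  gr : SimpleGraph S
  col : S → Fin 4
  col_ne : ∀ {s t}, gr.Adj s t → col s ≠ col t
  adj_smul : ∀ (g : G) {s t}, gr.Adj s t → gr.Adj (g • s) (g • t)
  col_smul : ∀ (g : G) s, col (g • s) = col s
  free : ∀ (g : G) (s : S), g • s = s → g = 1
  lf : ∀ s, (gr.neighborSet s).Finite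
  cnt : Countable S
  cntG : Countable G
  two : ∀ g : G, g ^ 2 = 1 → g = 1

/-- the action on functions -/
def sh {G S : Type} [Group G] [MulAction G S] (g : G) (q : S → ℝ) : S → ℝ := fun s => q (g⁻¹ • s)

/-- the largest coordinate in a set of vertices -/
def mx {S : Type} (σ : Set S) (q : S → ℝ) : ℝ := sSup (insert 0 (q '' σ))

/-- reflection of the coordinates at `1` -/
def fld {S : Type} (q : S → ℝ) : S → ℝ := fun s => min (q s) (2 - q s)

namespace CG
variable {G S : Type} [Group G] [MulAction G S] (C : CG G S)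

def rels : Set (FreeGroup S) :=
  {r | ∃ s, r = FreeGroup.of s * FreeGroup.of s} ∪
    {r | ∃ s t, C.gr.Adj s t ∧
      r = FreeGroup.of s * FreeGroup.of t * (FreeGroup.of t * FreeGroup.of s)⁻¹}

/-- the right angled Coxeter group -/
def W : Type := PresentedGroup C.rels

instance : Group C.W := inferInstanceAs (Group (PresentedGroup C.rels))
instance : TopologicalSpace C.W := ⊥
instance : DiscreteTopology C.W := ⟨rfl⟩

def gen (s : S) : C.W := PresentedGroup.of s

theorem gen_mul_self (s : S) : C.gen s * C.gen s = 1 :=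
  PresentedGroup.one_of_mem (rels := C.rels) (Or.inl ⟨s, rfl⟩)

theorem gen_comm {s t : S} (h : C.gr.Adj s t) : C.gen s * C.gen t = C.gen t * C.gen s :=
  mul_inv_eq_one.1 (PresentedGroup.one_of_mem (rels := C.rels) (Or.inr ⟨s, t, h, rfl⟩))

/-- homomorphisms out of the Coxeter group -/
def lift {H : Type} [Group H] (f : S → H) (h1 : ∀ s, f s * f s = 1)
    (h2 : ∀ s t, C.gr.Adj s t → f s * f t = f t * f s) : C.W →* H :=
  PresentedGroup.toGroup (f := f) (rels := C.rels) (by
    rintro r (⟨s, rfl⟩ | ⟨s, t, h, rfl⟩)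
    · simpa using h1 s
    · simp [h2 s t h])

@[simp] theorem lift_gen {H : Type} [Group H] (f : S → H) (h1 : ∀ s, f s * f s = 1)
    (h2 : ∀ s t, C.gr.Adj s t → f s * f t = f t * f s) (s : S) :
    C.lift f h1 h2 (C.gen s) = f s :=
  PresentedGroup.toGroup.of _

theorem hom_ext {H : Type} [Group H] {φ ψ : C.W →* H} (h : ∀ s, φ (C.gen s) = ψ (C.gen s)) :
    φ = ψ :=
  PresentedGroup.ext (rels := C.rels) h

def actH (g : G) : C.W →* C.W :=
  C.lift (fun s => C.gen (g • s)) (fun _ => C.gen_mul_self _)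
    fun _ _ h => C.gen_comm (C.adj_smul g h)

@[simp] theorem actH_gen (g : G) (s : S) : C.actH g (C.gen s) = C.gen (g • s) :=
  C.lift_gen _ _ _ _

theorem actH_mul (g h : G) (w : C.W) : C.actH (g * h) w = C.actH g (C.actH h w) :=
  DFunLike.congr_fun (C.hom_ext (φ := C.actH (g * h)) (ψ := (C.actH g).comp (C.actH h))
    fun s => by simp [mul_smul]) w

theorem actH_one (w : C.W) : C.actH 1 w = w :=
  DFunLike.congr_fun (C.hom_ext (φ := C.actH 1) (ψ := MonoidHom.id _) fun s => by simp) w

/-- the action of `G` on the Coxeter group -/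
def act : G →* MulAut C.W where
  toFun g := { toFun := C.actH g
               invFun := C.actH g⁻¹
               left_inv := fun w => by rw [← actH_mul, inv_mul_cancel, actH_one]
               right_inv := fun w => by rw [← actH_mul, mul_inv_cancel, actH_one]
               map_mul' := map_mul _ }
  map_one' := MulEquiv.ext fun w => C.actH_one w
  map_mul' g h := MulEquiv.ext fun w => C.actH_mul g h w

@[simp] theorem act_gen (g : G) (s : S) : C.act g (C.gen s) = C.gen (g • s) := C.actH_gen g s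

/-- the parity of the number of letters of each colour -/
def par : C.W →* Multiplicative (Fin 4 → ZMod 2) :=
  C.lift (fun s => Multiplicative.ofAdd (Pi.single (C.col s) 1))
    (fun s => by
      rw [← ofAdd_add, ← Pi.single_add]
      have : (1 : ZMod 2) + 1 = 0 := rfl
      simp [this])
    fun _ _ _ => mul_comm _ _

theorem par_act (g : G) (w : C.W) : C.par (C.act g w) = C.par w :=
  DFunLike.congr_fun (C.hom_ext (φ := C.par.comp (C.actH g)) (ψ := C.par)
    fun s => by simp [par, C.col_smul]) w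

/-- the full reflection group -/
abbrev Gam : Type := C.W ⋊[C.act] G

/-- the fundamental group -/
def Pi : Subgroup C.Gam where
  carrier := {γ | C.par γ.left = 1}
  one_mem' := by simp
  mul_mem' := by
    intro a b ha hb
    simp only [mem_ofPred_eq, SemidirectProduct.mul_left, map_mul, par_act] at *
    rw [ha, hb, mul_one]
  inv_mem' := by
    intro a ha
    simp only [mem_ofPred_eq, SemidirectProduct.inv_left, par_act] at *
    rw [map_inv, ha, inv_one]

/-- word length -/
def len (w : C.W) : ℕ := sInf {n | ∃ l : List S, l.length = n ∧ (l.map C.gen).prod = w}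

/-- the descent set -/
def In (w : C.W) : Set S := {s | C.len (w * C.gen s) < C.len w}

/-- the subgroup generated by a set of vertices -/
def Wof (τ : Set S) : Subgroup C.W := Subgroup.closure (C.gen '' τ)

/-- the product of a finite set of vertices -/
def pr (ρ : Finset S) : C.W := (ρ.toList.map C.gen).prod

/-- the cone over the flag complex -/
def Cone : Set (S → ℝ) := {q | (∀ s, 0 ≤ q s) ∧ C.gr.IsClique {s | q s ≠ 0}}

def Col : Set (S → ℝ) := {q | q ∈ C.Cone ∧ (∀ s, q s ≤ 1) ∧ ∃ s, 1 / 2 ≤ q s}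
def Bd : Set (S → ℝ) := {q | q ∈ C.Col ∧ ∃ s, q s = 1}
def St : Set (S → ℝ) := {q | q ∈ C.Cone ∧ (∀ s, q s ≤ 3 / 2) ∧ ∃ s, 1 / 2 ≤ q s}
def Sto : Set (S → ℝ) := {q | q ∈ C.Cone ∧ (∀ s, q s < 3 / 2) ∧ ∃ s, 1 / 2 < q s}

/-- the union of the panels of `σ` -/
def Bs (σ : Set S) : Set (S → ℝ) := {q | q ∈ C.Col ∧ ∃ s ∈ σ, q s = 1}

open Classical in
/-- the vertices with coordinate larger than `1` -/
def big (q : S → ℝ) : Finset S :=
  if h : {s | 1 < q s}.Finite then h.toFinset else ∅

/-- sets of chambers which are closed under shortening -/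
def Down (T : Set C.W) : Prop := ∀ w ∈ T, ∀ s ∈ C.In w, w * C.gen s ∈ T

/-- the subgroup generated by the vertices of `L` of colour below `n` -/
def Wn (L : Set S) (n : ℕ) : Subgroup C.W := C.Wof {s | s ∈ L ∧ (C.col s : ℕ) < n}

/-- the reflections of colour `n` which are conjugate to generators by elements of `Wn L n` -/
def Rf (L : Set S) (n : ℕ) : Set C.W :=
  {r | ∃ x ∈ C.Wn L n, ∃ s ∈ L, (C.col s : ℕ) = n ∧ r = x * C.gen s * x⁻¹}

/-- the orbit of a chamber -/
def orb (w : C.W) : Set C.W := range fun g : G => C.act g w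

end CG

/-- a chamber with a collar -/
structure DavisData {G S : Type} [Group G] [MulAction G S] (C : CG G S) where
  X : Type
  [top : TopologicalSpace X]
  [t2 : T2Space X]
  [lc : LocallyCompactSpace X]
  [sc : SecondCountableTopology X]
  [mul : MulAction G X]
  [cts : ContinuousConstSMul G X]
  [pd : ProperlyDiscontinuousSMul G X]
  [fr : IsCancelSMul G X]
  c : (S → ℝ) → X
  c_emb : IsClosedEmbedding (C.Col.domRestrict c)
  c_open : IsOpen (c '' {q | q ∈ C.Col ∧ ∃ s, 1 / 2 < q s})
  c_smul : ∀ (g : G), ∀ q ∈ C.Col, c (sh g q) = g • c q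
  chart : ∀ x, x ∉ c '' C.Bd → ∃ e : OpenPartialHomeomorph X E4, x ∈ e.source
  ae : AE (univ : Set X)
  cpt : ∃ K : Set X, IsCompact K ∧ ∀ x, ∃ g : G, g • x ∈ K

attribute [instance] DavisData.top DavisData.t2 DavisData.lc DavisData.sc DavisData.mul
  DavisData.cts DavisData.pd DavisData.fr

namespace DavisData
variable {G S : Type} [Group G] [MulAction G S] {C : CG G S} (D : DavisData C)

/-- the panels which contain a point -/
def sig (x : D.X) : Set S := {s | ∃ q ∈ C.Col, D.c q = x ∧ q s = 1}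

def rel : Setoid (C.W × D.X) where
  r a b := a.2 = b.2 ∧ a.1⁻¹ * b.1 ∈ C.Wof (D.sig a.2)
  iseqv := ⟨fun a => ⟨rfl, by simp⟩,
    fun {a b} h => ⟨h.1.symm, by
      have := inv_mem h.2
      rw [← h.1]
      simpa using this⟩,
    fun {a b c} h h' => ⟨h.1.trans h'.1, by
      have h2 := h'.2
      rw [← h.1] at h2
      simpa [mul_assoc] using mul_mem h.2 h2⟩⟩

/-- the universal cover -/
def Mt : Type := Quotient D.rel

instance : TopologicalSpace D.Mt := inferInstanceAs (TopologicalSpace (Quotient D.rel))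

def pt (w : C.W) (x : D.X) : D.Mt := Quotient.mk D.rel (w, x)

theorem pt_eq {w w' : C.W} {x x' : D.X} :
    D.pt w x = D.pt w' x' ↔ x = x' ∧ w⁻¹ * w' ∈ C.Wof (D.sig x) :=
  Quotient.eq

def fold : D.Mt → D.X := Quotient.lift Prod.snd fun _ _ h => h.1

@[simp] theorem fold_pt (w : C.W) (x : D.X) : D.fold (D.pt w x) = x := rfl

theorem sh_mem_Col (g : G) {q : S → ℝ} (hq : q ∈ C.Col) : sh g q ∈ C.Col := by
  obtain ⟨⟨h0, h1⟩, h2, s, hs⟩ := hq
  refine ⟨⟨fun t => h0 _, fun a ha b hb hab => ?_⟩, fun t => h2 _, g • s, by simpa [sh] using hs⟩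
  have := C.adj_smul g (h1 (x := g⁻¹ • a) ha (y := g⁻¹ • b) hb
    fun h => hab (MulAction.injective g⁻¹ h))
  simpa using this

theorem smul_mem_sig (g : G) {x : D.X} {s : S} (h : s ∈ D.sig x) : g • s ∈ D.sig (g • x) := by
  obtain ⟨q, hq, rfl, hs⟩ := h
  exact ⟨sh g q, sh_mem_Col g hq, D.c_smul g q hq, by simpa [sh] using hs⟩

theorem act_mem_Wof (g : G) {x : D.X} {u : C.W} (h : u ∈ C.Wof (D.sig x)) :
    C.act g u ∈ C.Wof (D.sig (g • x)) := by
  refine Subgroup.closure_induction (p := fun u _ => C.act g u ∈ C.Wof (D.sig (g • x))) ?_ ?_ ?_ ?_ h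
  · rintro _ ⟨s, hs, rfl⟩
    rw [C.act_gen]
    exact Subgroup.subset_closure ⟨_, D.smul_mem_sig g hs, rfl⟩
  · simp
  · intro a b _ _ ha hb
    rw [map_mul]
    exact mul_mem ha hb
  · intro a _ ha
    rw [map_inv]
    exact inv_mem ha

instance : MulAction C.Gam D.Mt where
  smul γ := Quotient.map (sa := D.rel) (sb := D.rel)
    (fun a => (γ.left * C.act γ.right a.1, γ.right • a.2)) (by
      intro a b h
      refine ⟨congrArg (γ.right • ·) h.1, ?_⟩
      have := D.act_mem_Wof γ.right h.2
      simpa [mul_assoc] using this)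
  one_smul := by
    rintro ⟨a⟩
    exact congrArg (Quotient.mk D.rel) (by simp)
  mul_smul γ δ := by
    rintro ⟨a⟩
    exact congrArg (Quotient.mk D.rel) (by simp [mul_smul, mul_assoc])

theorem smul_pt (γ : C.Gam) (w : C.W) (x : D.X) :
    γ • D.pt w x = D.pt (γ.left * C.act γ.right w) (γ.right • x) := rfl

/-- the action of `G` -/
def ga (g : G) (z : D.Mt) : D.Mt := (SemidirectProduct.inr g : C.Gam) • z

/-- the saturation of a set under `G` -/
def sat (K : Set D.Mt) : Set D.Mt := ⋃ g : G, D.ga g '' K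

/-- the union of a set of chambers -/
def U (T : Set C.W) : Set D.Mt := {z | ∃ w ∈ T, ∃ x, z = D.pt w x}

/-- the star of a vertex -/
def Phi (w : C.W) (q : S → ℝ) : D.Mt := D.pt (w * C.pr (CG.big q)) (D.c (fld q))

/-- the closed manifold -/
abbrev M : Type := MulAction.orbitRel.Quotient C.Pi D.Mt

/-- compact parts of the chamber embed in the collar over an open star, fixing the panels -/
def Abs : Prop :=
  ∀ σ : Set S, σ.Nonempty → C.gr.IsClique σ → ∀ K : Set D.X, IsCompact K →
    ∃ κ : D.X → S → ℝ, ContinuousOn κ K ∧ InjOn κ K ∧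
      (∀ x ∈ K, κ x ∈ C.Col ∧ ∃ s ∈ σ, 0 < κ x s) ∧ ∀ q ∈ C.Bs σ, D.c q ∈ K → κ (D.c q) = q

/-- an equivariant plane whose translates are disjoint -/
def Plane (J : Subgroup G) (E : Type) [TopologicalSpace E] [MulAction J E] (ψ : J →* J)
    (p : E → D.X) : Prop :=
  Function.Injective ψ ∧ Continuous p ∧ (∀ (j : J) u, p (j • u) = (ψ j : G) • p u) ∧
    ∀ g : G, g ∉ J → ∀ u u', g • p u ≠ p u'

end DavisData

end Vale.Agent.P260Z
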