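import Vale.Agent.P260Z.Dav.Sk

/-!
# P260: equivariant extension of maps into an absolute extensor
-/

noncomputable section

namespace Vale.Agent.P260Z

open Set Topology Filter

namespace EqxAux

variable {Γ Z T : Type} [Group Γ] [TopologicalSpace Z] [TopologicalSpace T] [MulAction Γ Z]
  [MulAction Γ T] [ContinuousConstSMul Γ T]

/-- an equivariant continuous map on a closed invariant set -/
structure Ok (Γ : Type) [Group Γ] [MulAction Γ Z] [MulAction Γ T] (A : Set Z) (f : Z → T) :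
    Prop where
  cl : IsClosed A
  inv : ∀ (g : Γ), ∀ z ∈ A, g • z ∈ A
  cont : ContinuousOn f A
  eqv : ∀ (g : Γ), ∀ z ∈ A, f (g • z) = g • f z

theorem step (hZ : Nice Γ Z) (hT : AE (univ : Set T)) {A : Set Z} {f : Z → T} (h : Ok Γ A f)
    {N : Set Z} (hN : IsCompact N) (hd : ∀ (g : Γ), ∀ z ∈ N, g • z ∈ N → g = 1) :
    ∃ (A' : Set Z) (f' : Z → T), Ok Γ A' f' ∧ A ⊆ A' ∧ N ⊆ A' ∧ EqOn f' f A := by
  classical
  have := hZ.t2
  have := hZ.lc
  have := hZ.sc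
  have := hZ.cts
  have := hZ.pd
  have := TopologicalSpace.metrizableSpace_of_t3_secondCountable Z
  obtain ⟨u, u1, -, u2⟩ := hT.2 Z N (A ∩ N) f hN (h.cl.inter hN.isClosed) inter_subset_right
    (h.cont.mono inter_subset_left) (mapsTo_univ _ _)
  let f' : Z → T := fun z =>
    if H : ∃ g : Γ, g • z ∈ N then H.choose⁻¹ • u (H.choose • z) else f z
  have k1 : ∀ (g : Γ) z, g • z ∈ N → f' z = g⁻¹ • u (g • z) := fun g z hz => by
    have H : ∃ g : Γ, g • z ∈ N := ⟨g, hz⟩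
    have e : g * H.choose⁻¹ = 1 := hd _ _ H.choose_spec (by rwa [mul_smul, inv_smul_smul])
    rw [mul_inv_eq_one.1 e]
    exact dif_pos H
  have k2 : EqOn f' f A := fun z hz => by
    by_cases H : ∃ g : Γ, g • z ∈ N
    · obtain ⟨g, hg⟩ := H
      rw [k1 g z hg, u2 ⟨h.inv g z hz, hg⟩, h.eqv g z hz, inv_smul_smul]
    · exact dif_neg H
  have lf : LocallyFinite fun g : Γ => (fun z : Z => g • z) ⁻¹' N := fun z => by
    obtain ⟨U, U1, U2⟩ := exists_compact_mem_nhds z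
    exact ⟨U, U2, (ProperlyDiscontinuousSMul.finite_disjoint_inter_image U1 hN).subset
      fun g ⟨y, y1, y2⟩ => ⟨g • y, ⟨y, y2, rfl⟩, y1⟩⟩
  have cl : ∀ g : Γ, IsClosed ((fun z : Z => g • z) ⁻¹' N) := fun g =>
    hN.isClosed.preimage (continuous_const_smul g)
  refine ⟨A ∪ ⋃ g : Γ, (fun z : Z => g • z) ⁻¹' N, f', ⟨h.cl.union (lf.isClosed_iUnion cl), ?_,
    (h.cont.congr k2).union_of_isClosed (lf.continuousOn_iUnion cl fun g => ?_) h.cl
      (lf.isClosed_iUnion cl), ?_⟩, subset_union_left,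
    fun z hz => Or.inr (mem_iUnion.2 ⟨1, by simpa using hz⟩), k2⟩
  · rintro γ z (hz | hz)
    · exact Or.inl (h.inv γ z hz)
    · obtain ⟨g, hg⟩ := mem_iUnion.1 hz
      exact Or.inr (mem_iUnion.2 ⟨g * γ⁻¹, by simpa [mul_smul] using hg⟩)
  · exact ((u1.comp (continuous_const_smul g).continuousOn fun _ hz => hz).const_smul g⁻¹).congr
      fun z hz => k1 g z hz
  · rintro γ z (hz | hz)
    · rw [k2 hz, k2 (h.inv γ z hz), h.eqv γ z hz]
    · obtain ⟨g, hg⟩ := mem_iUnion.1 hz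
      have e : (g * γ⁻¹) • γ • z = g • z := by rw [mul_smul, inv_smul_smul]
      rw [k1 g z hg, k1 (g * γ⁻¹) (γ • z) (by rwa [e]), e, mul_inv_rev, inv_inv, mul_smul]

theorem small (hZ : Nice Γ Z) (z : Z) :
    ∃ N ∈ 𝓝 z, IsCompact N ∧ ∀ (g : Γ), ∀ y ∈ N, g • y ∈ N → g = 1 := by
  have := hZ.t2
  have := hZ.lc
  have := hZ.cts
  have := hZ.pd
  have := hZ.fr
  obtain ⟨U, U1, U2⟩ := ProperlyDiscontinuousSMul.exists_nhds_image_smul_eq_self Γ z
  obtain ⟨N, N1, N2, N3⟩ := local_compact_nhds U1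
  exact ⟨N, N1, N3, fun g y y1 y2 => IsCancelSMul.eq_one_of_smul
    (U2 g ⟨g • y, ⟨y, N2 y1, rfl⟩, N2 y2⟩)⟩

end EqxAux

open EqxAux in
theorem eqx : EQX := by
  classical
  intro Γ Z T _ _ _ _ _ _ hZ hT A f a1 a2 a3 a4
  obtain ⟨K, hK, hKx⟩ := hZ.cpt
  choose N N1 N2 N3 using small hZ
  obtain ⟨t, -, ht⟩ := hK.elim_nhds_subcover N fun z _ => N1 z
  have key : ∀ s : Finset Z, ∃ (A' : Set Z) (f' : Z → T), Ok Γ A' f' ∧ A ⊆ A' ∧
      (∀ z ∈ s, N z ⊆ A') ∧ EqOn f' f A := fun s => by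
    induction s using Finset.induction_on with
    | empty => exact ⟨A, f, ⟨a1, a2, a3, a4⟩, Subset.rfl, by simp, fun _ _ => rfl⟩
    | insert z s _ ih =>
      obtain ⟨A₁, f₁, b1, b2, b3, b4⟩ := ih
      obtain ⟨A₂, f₂, c1, c2, c3, c4⟩ := step hZ hT b1 (N2 z) (N3 z)
      refine ⟨A₂, f₂, c1, b2.trans c2, fun y hy => ?_, (c4.mono b2).trans b4⟩
      rcases Finset.mem_insert.1 hy with rfl | hy
      · exact c3
      · exact (b3 y hy).trans c2
  obtain ⟨A', F, b1, -, b3, b4⟩ := key t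
  have hu : ∀ z, z ∈ A' := fun z => by
    obtain ⟨g, hg⟩ := hKx z
    obtain ⟨y, y1, y2⟩ := mem_iUnion₂.1 (ht hg)
    simpa using b1.inv g⁻¹ _ (b3 y y1 y2)
  exact ⟨F, continuousOn_univ.1 (b1.cont.mono fun z _ => hu z), fun g z => b1.eqv g z (hu z), b4⟩

end Vale.Agent.P260Z
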