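import Vale.Agent.P260Z.Dav.Sk

/-!
# P260: the two manifolds are homotopy equivalent and not homeomorphic
-/

noncomputable section

namespace Vale.Agent.P260Z

open Set Topology SemidirectProduct

variable {G S : Type} [Group G] [MulAction G S]

theorem CG.inr_mem (C : CG G S) (g : G) : (inr g : C.Gam) ∈ C.Pi := by
  change C.par (inr g : C.Gam).left = 1
  simp

theorem CG.conj_mem (C : CG G S) {δ : C.Gam} (h : δ ∈ C.Pi) (γ : C.Gam) :
    γ * δ * γ⁻¹ ∈ C.Pi := by
  change C.par δ.left = 1 at h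
  change C.par (γ * δ * γ⁻¹).left = 1
  simp only [mul_left, inv_left, map_mul, C.par_act, h, map_inv (C.par)]
  simp

/-- the inclusion of `G` in the fundamental group -/
def CG.io (C : CG G S) : G →* C.Pi := (inr : G →* C.Gam).codRestrict C.Pi C.inr_mem

namespace DavisData
variable {C : CG G S} (D : DavisData C)

theorem inr_smul_pt (g : G) (x : D.X) : (inr g : C.Gam) • D.pt 1 x = D.pt 1 (g • x) := by
  simp [smul_pt]

theorem closed (h3 : AE3) (hch : D.Chart) (hA : D.Act) (hae : D.MtAE) :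
    Nonempty (ChartedSpace E4 D.M) ∧ T2Space D.M ∧ CompactSpace D.M ∧ ConnectedSpace D.M ∧
      Aspherical D.M := by
  obtain ⟨ch⟩ := hch
  obtain ⟨t2, lc, sc, cts, pd, fr, K, hK, hKc⟩ := hA
  have hc : ContractibleSpace D.Mt := h3.contr hae
  have hq := isQuotientCoveringMap_quotientMk_of_properlyDiscontinuousSMul (G := C.Pi) (E := D.Mt)
  refine ⟨⟨inferInstance⟩, inferInstance, ⟨?_⟩, ?_, D.Mt, inferInstance, _, hq.isCoveringMap,
    hq.surjective, hc⟩
  · have := hK.image hq.continuous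
    refine this.of_isClosed_subset isClosed_univ fun y _ => ?_
    obtain ⟨z, rfl⟩ := hq.surjective y
    obtain ⟨g, hg⟩ := hKc z
    exact ⟨_, hg, Quotient.sound ⟨g, rfl⟩⟩
  · exact hq.surjective.connectedSpace hq.continuous

end DavisData

/-- an equivariant injection of the universal covers is impossible -/
theorem Pair.no_lift {E : Type} [TopologicalSpace E] (P : Pair G S E) (ha : P.C.Api)
    (hk : P.C.KL) (hb : P.D.Basic) (hb' : P.D'.Basic) (hab : P.D.Absorb)
    (θ : P.C.Pi ≃* P.C.Pi) (F : P.D'.Mt → P.D.Mt) (hF : Continuous F)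
    (hi : Function.Injective F) (he : ∀ (g : P.C.Pi) z, F (g • z) = θ g • F z) : False := by
  revert θ F
  obtain @⟨C, D, D', J, inst, u, v, sq, ne, gen, gk, hcpt, hpl, habs, obs⟩ := P
  dsimp only at ha hk hb hb' hab ⊢
  intro θ F hF hi he
  obtain ⟨K, hK, hKc⟩ := id hcpt
  obtain ⟨p, -, hp, hpe, hpd⟩ := id hpl
  have hio : Function.Injective C.io := fun a b h => inr_injective (congrArg Subtype.val h)
  set χ0 : J →* C.Gam := C.Pi.subtype.comp (θ.toMonoidHom.comp (C.io.comp J.subtype)) with hχ0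
  have hχ0i : Function.Injective χ0 :=
    Subtype.val_injective.comp (θ.injective.comp (hio.comp Subtype.val_injective))
  obtain ⟨γ0, a, b, ha0, hb0⟩ := hk (χ0 u) (χ0 v) (Subtype.property _) (Subtype.property _)
    (by rw [← map_pow, ← map_pow, sq]) fun h => ne (hχ0i h)
  obtain ⟨g0, hga, hgb⟩ := gk a b
    (inr_injective (φ := C.act) (by
      rw [map_pow, map_pow, ← ha0, ← hb0, conj_pow, conj_pow, ← map_pow, ← map_pow, sq]))
    (fun h => ne (hχ0i (by
      rw [h, ← hb0] at ha0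
      simpa using ha0)))
  set γ : C.Gam := inr g0 * γ0 with hγ
  set χ : J →* C.Gam := (MulAut.conj γ).toMonoidHom.comp χ0 with hχ
  have hχ1 : ∀ j, χ j = γ * χ0 j * γ⁻¹ := fun _ => rfl
  have hJ : ∀ j : J, χ j ∈ J.map (inr : G →* C.Gam) := by
    intro j
    have hj : j ∈ Subgroup.closure {u, v} := gen ▸ Subgroup.mem_top j
    refine Subgroup.closure_induction (p := fun j _ => χ j ∈ J.map (inr : G →* C.Gam))
      ?_ ?_ ?_ ?_ hj
    · rintro _ (rfl | rfl)
      · refine ⟨_, hga, ?_⟩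
        rw [map_mul, map_mul, map_inv, ← ha0, hχ1, hγ]
        group
      · refine ⟨_, hgb, ?_⟩
        rw [map_mul, map_mul, map_inv, ← hb0, hχ1, hγ]
        group
    · simp
    · intro x y _ _ hx hy
      rw [map_mul]
      exact mul_mem hx hy
    · intro x _ hx
      rw [map_inv]
      exact inv_mem hx
  have hJ' : ∀ j : J, (rightHom.comp χ) j ∈ J := fun j => by
    obtain ⟨g, hg, e⟩ := hJ j
    simpa [← e] using hg
  set ψ : J →* J := (rightHom.comp χ).codRestrict J hJ' with hψ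
  have hψχ : ∀ j, inr (ψ j : G) = χ j := fun j => by
    obtain ⟨g, hg, e⟩ := hJ j
    change inr (χ j).right = _
    rw [← e]
    simp
  have := hb.cts
  set p1 : E → D.Mt := fun y => γ • F (D'.pt 1 (p y)) with hp1
  have hp1c : Continuous p1 := (hF.comp ((hb'.emb 1).continuous.comp hp)).const_smul γ
  have hp1e : ∀ (j : J) y, p1 (j • y) = D.ga (ψ j) (p1 y) := by
    intro j y
    have h1 : D'.pt 1 (p (j • y)) = C.io j • D'.pt 1 (p y) := by
      rw [hpe]
      exact (D'.inr_smul_pt _ _).symm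
    simp only [hp1, DavisData.ga]
    rw [h1, he, hψχ, hχ1, smul_smul, inv_mul_cancel_right, mul_smul γ]
    rfl
  obtain ⟨e, hec, hei, hee⟩ := hab _ (hK.image hp1c)
  have hsat : ∀ y, p1 y ∈ D.sat (p1 '' K) := fun y => by
    obtain ⟨j, hj⟩ := hKc y
    refine mem_iUnion.2 ⟨ψ j⁻¹, _, ⟨_, hj, rfl⟩, ?_⟩
    rw [← hp1e, inv_smul_smul]
  have hsat' : ∀ (g : G) y, D.ga g (p1 y) ∈ D.sat (p1 '' K) := fun g y => by
    obtain ⟨g', z, hz, e1⟩ := mem_iUnion.1 (hsat y)
    refine mem_iUnion.2 ⟨g * g', z, hz, ?_⟩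
    rw [← e1]
    simp [DavisData.ga, mul_smul]
  refine obs ψ (e ∘ p1) ⟨fun x y h => hχ0i ?_, hec.comp_continuous hp1c hsat, fun j y => ?_,
    fun g hg y y' h => hg ?_⟩
  · have : χ x = χ y := by rw [← hψχ, ← hψχ, h]
    simpa [hχ1] using this
  · simp only [Function.comp]
    rw [hp1e, hee _ _ (hsat y)]
  · simp only [Function.comp] at h
    rw [← hee _ _ (hsat y)] at h
    have h1 := hei (hsat' g y) (hsat y') h
    set δ : C.Pi := ⟨γ⁻¹ * inr g * γ⁻¹⁻¹, C.conj_mem (C.inr_mem g) γ⁻¹⟩ with hδ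
    have h2 : θ.symm δ • D'.pt 1 (p y) = D'.pt 1 (p y') := by
      refine hi ?_
      rw [he, MulEquiv.apply_symm_apply]
      change (γ⁻¹ * inr g * γ⁻¹⁻¹ : C.Gam) • F (D'.pt 1 (p y)) = _
      rw [inv_inv, mul_smul, mul_smul γ⁻¹, inv_smul_eq_iff]
      exact h1
    have h3 : D'.pt ((θ.symm δ).1.left * C.act (θ.symm δ).1.right 1) ((θ.symm δ).1.right • p y) =
        D'.pt 1 (p y') := h2
    obtain ⟨h4, h5⟩ := D'.pt_eq.1 h3
    have h6 : (θ.symm δ).1.right ∈ J := by
      by_contra hn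
      exact hpd _ hn _ _ h4
    have h7 : (θ.symm δ).1.left = 1 := by
      have := ha.par_Wof (hb'.sig_clique _) h5 (by
        have h8 : C.par (θ.symm δ).1.left = 1 := (θ.symm δ).2
        simp [h8])
      simpa using this
    have h8 : θ.symm δ = C.io (θ.symm δ).1.right := by
      refine Subtype.ext ?_
      ext
      · exact h7
      · rfl
    have h9 : χ ⟨_, h6⟩ = inr g := by
      have : χ0 ⟨_, h6⟩ = δ.1 := by
        change (θ (C.io (θ.symm δ).1.right)).1 = δ.1
        rw [← h8, MulEquiv.apply_symm_apply]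
      rw [hχ1, this, hδ]
      group
    have h10 := (ψ ⟨_, h6⟩).2
    rwa [inr_injective ((hψχ _).trans h9)] at h10

/-- all facts about one chamber -/
structure DavisData.All {C : CG G S} (D : DavisData C) : Prop where
  basic : D.Basic
  chart : D.Chart
  act : D.Act
  ae : D.MtAE
  absorb : D.Abs → D.Absorb

theorem Pair.counter {E : Type} [TopologicalSpace E] (P : Pair G S E) (h3 : AE3) (hh : HEQ)
    (hl : LIFT) (ha : P.C.Api) (hk : P.C.KL) (h : P.D.All) (h' : P.D'.All) : Counter := by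
  obtain ⟨⟨c1⟩, t1, k1, n1, a1⟩ := P.D.closed h3 h.chart h.act h.ae
  obtain ⟨⟨c2⟩, t2, k2, n2, a2⟩ := P.D'.closed h3 h'.chart h'.act h'.ae
  refine ⟨P.D'.M, P.D.M, inferInstance, inferInstance, c2, c1, t2, k2, n2, t1, k1, n1, a2, a1,
    hh _ _ _ h'.act h.act h'.ae h.ae, ⟨fun f => ?_⟩⟩
  obtain ⟨ch⟩ := h.chart
  obtain ⟨ch'⟩ := h'.chart
  have := h.act.t2
  have := h.act.lc
  have := h.act.sc
  have := h'.act.t2
  have := h'.act.lc
  have := h'.act.sc
  have := h3.contr h.ae
  have := h3.contr h'.ae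
  have := ChartedSpace.locallyPathConnectedSpace E4 P.D.Mt
  have := ChartedSpace.locallyPathConnectedSpace E4 P.D'.Mt
  obtain ⟨θ, F, hF, hi, he⟩ := hl _ _ _ h'.act h.act f
  exact P.no_lift ha hk h.basic h'.basic (h.absorb P.abs) θ F hF hi he

end Vale.Agent.P260Z
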