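import Vale.Agent.P260Z.Dav.Sk

/-!
# P260: the quotients of two absolute extensors are homotopy equivalent
-/

noncomputable section

namespace Vale.Agent.P260Z

open Set Topology

namespace Heq

variable {Γ T T' : Type} [Group Γ] [TopologicalSpace T] [TopologicalSpace T'] [MulAction Γ T]
  [MulAction Γ T']

/-- the cylinder -/
def Cyl (T : Type) : Type := unitInterval × T

instance : TopologicalSpace (Cyl T) := inferInstanceAs (TopologicalSpace (unitInterval × T))

instance : MulAction Γ (Cyl T) where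
  smul g p := (p.1, g • p.2)
  one_smul p := Prod.ext rfl (one_smul Γ p.2)
  mul_smul g h p := Prod.ext rfl (mul_smul g h p.2)

theorem nice_cyl (h : Nice Γ T) : Nice Γ (Cyl T) := by
  obtain ⟨h1, h2, h3, h4, h5, h6, K, hK, h7⟩ := h
  refine ⟨inferInstanceAs (T2Space (unitInterval × T)),
    inferInstanceAs (LocallyCompactSpace (unitInterval × T)),
    inferInstanceAs (SecondCountableTopology (unitInterval × T)),
    ⟨fun g => continuous_fst.prodMk (continuous_snd.const_smul g)⟩, ⟨fun {A B} hA hB => ?_⟩,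
    { right_cancel' := fun g g' p e => IsCancelSMul.right_cancel g g' p.2 (congrArg Prod.snd e) },
    (univ : Set unitInterval) ×ˢ K, isCompact_univ.prod hK, fun p => ?_⟩
  · refine (finite_disjoint_inter_image (Γ := Γ) (hA.image (f := fun p : Cyl T => p.2)
      continuous_snd) (hB.image (f := fun p : Cyl T => p.2) continuous_snd)).subset ?_
    rintro g ⟨_, ⟨p, hp, rfl⟩, hq⟩
    exact ⟨g • p.2, ⟨p.2, ⟨p, hp, rfl⟩, rfl⟩, g • p, hq, rfl⟩
  · obtain ⟨g, hg⟩ := h7 p.2
    exact ⟨g, mem_univ _, hg⟩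

omit [TopologicalSpace T] [TopologicalSpace T'] in
theorem rel_map {f : T → T'} (hf : ∀ (g : Γ) z, f (g • z) = g • f z) {a b : T}
    (h : MulAction.orbitRel Γ T a b) : MulAction.orbitRel Γ T' (f a) (f b) := by
  obtain ⟨g, rfl⟩ := h
  exact ⟨g, (hf g b).symm⟩

/-- the map of the quotients -/
def desc (f : T → T') (hc : Continuous f) (hf : ∀ (g : Γ) z, f (g • z) = g • f z) :
    C(MulAction.orbitRel.Quotient Γ T, MulAction.orbitRel.Quotient Γ T') :=
  ⟨Quotient.map' f fun _ _ => rel_map hf, hc.quotient_map' _⟩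

theorem homotopic (h : EQX) (hT : Nice Γ T) (hT' : Nice Γ T') (hA : AE (univ : Set T'))
    {f₀ f₁ : T → T'} (c₀ : Continuous f₀) (c₁ : Continuous f₁)
    (e₀ : ∀ (g : Γ) z, f₀ (g • z) = g • f₀ z) (e₁ : ∀ (g : Γ) z, f₁ (g • z) = g • f₁ z) :
    (desc f₀ c₀ e₀).Homotopic (desc f₁ c₁ e₁) := by
  classical
  have := hT.cts
  have := hT'.cts
  have k₀ : IsClosed {p : Cyl T | p.1 = 0} := isClosed_eq continuous_fst continuous_const
  have k₁ : IsClosed {p : Cyl T | p.1 = 1} := isClosed_eq continuous_fst continuous_const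
  obtain ⟨H, h1, h2, h3⟩ := h Γ (Cyl T) T' (nice_cyl hT) hA
    ({p : Cyl T | p.1 = 0} ∪ {p : Cyl T | p.1 = 1}) (fun p => if p.1 = 0 then f₀ p.2 else f₁ p.2)
    (k₀.union k₁) (fun g z hz => hz)
    (ContinuousOn.union_of_isClosed
      ((c₀.comp continuous_snd).continuousOn.congr fun p hp => if_pos hp)
      ((c₁.comp continuous_snd).continuousOn.congr fun p hp =>
        if_neg fun e => zero_ne_one (e.symm.trans hp)) k₀ k₁)
    (fun g z _ => by
      change (if z.1 = 0 then f₀ (g • z.2) else f₁ (g • z.2)) = _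
      split_ifs
      exacts [e₀ g _, e₁ g _])
  refine ⟨⟨⟨fun p => Quotient.map' (fun x => H (p.1, x))
    (fun _ _ => rel_map (f := fun x => H (p.1, x)) fun g z => h2 g (p.1, z)) p.2, ?_⟩, ?_, ?_⟩⟩
  · refine (IsOpenQuotientMap.id.prodMap
      (MulAction.isOpenQuotientMap_quotientMk (Γ := Γ) (T := T))).continuous_comp_iff.1 ?_
    exact continuous_quotient_mk'.comp h1
  · rintro ⟨x⟩
    exact congrArg Quotient.mk'' ((h3 (Or.inl rfl)).trans (if_pos rfl))
  · rintro ⟨x⟩
    exact congrArg Quotient.mk'' ((h3 (Or.inr rfl)).trans (if_neg one_ne_zero))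

end Heq

open Heq in
theorem heq_of (h : EQX) : HEQ := by
  intro Γ T T' _ _ _ _ _ hT hT' hA hA'
  have := hT.cts
  have := hT'.cts
  obtain ⟨⟨y, -⟩, -⟩ := id hA
  obtain ⟨⟨y', -⟩, -⟩ := id hA'
  obtain ⟨F, c, e, -⟩ := h Γ T T' hT hA' ∅ (fun _ => y') isClosed_empty (fun _ _ h => h)
    (continuousOn_empty _) fun _ _ h => h.elim
  obtain ⟨F', c', e', -⟩ := h Γ T' T hT' hA ∅ (fun _ => y) isClosed_empty (fun _ _ h => h)
    (continuousOn_empty _) fun _ _ h => h.elim
  refine ⟨⟨desc F c e, desc F' c' e', ?_, ?_⟩⟩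
  · have h1 := homotopic h hT hT hA (c'.comp c) continuous_id
      (fun g z => (congrArg F' (e g z)).trans (e' g _)) fun _ _ => rfl
    have h2 : ∀ {a b a' b' : C(MulAction.orbitRel.Quotient Γ T, MulAction.orbitRel.Quotient Γ T)},
      a.Homotopic b → a = a' → b = b' → a'.Homotopic b' := fun h e e' => e ▸ e' ▸ h
    exact h2 h1 (ContinuousMap.ext (by rintro ⟨_⟩; rfl)) (ContinuousMap.ext (by rintro ⟨_⟩; rfl))
  · have h1 := homotopic h hT' hT' hA' (c.comp c') continuous_id
      (fun g z => (congrArg F (e' g z)).trans (e g _)) fun _ _ => rfl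
    have h2 : ∀ {a b a' b' : C(MulAction.orbitRel.Quotient Γ T', MulAction.orbitRel.Quotient Γ T')},
      a.Homotopic b → a = a' → b = b' → a'.Homotopic b' := fun h e e' => e ▸ e' ▸ h
    exact h2 h1 (ContinuousMap.ext (by rintro ⟨_⟩; rfl)) (ContinuousMap.ext (by rintro ⟨_⟩; rfl))

end Vale.Agent.P260Z
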