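import Vale.Agent.P260Z.Dav.RC

/-!
# P260: two different square roots of one element fix a common chamber
-/

noncomputable section

namespace Vale.Agent.P260Z

open Set SemidirectProduct

namespace CG
variable {G S : Type} [Group G] [MulAction G S] (C : CG G S)

def KLc (u v : C.Gam) : Prop :=
  ∃ (γ : C.Gam) (a b : G), γ * u * γ⁻¹ = inr a ∧ γ * v * γ⁻¹ = inr b

def KLn (n : ℕ) : Prop :=
  ∀ u v : C.Gam, u.left ∈ C.Wn univ n → v.left ∈ C.Wn univ n → C.par u.left = 1 →
    C.par v.left = 1 → u ^ 2 = v ^ 2 → u ≠ v → C.KLc u v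

theorem sq_left (w : C.W) (u : C.Gam) :
    (inl w * u) ^ 2 = inl (w * C.cj u w) * u ^ 2 := by
  ext <;> simp [pow_two, cj_apply, mul_assoc]

theorem sq_mem {n : ℕ} {u : C.Gam} (hu : u.left ∈ C.Wn univ n) : (u ^ 2).left ∈ C.Wn univ n := by
  rw [pow_two, mul_left]
  exact mul_mem hu (C.act_mem_Wn _ hu)

theorem eq_of_KLc {u v : C.Gam} (h : C.KLc u v) (e : u.right = v.right) : u = v := by
  obtain ⟨γ, a, b, ha, hb⟩ := h
  have h1 := congrArg SemidirectProduct.right ha
  have h2 := congrArg SemidirectProduct.right hb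
  simp only [mul_right, inv_right, right_inr] at h1 h2
  have : a = b := by rw [← h1, ← h2, e]
  rw [this, ← hb] at ha
  simpa using ha

/-- the cyclically reduced case -/
theorem kl_red (h : C.NF) {n : ℕ} (ih : C.KLn n) {u v : C.Gam} {l l' : List C.W}
    (hu : u.left ∈ C.Wn univ n) (hv : v.left ∈ C.Wn univ n) (hpu : C.par u.left = 1)
    (hpv : C.par v.left = 1) (hl : ∀ r ∈ l, r ∈ C.Rf univ n) (hl' : ∀ r ∈ l', r ∈ C.Rf univ n)
    (hc' : l'.IsChain (· ≠ ·)) (he' : Even l'.length)
    (hred : (l ++ l.map (C.cj u)).IsChain (· ≠ ·))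
    (hsq : (inl l.prod * u) ^ 2 = (inl l'.prod * v) ^ 2)
    (hne : inl l.prod * u ≠ inl l'.prod * v) : C.KLc (inl l.prod * u) (inl l'.prod * v) := by
  obtain ⟨a, c, b, h1, h2, h3, h4, h5, h6⟩ := C.sq_form h (C.rcn h n) hv hpv hl' hc' he'
  rw [sq_left, sq_left, h6, map_list_prod, ← List.prod_append] at hsq
  have hlm : ∀ r ∈ l ++ l.map (C.cj u), r ∈ C.Rf univ n := by
    intro r hr
    rcases List.mem_append.1 hr with hr | hr
    · exact hl r hr
    · obtain ⟨r', hr', rfl⟩ := List.mem_map.1 hr
      exact C.cj_mem_Rf hu (hl _ hr')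
  have e1 : l ++ l.map (C.cj u) = a ++ b := by
    refine h.uniq n _ _ _ _ hlm h5 hred h3 (C.sq_mem hu) (C.sq_mem hv) ?_
    simpa using congrArg SemidirectProduct.left hsq
  rw [e1] at hsq
  have e2 : u ^ 2 = v ^ 2 := mul_left_cancel hsq
  have hlen : b.length = a.length := by
    have := congrArg List.length h2
    rw [List.length_map, h1] at this
    simp at this
    omega
  have hlen' : l.length = a.length := by
    have := congrArg List.length e1
    simp at this
    omega
  obtain ⟨e3, e4⟩ := List.append_inj e1 hlen'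
  subst e3
  rcases l with _ | ⟨i, t⟩
  · have hc0 : c = [] := List.length_eq_zero_iff.1 (by simpa using h4)
    subst hc0
    have : l' = [] := by simpa using h1
    subst this
    simp only [List.prod_nil, map_one, one_mul] at hne ⊢
    exact ih u v hu hv hpu hpv e2 hne
  exfalso
  rcases List.eq_nil_or_concat c with rfl | ⟨c0, j, rfl⟩
  · have e5 : l' = i :: t := by simpa using h1
    subst e5
    have e6 : C.cj v i = C.cj u i := by
      rw [← e4] at h2
      simp only [List.map_cons, List.reverse_nil, List.nil_append, List.cons.injEq] at h2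
      exact h2.1
    have huv : u ≠ v := fun e => hne (by rw [e])
    obtain ⟨z, -, s, -, -, hi⟩ := hl i List.mem_cons_self
    have e7 : (u⁻¹ * v).right = 1 := by
      refine C.right_eq_one h (z := z) (s := s) ?_
      rw [← hi, cj_mul, e6, ← cj_mul, inv_mul_cancel]
      simp [cj_apply]
    refine huv (C.eq_of_KLc (ih u v hu hv hpu hpv e2 huv) ?_)
    rw [mul_right, inv_right] at e7
    exact inv_mul_eq_one.1 e7
  · rw [List.concat_eq_append] at h1 h2
    subst h1
    have e5 : C.cj v i = j := by
      simp only [List.cons_append, List.map_cons, List.reverse_append, List.reverse_cons,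
        List.reverse_nil, List.nil_append, List.cons.injEq] at h2
      exact h2.1
    have e6 : C.cj v j = C.cj u ((i :: t).getLast (by simp)) := by
      have h7 := congrArg List.getLast? h2
      rw [← e4, ← List.append_assoc, List.map_append, List.getLast?_append, List.getLast?_append,
        List.getLast?_map, List.getLast?_map (l := i :: t),
        List.getLast?_eq_some_getLast (l := i :: t) (by simp)] at h7
      simpa using h7
    have e7 : C.cj u i = (i :: t).getLast (by simp) := by
      refine C.cj_inj u ?_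
      rw [← e6, ← e5, ← cj_mul, ← cj_mul, ← pow_two, ← pow_two, e2]
    have h8 := (List.isChain_append.1 hred).2.2 _
      (by rw [List.getLast?_eq_some_getLast (l := i :: t) (by simp)]; rfl) (C.cj u i) (by simp)
    exact h8 e7.symm

theorem KLc.conj {u v γ : C.Gam} (h : C.KLc (γ * u * γ⁻¹) (γ * v * γ⁻¹)) : C.KLc u v := by
  obtain ⟨δ, a, b, ha, hb⟩ := h
  exact ⟨δ * γ, a, b, by rw [← ha]; group, by rw [← hb]; group⟩

theorem kl_step (h : C.NF) {n : ℕ} (ih : C.KLn n) : ∀ (N : ℕ) (l : List C.W) (u v : C.Gam),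
    l.length = N → u.left ∈ C.Wn univ n → C.par u.left = 1 → (∀ r ∈ l, r ∈ C.Rf univ n) →
    l.IsChain (· ≠ ·) → Even l.length → v.left ∈ C.Wn univ (n + 1) → C.par v.left = 1 →
    (inl l.prod * u) ^ 2 = v ^ 2 → inl l.prod * u ≠ v → C.KLc (inl l.prod * u) v := by
  intro N
  induction N using Nat.strong_induction_on with
  | _ N ihN =>
  intro l u v hN hu hpu hl hc he hv hpv hsq hne
  by_cases hred : (l ++ l.map (C.cj u)).IsChain (· ≠ ·)
  · obtain ⟨l', hl', hc', x, hx, e⟩ := h.ex univ n _ hv
    obtain ⟨he', hpx⟩ := h.even n l' x hl' hx (e ▸ hpv)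
    have ev : v = inl l'.prod * ⟨x, v.right⟩ := by ext <;> simp [e]
    rw [ev] at hsq hne ⊢
    exact C.kl_red h ih hu hx hpu hpx hl hl' hc' he' hred hsq hne
  · rcases l with _ | ⟨i, t⟩
    · exact absurd (by simp) hred
    rcases List.eq_nil_or_concat t with rfl | ⟨m, j, rfl⟩
    · simp at he
    rw [List.concat_eq_append] at *
    have hj : j = C.cj u i := by
      by_contra hj
      refine hred (List.IsChain.append hc
        ((List.isChain_map _).2 (hc.imp fun _ _ hne e => hne (C.cj_inj u e))) ?_)
      rw [← List.cons_append, List.getLast?_append]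
      simpa using hj
    have hi := hl i List.mem_cons_self
    have hii := C.Rf_sq hi
    have hinv : i⁻¹ = i := inv_eq_of_mul_eq_one_right hii
    have e1 : inl i * (inl (i :: (m ++ [j])).prod * u) * (inl i)⁻¹ = inl m.prod * u := by
      have h1 : C.act u.right i * C.act u.right i = 1 := by rw [← map_mul, hii, map_one]
      ext
      · simp [hj, cj_apply, mul_assoc, hinv, h1, ← mul_assoc i i, hii]
      · simp
    refine KLc.conj C (γ := inl i) ?_
    rw [e1]
    have hi' := C.Rf_mem hi
    refine ihN m.length (by rw [← hN]; simp) m u _ rfl hu hpu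
      (fun r hr => hl r (by simp [hr])) hc.tail.left_of_append ?_ ?_ ?_ ?_ ?_
    · simp only [List.length_cons, List.length_append, List.length_nil] at he
      obtain ⟨k, hk⟩ := he
      exact ⟨k - 1, by omega⟩
    · simp only [← map_inv, mul_left, left_inl, right_inl, map_one, MulAut.one_apply, mul_right,
        one_mul]
      exact mul_mem (mul_mem hi' hv) (C.act_mem_Wn _ (inv_mem hi'))
    · simp only [← map_inv, mul_left, left_inl, right_inl, map_one, MulAut.one_apply, mul_right,
        one_mul, map_mul, par_act, hpv]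
      simp
    · rw [← e1, conj_pow, conj_pow, hsq]
    · rw [← e1]
      simpa using hne

theorem kln (h : C.NF) : ∀ n, C.KLn n
  | 0 => fun u v hu hv _ _ _ _ => ⟨1, u.right, v.right, by ext <;> simp [C.Wn_zero hu],
      by ext <;> simp [C.Wn_zero hv]⟩
  | n + 1 => by
    intro u v hu hv hpu hpv hsq hne
    obtain ⟨l, hl, hc, x, hx, e⟩ := h.ex univ n _ hu
    obtain ⟨he, hpx⟩ := h.even n l x hl hx (e ▸ hpu)
    have eu : u = inl l.prod * ⟨x, u.right⟩ := by ext <;> simp [e]
    rw [eu] at hsq hne ⊢
    exact C.kl_step h (kln h n) _ l _ v rfl hx hpx hl hc he hv hpv hsq hne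

theorem kl_of (h : C.NF) : C.KL := fun u v hu hv =>
  C.kln h 4 u v (C.mem_Wn_four _) (C.mem_Wn_four _) hu hv

end CG

end Vale.Agent.P260Z
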