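import Vale.Agent.P260Z.Dav.Sk

/-!
# P260: word length in a right angled Coxeter group, by the numbers game
-/

noncomputable section

namespace Vale.Agent.P260Z

open Set

namespace CG
variable {G S : Type} [Group G] [MulAction G S] (C : CG G S)

open Classical in
/-- one move of the numbers game -/
def fire (s : S) (a : S → ℤ) : S → ℤ :=
  fun t => if t = s then -a s else if C.gr.Adj s t then a t else a t + 2 * a s

theorem fire_self (s : S) (a : S → ℤ) : C.fire s a s = -a s := by simp [fire]

theorem fire_adj {s t : S} (h : C.gr.Adj s t) (a : S → ℤ) : C.fire s a t = a t := by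
  simp [fire, h, h.ne']

theorem fire_nadj {s t : S} (h : t ≠ s) (h' : ¬ C.gr.Adj s t) (a : S → ℤ) :
    C.fire s a t = a t + 2 * a s := by
  simp [fire, h, h']

theorem fire_fire (s : S) : Function.Involutive (C.fire s) := by
  intro a
  funext t
  by_cases h : t = s
  · subst h
    rw [fire_self, fire_self, neg_neg]
  · by_cases h' : C.gr.Adj s t
    · rw [C.fire_adj h', C.fire_adj h']
    · rw [C.fire_nadj h h', C.fire_nadj h h', fire_self]
      ring

theorem fire_comm {s t : S} (h : C.gr.Adj s t) (a : S → ℤ) :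
    C.fire s (C.fire t a) = C.fire t (C.fire s a) := by
  funext u
  by_cases h1 : u = s
  · subst h1
    rw [fire_self, C.fire_adj h.symm, C.fire_adj h.symm, fire_self]
  by_cases h2 : u = t
  · subst h2
    rw [fire_self, C.fire_adj h, C.fire_adj h, fire_self]
  by_cases h3 : C.gr.Adj s u <;> by_cases h4 : C.gr.Adj t u
  · rw [C.fire_adj h3, C.fire_adj h4, C.fire_adj h4, C.fire_adj h3]
  · rw [C.fire_adj h3, C.fire_nadj h2 h4, C.fire_nadj h2 h4, C.fire_adj h3, C.fire_adj h]
  · rw [C.fire_nadj h1 h3, C.fire_adj h4, C.fire_adj h4, C.fire_nadj h1 h3, C.fire_adj h.symm]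
  · rw [C.fire_nadj h1 h3, C.fire_nadj h2 h4, C.fire_nadj h2 h4, C.fire_nadj h1 h3,
      C.fire_adj h, C.fire_adj h.symm]
    ring

/-- the action of the Coxeter group on positions -/
def game : C.W →* Equiv.Perm (S → ℤ) :=
  C.lift (fun s => (C.fire_fire s).toPerm _) (fun s => Equiv.ext fun a => C.fire_fire s a)
    fun _ _ h => Equiv.ext fun a => C.fire_comm h a

/-- the position reached by playing `w` -/
def pos (w : C.W) : S → ℤ := C.game w⁻¹ fun _ => 1

theorem gen_inv (s : S) : (C.gen s)⁻¹ = C.gen s :=
  inv_eq_of_mul_eq_one_right (C.gen_mul_self s)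

theorem mul_gen_gen (w : C.W) (s : S) : w * C.gen s * C.gen s = w := by
  rw [mul_assoc, gen_mul_self, mul_one]

theorem pos_one (s : S) : C.pos 1 s = 1 := by simp [pos]

theorem pos_mul (w : C.W) (s : S) : C.pos (w * C.gen s) = C.fire s (C.pos w) := by
  rw [pos, mul_inv_rev, gen_inv, map_mul, game, lift_gen]
  rfl

/-- legal sequences of moves -/
inductive Legal : C.W → ℕ → Prop
  | one : Legal 1 0
  | step {w : C.W} {n : ℕ} {s : S} : Legal w n → 0 < C.pos w s → Legal (w * C.gen s) (n + 1)

variable {C}

theorem Legal.odd {w : C.W} {n : ℕ} (h : C.Legal w n) (t : S) : Odd (C.pos w t) := by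
  induction h generalizing t with
  | one => rw [pos_one]; exact odd_one
  | @step w n s _ _ ih =>
    rw [pos_mul]
    by_cases h1 : t = s
    · subst h1
      rw [fire_self]
      exact (ih t).neg
    · by_cases h2 : C.gr.Adj s t
      · rw [C.fire_adj h2]
        exact ih t
      · rw [C.fire_nadj h1 h2]
        exact (ih t).add_even (even_two_mul _)

theorem le_fire {s t : S} {a : S → ℤ} (hs : 0 < a s) (h : t ≠ s) : a t ≤ C.fire s a t := by
  by_cases h2 : C.gr.Adj s t
  · rw [C.fire_adj h2]
  · rw [C.fire_nadj h h2]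
    omega

theorem Legal.sum_pos {w : C.W} {n : ℕ} (h : C.Legal w n) {u v : S} (huv : u ≠ v)
    (hn : ¬ C.gr.Adj u v) : 0 < C.pos w u + C.pos w v := by
  induction h with
  | one => rw [pos_one, pos_one]; norm_num
  | @step w n s _ hs ih =>
    rw [pos_mul]
    by_cases h1 : u = s
    · subst h1
      rw [fire_self, C.fire_nadj huv.symm hn]
      omega
    by_cases h2 : v = s
    · subst h2
      rw [fire_self, C.fire_nadj huv fun h => hn h.symm]
      omega
    have := le_fire (C := C) hs h1
    have := le_fire (C := C) hs h2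
    omega

theorem Legal.back {w : C.W} {n : ℕ} (h : C.Legal w n) {s : S} (hs : C.pos w s < 0) :
    ∃ m, n = m + 1 ∧ C.Legal (w * C.gen s) m := by
  induction h with
  | one => rw [pos_one] at hs; omega
  | @step w n t hw ht ih =>
    refine ⟨n, rfl, ?_⟩
    by_cases h1 : s = t
    · subst h1
      rwa [mul_gen_gen]
    rw [pos_mul] at hs
    by_cases h2 : C.gr.Adj t s
    · rw [C.fire_adj h2] at hs
      obtain ⟨m, rfl, hm⟩ := ih hs
      have := hm.step (s := t) (by rwa [pos_mul, C.fire_adj h2.symm])
      rwa [mul_assoc, C.gen_comm h2.symm, ← mul_assoc] at this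
    · rw [C.fire_nadj h1 h2] at hs
      have := hw.sum_pos (Ne.symm h1) h2
      omega

theorem Legal.word {w : C.W} {n : ℕ} (h : C.Legal w n) :
    ∃ l : List S, l.length = n ∧ (l.map C.gen).prod = w := by
  induction h with
  | one => exact ⟨[], rfl, rfl⟩
  | @step w n s _ _ ih =>
    obtain ⟨l, hl, rfl⟩ := ih
    exact ⟨l ++ [s], by simp [hl], by simp⟩

theorem Legal.len_le {w : C.W} {n : ℕ} (h : C.Legal w n) : C.len w ≤ n :=
  Nat.sInf_le h.word

variable (C)

theorem legal_of_word (l : List S) : ∃ n ≤ l.length, C.Legal (l.map C.gen).prod n := by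
  induction l using List.reverseRecOn with
  | nil => exact ⟨0, le_rfl, Legal.one⟩
  | append_singleton l s ih =>
    obtain ⟨n, hn, h⟩ := ih
    have e : ((l ++ [s]).map C.gen).prod = (l.map C.gen).prod * C.gen s := by simp
    rw [e, List.length_append, List.length_singleton]
    rcases lt_trichotomy (C.pos (l.map C.gen).prod s) 0 with h0 | h0 | h0
    · obtain ⟨m, rfl, hm⟩ := h.back h0
      exact ⟨m, by omega, hm⟩
    · have := h.odd s
      rw [h0] at this
      exact absurd this (by decide)
    · exact ⟨n + 1, by omega, h.step h0⟩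

theorem exists_word (w : C.W) : ∃ l : List S, (l.map C.gen).prod = w := by
  have hw : w ∈ Subgroup.closure (range C.gen) := by
    have := PresentedGroup.closure_range_of C.rels
    exact this.ge (Subgroup.mem_top w)
  induction hw using Subgroup.closure_induction_right with
  | one => exact ⟨[], rfl⟩
  | mul_right x _ y hy ih =>
    obtain ⟨l, rfl⟩ := ih
    obtain ⟨s, rfl⟩ := hy
    exact ⟨l ++ [s], by simp⟩
  | mul_inv_cancel x _ y hy ih =>
    obtain ⟨l, rfl⟩ := ih
    obtain ⟨s, rfl⟩ := hy
    exact ⟨l ++ [s], by simp [gen_inv]⟩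

theorem len_word (w : C.W) : ∃ l : List S, l.length = C.len w ∧ (l.map C.gen).prod = w := by
  obtain ⟨l, hl⟩ := C.exists_word w
  exact Nat.sInf_mem (s := {n | ∃ l : List S, l.length = n ∧ (l.map C.gen).prod = w})
    ⟨_, l, rfl, hl⟩

theorem legal_len (w : C.W) : C.Legal w (C.len w) := by
  obtain ⟨l, hl, rfl⟩ := C.len_word w
  obtain ⟨n, hn, h⟩ := C.legal_of_word l
  have := h.len_le
  rwa [show C.len (l.map C.gen).prod = n by omega]

theorem pos_ne (w : C.W) (s : S) : C.pos w s ≠ 0 := by
  intro h0
  have := (C.legal_len w).odd s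
  rw [h0] at this
  exact absurd this (by decide)

theorem len_of_pos {w : C.W} {s : S} (h : 0 < C.pos w s) :
    C.len (w * C.gen s) = C.len w + 1 := by
  have h1 := ((C.legal_len w).step h).len_le
  obtain ⟨m, hm, h2⟩ := (C.legal_len (w * C.gen s)).back (s := s)
    (by rw [pos_mul, fire_self]; omega)
  rw [mul_gen_gen] at h2
  have := h2.len_le
  omega

theorem len_of_neg {w : C.W} {s : S} (h : C.pos w s < 0) :
    C.len (w * C.gen s) + 1 = C.len w := by
  have := C.len_of_pos (w := w * C.gen s) (s := s) (by rw [pos_mul, fire_self]; omega)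
  rw [mul_gen_gen] at this
  exact this.symm

theorem mem_In {w : C.W} {s : S} : s ∈ C.In w ↔ C.pos w s < 0 := by
  change C.len (w * C.gen s) < C.len w ↔ _
  rcases lt_or_gt_of_ne (C.pos_ne w s) with h | h
  · have := C.len_of_neg h
    omega
  · have := C.len_of_pos h
    omega

theorem len_thm : C.Len where
  len_one := Nat.le_zero.1 (Legal.one (C := C)).len_le
  eq_one := by
    intro w h
    obtain ⟨l, hl, rfl⟩ := C.len_word w
    rw [h, List.length_eq_zero_iff] at hl
    subst hl
    rfl
  word := C.len_word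
  len_le l := Nat.sInf_le ⟨l, rfl, rfl⟩
  len_in h := C.len_of_neg (C.mem_In.1 h)
  len_out := by
    intro w s h
    rw [mem_In] at h
    exact C.len_of_pos (lt_of_le_of_ne (not_lt.1 h) (C.pos_ne w s).symm)
  clique w := by
    intro s hs t ht hst
    rw [mem_In] at hs ht
    by_contra hn
    have := (C.legal_len w).sum_pos hst hn
    omega
  in_adj := by
    intro w s t h
    rw [mem_In, mem_In, pos_mul, C.fire_adj h]
  in_ne := by
    intro w hw
    have h := C.legal_len w
    generalize C.len w = n at h
    cases h with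
    | one => exact absurd rfl hw
    | @step v m s _ hs => exact ⟨s, C.mem_In.2 (by rw [pos_mul, fire_self]; omega)⟩

end CG

end Vale.Agent.P260Z
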