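import Vale.Agent.P260Z.Dav.Sk

/-!
# P260: lifting a homeomorphism of the quotients to the universal covers
-/

noncomputable section

namespace Vale.Agent.P260Z

open Set Topology

/-- a lift of a map of the quotients is equivariant for a homomorphism -/
theorem lift_hom {Γ T T' X X' : Type} [Group Γ] [TopologicalSpace T] [TopologicalSpace T']
    [TopologicalSpace X] [TopologicalSpace X'] [MulAction Γ T] [MulAction Γ T']
    [IsCancelSMul Γ T'] [PreconnectedSpace T] {p : T → X} {p' : T' → X'}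
    (hp : IsQuotientCoveringMap p Γ) (hp' : IsQuotientCoveringMap p' Γ) (f : X → X')
    {F : T → T'} (hF : Continuous F) (h : p' ∘ F = f ∘ p) (z0 : T) :
    ∃ θ : Γ →* Γ, ∀ (g : Γ) z, F (g • z) = θ g • F z := by
  have hs : ∀ (g : Γ) z, p (g • z) = p z := fun g z =>
    hp.apply_eq_iff_mem_orbit.2 ⟨g, rfl⟩
  have hs' : ∀ (g : Γ) z, p' (g • z) = p' z := fun g z =>
    hp'.apply_eq_iff_mem_orbit.2 ⟨g, rfl⟩
  have hz : ∀ z, p' (F z) = f (p z) := fun z => congrFun h z
  have key : ∀ g : Γ, ∃ k : Γ, ∀ z, F (g • z) = k • F z := by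
    intro g
    have h1 : p' (F (g • z0)) = p' (F z0) := by rw [hz, hz, hs]
    obtain ⟨k, hk⟩ := hp'.apply_eq_iff_mem_orbit.1 h1
    refine ⟨k, fun z => ?_⟩
    have := hp'.isCoveringMap.eq_of_comp_eq (g₁ := fun z => F (g • z)) (g₂ := fun z => k • F z)
      (hF.comp (hp.continuous_const_smul g)) ((hp'.continuous_const_smul k).comp hF)
      (funext fun z => by simp only [Function.comp_apply, hs', hz, hs]) z0 hk.symm
    exact congrFun this z
  choose θ hθ using key
  refine ⟨MonoidHom.mk' θ fun a b => ?_, hθ⟩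
  refine IsCancelSMul.right_cancel _ _ (F z0) ?_
  rw [← hθ, mul_smul, hθ, hθ, mul_smul]

theorem lift_thm : LIFT := by
  intro Γ T T' _ _ _ _ _ _ _ _ _ hT hT' f
  have := hT.t2; have := hT.lc; have := hT.cts; have := hT.pd; have := hT.fr
  have := hT'.t2; have := hT'.lc; have := hT'.cts; have := hT'.pd; have := hT'.fr
  have hp : IsQuotientCoveringMap (Quotient.mk <| MulAction.orbitRel Γ T) Γ :=
    isQuotientCoveringMap_quotientMk_of_properlyDiscontinuousSMul
  have hp' : IsQuotientCoveringMap (Quotient.mk <| MulAction.orbitRel Γ T') Γ :=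
    isQuotientCoveringMap_quotientMk_of_properlyDiscontinuousSMul
  set p : T → MulAction.orbitRel.Quotient Γ T := Quotient.mk <| MulAction.orbitRel Γ T
  set p' : T' → MulAction.orbitRel.Quotient Γ T' := Quotient.mk <| MulAction.orbitRel Γ T'
  obtain ⟨z0⟩ : Nonempty T := inferInstance
  obtain ⟨w0, hw0⟩ := hp'.surjective (f (p z0))
  obtain ⟨F, ⟨hF0, hF⟩, -⟩ := hp'.isCoveringMap.existsUnique_continuousMap_lifts
    ⟨f ∘ p, f.continuous.comp hp.continuous⟩ z0 w0 hw0
  obtain ⟨F', ⟨hF0', hF'⟩, -⟩ := hp.isCoveringMap.existsUnique_continuousMap_lifts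
    ⟨f.symm ∘ p', f.symm.continuous.comp hp'.continuous⟩ w0 z0 (by simp [hw0])
  have hz : ∀ z, p' (F z) = f (p z) := fun z => congrFun hF z
  have hz' : ∀ z, p (F' z) = f.symm (p' z) := fun z => congrFun hF' z
  have h1 : ∀ z, F' (F z) = z := fun z => congrFun
    (hp.isCoveringMap.eq_of_comp_eq (g₁ := fun z => F' (F z)) (g₂ := id)
      (F'.continuous.comp F.continuous) continuous_id
      (funext fun z => by simp [hz, hz']) z0 (by simp [hF0, hF0'])) z
  have h2 : ∀ z, F (F' z) = z := fun z => congrFun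
    (hp'.isCoveringMap.eq_of_comp_eq (g₁ := fun z => F (F' z)) (g₂ := id)
      (F.continuous.comp F'.continuous) continuous_id
      (funext fun z => by simp [hz, hz']) w0 (by simp [hF0, hF0'])) z
  obtain ⟨θ, hθ⟩ := lift_hom hp hp' f F.continuous hF z0
  obtain ⟨θ', hθ'⟩ := lift_hom hp' hp f.symm F'.continuous hF' w0
  refine ⟨MonoidHom.toMulEquiv θ θ' (MonoidHom.ext fun g => ?_) (MonoidHom.ext fun g => ?_), F,
    F.continuous, Function.LeftInverse.injective h1, hθ⟩
  · refine IsCancelSMul.right_cancel _ _ z0 ?_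
    have := hθ' (θ g) (F z0)
    rw [← hθ, h1, h1] at this
    exact this.symm
  · refine IsCancelSMul.right_cancel _ _ w0 ?_
    have := hθ (θ' g) (F' w0)
    rw [← hθ', h2, h2] at this
    exact this.symm

end Vale.Agent.P260Z
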