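import Vale.Agent.P260Z.Dav.Sk

/-!
# P260: the universal cover is an absolute extensor
-/

noncomputable section

namespace Vale.Agent.P260Z

open Set Topology

variable {G S : Type} [Group G] [MulAction G S] {C : CG G S}

namespace MtAux

theorem emb_res {A B : Type} [TopologicalSpace A] [TopologicalSpace B] {f : A → B}
    (h : IsEmbedding f) (Y : Set A) : IsEmbedding (Y.domRestrict f) :=
  h.comp IsEmbedding.subtypeVal

theorem emb_sub {A B : Type} [TopologicalSpace A] [TopologicalSpace B] {f : A → B} {Y Y' : Set A}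
    (h : IsEmbedding (Y.domRestrict f)) (hY : Y' ⊆ Y) : IsEmbedding (Y'.domRestrict f) :=
  h.comp (IsEmbedding.inclusion hY)

theorem U_eq (D : DavisData C) (T : Set C.W) : D.U T = ⋃ w ∈ T, range (D.pt w) := by
  ext z
  simp only [DavisData.U, mem_ofPred_eq, mem_iUnion, mem_range, exists_prop]
  constructor
  · rintro ⟨w, hw, x, rfl⟩
    exact ⟨w, hw, x, rfl⟩
  · rintro ⟨w, hw, x, rfl⟩
    exact ⟨w, hw, x, rfl⟩

theorem closed_U (D : DavisData C) (hb : D.Basic) {T : Set C.W} (hT : T.Finite) :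
    IsClosed (D.U T) := by
  rw [U_eq]
  exact hT.isClosed_biUnion fun w _ => (hb.emb w).isClosed_range

theorem ae_pt (D : DavisData C) (h1 : AE1) (hb : D.Basic) (w : C.W) : AE (range (D.pt w)) := by
  rw [← image_univ]
  exact h1.emb (emb_res (hb.emb w).isEmbedding _) D.ae

theorem len_gen (ha : C.Api) {w : C.W} {s : S} (hs : s ∈ C.In w) :
    C.len (w * C.gen s) < C.len w := by
  have := ha.len_in hs
  omega

/-- the new chamber meets the old ones in the panels of its descent set -/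
theorem inter_eq (D : DavisData C) (ha : C.Api) (hb : D.Basic) {T : Set C.W} {w : C.W}
    (hT : C.Down T) (hw : w ∈ T) (hm : ∀ w' ∈ T, C.len w' ≤ C.len w) :
    range (D.pt w) ∩ D.U (T \ {w}) = D.pt w '' (D.c '' C.Bs (C.In w)) := by
  classical
  ext z
  constructor
  · rintro ⟨⟨x, rfl⟩, w', ⟨hw', hne⟩, x', h⟩
    obtain ⟨-, h'⟩ := D.pt_eq.1 h
    obtain ⟨ρ, hρ, e⟩ := (ha.mem_Wof (hb.sig_clique x)).1 h'
    have e' : w' = w * C.pr ρ := by rw [← e, mul_inv_cancel_left]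
    have hl := ha.len_pr w ((hb.sig_clique x).subset hρ)
    have hle := hm w' hw'
    have hρ0 : ρ ≠ ∅ := by
      rintro rfl
      rw [ha.pr_empty, mul_one] at e'
      exact hne e'
    have hc : 0 < ρ.card := Finset.card_pos.2 (Finset.nonempty_iff_ne_empty.2 hρ0)
    rw [← e'] at hl
    have hp : 0 < (ρ.filter (· ∈ C.In w)).card := by omega
    obtain ⟨s, hs⟩ := Finset.card_pos.1 hp
    obtain ⟨hs1, hs2⟩ := Finset.mem_filter.1 hs
    obtain ⟨q, hq, rfl, hqs⟩ := hρ hs1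
    exact ⟨_, ⟨q, ⟨hq, s, hs2, hqs⟩, rfl⟩, rfl⟩
  · rintro ⟨_, ⟨q, ⟨hq, s, hs, hqs⟩, rfl⟩, rfl⟩
    refine ⟨⟨_, rfl⟩, w * C.gen s, ⟨hT w hw s hs, fun h => ?_⟩, D.c q, D.pt_eq.2 ⟨rfl, ?_⟩⟩
    · have := len_gen ha hs
      rw [mem_singleton_iff.1 h] at this
      exact lt_irrefl _ this
    · rw [inv_mul_cancel_left]
      exact Subgroup.subset_closure ⟨s, ⟨q, hq, rfl, hqs⟩, rfl⟩

theorem ae_U (D : DavisData C) (h1 : AE1) (h2 : AE2) (ha : C.Api) (hB : C.BsAE) (hb : D.Basic)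
    (n : ℕ) : ∀ T : Set C.W, T.Finite → T.ncard = n → T.Nonempty → C.Down T → AE (D.U T) := by
  induction n using Nat.strong_induction_on with
  | _ n ih =>
  intro T hf hn hne hT
  obtain ⟨w, hw, hm⟩ := T.exists_max_image C.len hf hne
  by_cases h : w = 1
  · have e : D.U T = range (D.pt w) := by
      ext z
      constructor
      · rintro ⟨w', hw', x, rfl⟩
        have h0 := hm w' hw'
        rw [h, ha.len_one] at h0
        rw [ha.eq_one (Nat.le_zero.1 h0), h]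
        exact ⟨x, rfl⟩
      · rintro ⟨x, rfl⟩
        exact ⟨w, hw, x, rfl⟩
    rw [e]
    exact ae_pt D h1 hb w
  · have e : D.U T = range (D.pt w) ∪ D.U (T \ {w}) := by
      ext z
      constructor
      · rintro ⟨w', hw', x, rfl⟩
        by_cases h' : w' = w
        · exact Or.inl ⟨x, by rw [h']⟩
        · exact Or.inr ⟨w', ⟨hw', h'⟩, x, rfl⟩
      · rintro (⟨x, rfl⟩ | ⟨w', hw', x, rfl⟩)
        · exact ⟨w, hw, x, rfl⟩
        · exact ⟨w', hw'.1, x, rfl⟩
    obtain ⟨s, hs⟩ := ha.in_ne h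
    have hlt : ∀ w' ∈ T, ∀ t ∈ C.In w', w' * C.gen t ∈ T \ {w} := fun w' hw' t ht =>
      ⟨hT w' hw' t ht, fun e => by
        have a := len_gen ha ht
        have b := hm w' hw'
        rw [mem_singleton_iff.1 e] at a
        omega⟩
    rw [e]
    refine h2.union (hb.emb w).isClosed_range (closed_U D hb hf.sdiff) (ae_pt D h1 hb w)
      (ih _ (hn ▸ ncard_sdiff_singleton_lt_of_mem hw hf) _ hf.sdiff rfl ⟨_, hlt w hw s hs⟩
        fun w' hw' => hlt w' hw'.1) ?_
    rw [inter_eq D ha hb hT hw hm]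
    exact h1.emb (emb_res (hb.emb w).isEmbedding _)
      (h1.emb (emb_sub D.c_emb.isEmbedding fun q hq => hq.1) (hB _ ⟨s, hs⟩ (ha.clique w)))

end MtAux

theorem DavisData.mtAE_of (D : DavisData C) (h1 : AE1) (h2 : AE2) (ha : C.Api) (hB : C.BsAE)
    (hb : D.Basic) : D.MtAE := by
  refine h1.dir fun K _ hK => ?_
  obtain ⟨T, hF, hf, hT⟩ := ha.hull ((hb.fin hK).insert 1)
  refine ⟨D.U T, ?_, subset_univ _,
    MtAux.ae_U D h1 h2 ha hB hb _ T hf rfl ⟨1, hF (mem_insert _ _)⟩ hT⟩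
  rintro ⟨w, x⟩ hz
  exact ⟨w, hF (Or.inr ⟨D.pt w x, hz, x, rfl⟩), x, rfl⟩

end Vale.Agent.P260Z
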