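import Vale.Agent.P260Z.Dav.Sk

/-!
# P260: normal forms in the right angled Coxeter group
-/

set_option linter.unusedSectionVars false

noncomputable section

namespace Vale.Agent.P260Z

open Set

namespace NFA

section chains

variable {W : Type} [Group W]

/-- lists without two equal neighbours -/
abbrev Ch (W : Type) : Type := {l : List W // l.IsChain (· ≠ ·)}

theorem chain_conj (y : W) {l : List W} (h : l.IsChain (· ≠ ·)) :
    (l.map (MulAut.conj y)).IsChain (· ≠ ·) :=
  (List.isChain_map _).2 (h.imp fun _ _ hab e => hab ((MulAut.conj y).injective e))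

/-- conjugation of all the letters -/
def cj : W →* Equiv.Perm (Ch W) :=
  MonoidHom.toHomPerm
    { toFun := fun y l => ⟨l.1.map (MulAut.conj y), chain_conj y l.2⟩
      map_one' := funext fun l => Subtype.ext (by simp [Function.End.one_def])
      map_mul' := fun a b => funext fun l => Subtype.ext (by
        change l.1.map _ = (l.1.map _).map _
        rw [List.map_map, map_mul]
        rfl) }

theorem cj_val (y : W) (l : Ch W) : (cj y l).1 = l.1.map (MulAut.conj y) := rfl

open Classical in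
/-- cancel or add the first letter -/
def tg0 (r : W) (l : List W) : List W := if l.head? = some r then l.tail else r :: l

theorem tg0_cons (r : W) (l : List W) : tg0 r (r :: l) = l := if_pos rfl

theorem tg0_ne {r : W} {l : List W} (h : l.head? ≠ some r) : tg0 r l = r :: l := if_neg h

theorem head_ne {r : W} {l : List W} (h : (r :: l).IsChain (· ≠ ·)) : l.head? ≠ some r :=
  fun e => (List.isChain_cons.1 h).1 r e rfl

theorem tg0_chain (r : W) {l : List W} (h : l.IsChain (· ≠ ·)) : (tg0 r l).IsChain (· ≠ ·) := by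
  unfold tg0
  split_ifs with e
  · exact h.tail
  · exact List.isChain_cons.2 ⟨fun y hy e' => e (e' ▸ hy), h⟩

theorem tg0_tg0 (r : W) {l : List W} (h : l.IsChain (· ≠ ·)) : tg0 r (tg0 r l) = l := by
  by_cases e : l.head? = some r
  · obtain ⟨t, rfl⟩ := List.head?_eq_some_iff.1 e
    rw [tg0_cons, tg0_ne (head_ne h)]
  · rw [tg0_ne e, tg0_cons]

theorem tg0_map (y r : W) (l : List W) :
    (tg0 r l).map (MulAut.conj y) = tg0 (MulAut.conj y r) (l.map (MulAut.conj y)) := by
  by_cases e : l.head? = some r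
  · obtain ⟨t, rfl⟩ := List.head?_eq_some_iff.1 e
    rw [List.map_cons, tg0_cons, tg0_cons]
  · rw [tg0_ne e, tg0_ne, List.map_cons]
    rw [List.head?_map]
    exact fun e' => e (Option.map_injective (MulAut.conj y).injective e')

theorem tg0_mem {r a : W} {l : List W} (h : a ∈ tg0 r l) : a = r ∨ a ∈ l := by
  unfold tg0 at h
  split_ifs at h
  · exact Or.inr (List.mem_of_mem_tail h)
  · exact List.mem_cons.1 h

theorem tg0_prod {r : W} (hr : r * r = 1) (l : List W) : (tg0 r l).prod = r * l.prod := by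
  by_cases e : l.head? = some r
  · obtain ⟨t, rfl⟩ := List.head?_eq_some_iff.1 e
    rw [tg0_cons, List.prod_cons, ← mul_assoc, hr, one_mul]
  · rw [tg0_ne e, List.prod_cons]

/-- the involution given by a letter -/
def tg (r : W) : Equiv.Perm (Ch W) :=
  Function.Involutive.toPerm (fun l => ⟨tg0 r l.1, tg0_chain r l.2⟩)
    fun l => Subtype.ext (tg0_tg0 r l.2)

theorem tg_val (r : W) (l : Ch W) : (tg r l).1 = tg0 r l.1 := rfl

theorem tg_mul_self (r : W) : tg r * tg r = 1 :=
  Equiv.ext fun l => Subtype.ext (tg0_tg0 r l.2)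

theorem cj_mul_tg (y r : W) : cj y * tg r = tg (y * r * y⁻¹) * cj y :=
  Equiv.ext fun l => Subtype.ext (tg0_map y r l.1)

end chains

variable {G S : Type} [Group G] [MulAction G S] (C : CG G S)

theorem gen_inv (s : S) : (C.gen s)⁻¹ = C.gen s := inv_eq_of_mul_eq_one_right (C.gen_mul_self s)

theorem gen_mem {L : Set S} {s : S} (h : s ∈ L) : C.gen s ∈ C.Wof L :=
  Subgroup.subset_closure ⟨s, h, rfl⟩

theorem Wof_ind {L : Set S} {P : C.W → Prop} (h1 : P 1) (h2 : ∀ s ∈ L, ∀ w, P w → P (C.gen s * w))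
    {w : C.W} (hw : w ∈ C.Wof L) : P w := by
  induction hw using Subgroup.closure_induction_left with
  | one => exact h1
  | mul_left x hx y _ ih =>
    obtain ⟨s, hs, rfl⟩ := hx
    exact h2 s hs y ih
  | inv_mul_cancel x hx y _ ih =>
    obtain ⟨s, hs, rfl⟩ := hx
    rw [gen_inv]
    exact h2 s hs y ih

open Classical in
/-- the retraction to a special subgroup -/
def ret (L : Set S) : C.W →* C.W :=
  C.lift (fun s => if s ∈ L then C.gen s else 1)
    (fun s => by
      split_ifs
      · exact C.gen_mul_self s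
      · exact one_mul 1)
    fun s t h => by
      split_ifs
      · exact C.gen_comm h
      · rw [mul_one, one_mul]
      · rw [mul_one, one_mul]
      · rfl

theorem ret_in {L : Set S} {s : S} (h : s ∈ L) : ret C L (C.gen s) = C.gen s :=
  (C.lift_gen _ _ _ s).trans (if_pos h)

theorem ret_out {L : Set S} {s : S} (h : s ∉ L) : ret C L (C.gen s) = 1 :=
  (C.lift_gen _ _ _ s).trans (if_neg h)

theorem ret_eq {L : Set S} {w : C.W} (hw : w ∈ C.Wof L) : ret C L w = w :=
  Wof_ind C (P := fun w => ret C L w = w) (map_one _)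
    (fun s hs w ih => by rw [map_mul, ret_in C hs, ih]) hw

theorem ret_mem (L : Set S) {L' : Set S} {w : C.W} (hw : w ∈ C.Wof L') :
    ret C L w ∈ C.Wof (L ∩ L') :=
  Wof_ind C (P := fun w => ret C L w ∈ C.Wof (L ∩ L')) (by rw [map_one]; exact one_mem _)
    (fun s hs w ih => by
      rw [map_mul]
      by_cases h : s ∈ L
      · rw [ret_in C h]
        exact mul_mem (gen_mem C ⟨h, hs⟩) ih
      · rwa [ret_out C h, one_mul]) hw

variable {C}

theorem len_ret (h : C.Len) (L : Set S) (w : C.W) : C.len (ret C L w) ≤ C.len w := by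
  classical
  obtain ⟨l, h1, rfl⟩ := h.word w
  have e : ∀ l : List S, ret C L (l.map C.gen).prod = ((l.filter (· ∈ L)).map C.gen).prod := by
    intro l
    induction l with
    | nil => exact map_one _
    | cons s l ih =>
      rw [List.map_cons, List.prod_cons, map_mul, ih]
      by_cases hs : s ∈ L
      · rw [ret_in C hs, List.filter_cons_of_pos (by simpa using hs), List.map_cons,
          List.prod_cons]
      · rw [ret_out C hs, List.filter_cons_of_neg (by simpa using hs), one_mul]
  rw [e, ← h1]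
  exact (h.len_le _).trans (List.length_filter_le _ _)

theorem in_sub (h : C.Len) {L : Set S} {x : C.W} (hx : x ∈ C.Wof L) : C.In x ⊆ L := fun t ht => by
  by_contra hn
  have h1 := len_ret h L (x * C.gen t)
  rw [map_mul, ret_eq C hx, ret_out C hn, mul_one] at h1
  exact absurd ht (not_lt.2 h1)

theorem len_left (h : C.Len) (s : S) (w : C.W) : C.len (C.gen s * w) ≤ C.len w + 1 := by
  obtain ⟨l, h1, rfl⟩ := h.word w
  rw [← h1]
  exact h.len_le (s :: l)

theorem cent (h : C.Len) (L : Set S) (s : S) (hs : s ∉ L) (x : C.W) (hx : x ∈ C.Wof L)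
    (hc : x * C.gen s = C.gen s * x) : x ∈ C.Wof (C.gr.neighborSet s) := by
  induction hn : C.len x using Nat.strong_induction_on generalizing x with
  | _ n ih =>
    by_cases e : x = 1
    · rw [e]; exact one_mem _
    obtain ⟨t, ht⟩ := h.in_ne e
    have h1 := in_sub h hx ht
    have h2 := h.len_out fun h' => hs (in_sub h hx h')
    have h3 := h.len_in ht
    have h4 : s ∈ C.In (x * C.gen s) := by
      change C.len (x * C.gen s * C.gen s) < _
      rw [mul_assoc, C.gen_mul_self, mul_one, h2]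
      exact Nat.lt_succ_self _
    have h5 : t ∈ C.In (x * C.gen s) := by
      change C.len (x * C.gen s * C.gen t) < _
      have := len_left h s (x * C.gen t)
      rw [h2, hc, mul_assoc]
      omega
    have h6 : C.gr.Adj s t := h.clique _ h4 h5 fun e' => hs (e' ▸ h1)
    have h7 := ih _ (hn ▸ ht) (x * C.gen t) (mul_mem hx (gen_mem C h1))
      (by rw [mul_assoc, ← C.gen_comm h6, ← mul_assoc, hc, mul_assoc]) rfl
    have h8 := mul_mem h7 (gen_mem C (L := C.gr.neighborSet s) h6)
    rwa [mul_assoc, C.gen_mul_self, mul_one] at h8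

variable (C)

theorem type (x x' : C.W) (s s' : S) (h : x * C.gen s * x⁻¹ = x' * C.gen s' * x'⁻¹) : s = s' := by
  classical
  let χ : C.W →* ℤˣ := C.lift (fun t => if t = s then -1 else 1)
    (fun t => by split_ifs <;> simp) fun _ _ _ => mul_comm _ _
  have h1 := congrArg χ h
  rw [map_mul, map_mul, map_mul, map_mul, map_inv, map_inv, mul_inv_cancel_comm,
    mul_inv_cancel_comm, C.lift_gen, C.lift_gen, if_pos rfl] at h1
  by_contra hn
  rw [if_neg (Ne.symm hn)] at h1
  exact absurd h1 (by decide)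

theorem conj_mem {L : Set S} {n : ℕ} {y r : C.W} (hy : y ∈ C.Wn L n) (hr : r ∈ C.Rf L n) :
    y * r * y⁻¹ ∈ C.Rf L n := by
  obtain ⟨x, hx, s, hs, e, rfl⟩ := hr
  exact ⟨y * x, mul_mem hy hx, s, hs, e, by group⟩

theorem ex (L : Set S) (n : ℕ) (w : C.W) (hw : w ∈ C.Wn L (n + 1)) : ∃ l : List C.W,
    (∀ r ∈ l, r ∈ C.Rf L n) ∧ l.IsChain (· ≠ ·) ∧ ∃ x ∈ C.Wn L n, w = l.prod * x := by
  refine Wof_ind C (P := fun w => ∃ l : List C.W, (∀ r ∈ l, r ∈ C.Rf L n) ∧ l.IsChain (· ≠ ·) ∧
    ∃ x ∈ C.Wn L n, w = l.prod * x) ⟨[], by simp, List.isChain_nil, 1, one_mem _, by simp⟩ ?_ hw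
  rintro s ⟨hs, hc⟩ _ ⟨l, h1, h2, x, h3, rfl⟩
  rcases (Nat.lt_succ_iff.1 hc).lt_or_eq with e | e
  · have hy : C.gen s ∈ C.Wn L n := gen_mem C ⟨hs, e⟩
    refine ⟨l.map (MulAut.conj (C.gen s)), fun r hr => ?_, chain_conj _ h2, C.gen s * x,
      mul_mem hy h3, ?_⟩
    · obtain ⟨r, hr', rfl⟩ := List.mem_map.1 hr
      exact conj_mem C hy (h1 r hr')
    · rw [← map_list_prod, MulAut.conj_apply]
      group
  · refine ⟨tg0 (C.gen s) l, fun r hr => ?_, tg0_chain _ h2, x, h3, ?_⟩
    · rcases tg0_mem hr with rfl | hr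
      · exact ⟨1, one_mem _, s, hs, e, by group⟩
      · exact h1 r hr
    · rw [tg0_prod (C.gen_mul_self s), mul_assoc]

/-- the action on the chains -/
def th (n : ℕ) : C.W →* Equiv.Perm (Ch C.W) :=
  C.lift (fun s => if (C.col s : ℕ) < n then cj (C.gen s) else
      if (C.col s : ℕ) = n then tg (C.gen s) else 1)
    (fun s => by
      split_ifs
      · rw [← map_mul, C.gen_mul_self, map_one]
      · exact tg_mul_self _
      · exact one_mul 1)
    fun s t h => by
      have h1 := C.gen_comm h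
      have h2 : (C.col s : ℕ) ≠ C.col t := fun e => C.col_ne h (Fin.ext e)
      split_ifs with a b c d e f g
      · rw [← map_mul, ← map_mul, h1]
      · rw [cj_mul_tg, h1, mul_inv_cancel_right]
      · rw [mul_one, one_mul]
      · rw [cj_mul_tg, ← h1, mul_inv_cancel_right]
      · exact absurd (d.trans f.symm) h2
      · rw [mul_one, one_mul]
      · rw [mul_one, one_mul]
      · rw [mul_one, one_mul]
      · rfl

theorem th_Wn {n : ℕ} {x : C.W} (hx : x ∈ C.Wn univ n) : th C n x = cj x :=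
  Wof_ind C (P := fun x => th C n x = cj x) (by rw [map_one, map_one])
    (fun s hs w ih => by
      rw [map_mul, map_mul, ih]
      exact congrArg (· * cj w) ((C.lift_gen _ _ _ s).trans (if_pos hs.2))) hx

theorem th_Rf {n : ℕ} {r : C.W} (hr : r ∈ C.Rf univ n) : th C n r = tg r := by
  obtain ⟨x, hx, s, -, e, rfl⟩ := hr
  have h : th C n (C.gen s) = tg (C.gen s) :=
    (C.lift_gen _ _ _ s).trans ((if_neg (by omega)).trans (if_pos e))
  rw [map_mul, map_mul, map_inv, th_Wn C hx, h, cj_mul_tg, mul_inv_cancel_right]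

theorem th_val {n : ℕ} {l : List C.W} (h1 : ∀ r ∈ l, r ∈ C.Rf univ n) (h2 : l.IsChain (· ≠ ·))
    {x : C.W} (hx : x ∈ C.Wn univ n) :
    (th C n (l.prod * x) ⟨[], List.isChain_nil⟩).1 = l := by
  induction l with
  | nil =>
    rw [List.prod_nil, one_mul, th_Wn C hx]
    rfl
  | cons r l ih =>
    rw [List.prod_cons, mul_assoc, map_mul, th_Rf C (h1 r List.mem_cons_self),
      Equiv.Perm.mul_apply, tg_val, ih (fun a ha => h1 a (List.mem_cons_of_mem _ ha)) h2.tail,
      tg0_ne (head_ne h2)]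

theorem par_gen (s : S) : C.par (C.gen s) = Multiplicative.ofAdd (Pi.single (C.col s) 1) :=
  C.lift_gen _ _ _ s

theorem par_Wn {n : ℕ} {x : C.W} (hx : x ∈ C.Wn univ n) (i : Fin 4) (hi : (i : ℕ) = n) :
    (C.par x).toAdd i = 0 :=
  Wof_ind C (P := fun x => (C.par x).toAdd i = 0) (by rw [map_one]; rfl)
    (fun s hs w ih => by
      rw [map_mul, toAdd_mul, Pi.add_apply, ih, add_zero, par_gen, toAdd_ofAdd]
      exact Pi.single_eq_of_ne (fun e => absurd hs.2 (by rw [← e, hi]; exact lt_irrefl n)) _) hx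

theorem par_prod {i : Fin 4} {l : List C.W} (h : ∀ r ∈ l, r ∈ C.Rf univ i) :
    (C.par l.prod).toAdd = Pi.single i (l.length : ZMod 2) := by
  induction l with
  | nil => simp
  | cons r l ih =>
    obtain ⟨x, -, s, -, e, rfl⟩ := h r List.mem_cons_self
    rw [List.prod_cons, map_mul, toAdd_mul, ih fun a ha => h a (List.mem_cons_of_mem _ ha),
      map_mul C.par, map_mul C.par, map_inv, mul_inv_cancel_comm, par_gen, toAdd_ofAdd, Fin.ext e,
      ← Pi.single_add, List.length_cons, Nat.cast_succ, add_comm]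

theorem even (n : ℕ) (l : List C.W) (x : C.W) (h1 : ∀ r ∈ l, r ∈ C.Rf univ n)
    (hx : x ∈ C.Wn univ n) (h : C.par (l.prod * x) = 1) : Even l.length ∧ C.par x = 1 := by
  rcases l.eq_nil_or_concat' with rfl | ⟨l', r, e⟩
  · exact ⟨⟨0, rfl⟩, by simpa using h⟩
  obtain ⟨-, -, s, -, rfl, -⟩ := h1 r (by simp [e])
  have h2 := congrArg Multiplicative.toAdd h
  rw [map_mul, toAdd_mul, par_prod C h1, toAdd_one] at h2
  have h3 := congrFun h2 (C.col s)
  rw [Pi.add_apply, par_Wn C hx _ rfl, add_zero, Pi.single_eq_same] at h3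
  rw [h3, Pi.zero_apply, Pi.single_zero, zero_add] at h2
  exact ⟨ZMod.natCast_eq_zero_iff_even.1 h3, h2⟩

end NFA

theorem CG.nf_of {G S : Type} [Group G] [MulAction G S] (C : CG G S) (h : C.Len) : C.NF where
  ex := NFA.ex C
  uniq := fun _ _ _ _ _ h1 h1' h2 h2' hx hx' e => by
    rw [← NFA.th_val C h1 h2 hx, e, NFA.th_val C h1' h2' hx']
  inter := fun L _ _ h1 h2 => NFA.ret_eq C h1 ▸ NFA.ret_mem C L h2
  cent := NFA.cent h
  type := NFA.type C
  even := NFA.even C

end Vale.Agent.P260Z
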