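import Vale.Agent.P260Z.Dav.Sk

/-!
# P260: one chamber is absorbed
-/

noncomputable section

namespace Vale.Agent.P260Z

open Set Topology Filter

theorem one_inv {A B : Type} [TopologicalSpace A] [TopologicalSpace B] {s : Set A} {f : A → B}
    (h : IsEmbedding (s.domRestrict f)) {g : B → A} (hg : ∀ a ∈ s, g (f a) = a) :
    ContinuousOn g (f '' s) := by
  rintro _ ⟨a, ha, rfl⟩
  have e := h.map_nhds_eq ⟨a, ha⟩
  rw [range_domRestrict] at e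
  change Tendsto g (𝓝[f '' s] (s.domRestrict f ⟨a, ha⟩)) _
  rw [← e, tendsto_map'_iff, hg a ha]
  exact (continuous_subtype_val.tendsto (⟨a, ha⟩ : s)).congr fun b => (hg b b.2).symm

variable {G S : Type} [Group G] [MulAction G S] {C : CG G S}

theorem CG.one_clique {q : S → ℝ} (hq : q ∈ C.Cone) {ρ : Finset S} (h : ∀ s ∈ ρ, 1 ≤ q s) :
    C.gr.IsClique (ρ : Set S) :=
  hq.2.subset fun s hs => (one_pos.trans_le (h s hs)).ne'

theorem CG.one_orb (ha : C.Api) {w : C.W} {ρ : Finset S} (hρ : C.gr.IsClique (ρ : Set S)) :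
    w * C.pr ρ ∈ C.orb w ↔ ρ = ∅ := by
  refine ⟨fun ⟨g, hg⟩ => ?_, fun h => ⟨1, by simp [h, ha.pr_empty]⟩⟩
  have h1 := congrArg C.par hg
  rw [C.par_act, map_mul, left_eq_mul] at h1
  exact ha.pr_inj hρ (by simp) ((ha.par_Wof hρ ((ha.mem_Wof hρ).2 ⟨ρ, subset_rfl, rfl⟩) h1).trans
    ha.pr_empty.symm)

theorem CG.one_in (ha : C.Api) {w : C.W} {ρ : Finset S} (hρ : C.gr.IsClique (ρ : Set S))
    (hne : ρ ≠ ∅) (hl : C.len (w * C.pr ρ) ≤ C.len w) : ∃ s ∈ ρ, s ∈ C.In w := by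
  classical
  by_contra h
  have h1 := ha.len_pr w hρ
  rw [Finset.filter_eq_empty_iff.2 fun s hs h' => h ⟨s, hs, h'⟩, Finset.card_empty] at h1
  have := Finset.card_pos.2 (Finset.nonempty_iff_ne_empty.2 hne)
  omega

namespace DavisData
variable (D : DavisData C)

theorem one_mem (ha : C.Api) (hs : D.Star) {T : Set C.W} {w : C.W} {q : S → ℝ} (hq : q ∈ C.St) :
    D.Phi w q ∈ D.U (T \ C.orb w) ↔ ∃ ρ : Finset S, (∀ s, 1 < q s → s ∈ ρ) ∧ (∀ s ∈ ρ, 1 ≤ q s) ∧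
      ρ ≠ ∅ ∧ w * C.pr ρ ∈ T := by
  constructor
  · rintro ⟨w', hw', x, hx⟩
    obtain ⟨ρ, h1, h2, rfl⟩ := (hs.mem w w' hq).1 ⟨x, hx.symm⟩
    exact ⟨ρ, h1, h2, mt (CG.one_orb ha (CG.one_clique hq.1 h2)).2 hw'.2, hw'.1⟩
  · rintro ⟨ρ, h1, h2, h3, h4⟩
    obtain ⟨x, hx⟩ := (hs.mem w _ hq).2 ⟨ρ, h1, h2, rfl⟩
    exact ⟨_, ⟨h4, mt (CG.one_orb ha (CG.one_clique hq.1 h2)).1 h3⟩, x, hx.symm⟩

theorem one_closed (hb : D.Basic) (T : Set C.W) : IsClosed (D.U T) := by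
  have e : D.U T = ⋃ w : T, range (D.pt w) := by
    ext z
    simp only [U, mem_ofPred_eq, mem_iUnion, mem_range, Subtype.exists, exists_prop, eq_comm]
  rw [e]
  exact (hb.lf.comp_injective Subtype.val_injective).isClosed_iUnion
    fun w => (hb.emb w).isClosed_range

theorem one_of (D : DavisData C) (ha : C.Api) (hc : C.ConeF) (hp : C.PushF) (hb : D.Basic)
    (hs : D.Star) (h : D.Abs) : D.One := by
  classical
  intro T w K hT hw hw1 hmax hK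
  haveI := hb.t2
  have hσ := ha.clique w
  have hfin := ha.fin hσ
  have cc : ContinuousOn D.c C.Col := continuousOn_iff_continuous_domRestrict.2 D.c_emb.continuous
  have hK' : IsCompact (K ∪ D.c '' C.Bs (C.In w)) :=
    hK.union ((hc.cpt_Bs hfin).image_of_continuousOn (cc.mono fun q hq => hq.1))
  obtain ⟨κ, k1, k2, k3, k4⟩ := h _ (ha.in_ne hw1) hσ _ hK'
  obtain ⟨m, hm, hm'⟩ := hK'.exists_forall_le' (f := fun x => mx (C.In w) (κ x))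
    ((hc.mx_cont _).comp k1 fun x hx => ⟨(k3 x hx).1.1, (k3 x hx).2.imp fun s h => h.2⟩) (a := 0)
    fun x hx => by
      obtain ⟨s, h1, h2⟩ := (k3 x hx).2
      exact h2.trans_le (hc.le_mx (k3 x hx).1.1 h1)
  obtain ⟨p, p1, p2, p3⟩ := hp (C.In w) (min m 1) (lt_min hm one_pos)
  have cS : ∀ {q}, q ∈ C.Col → q ∈ C.St := fun hq =>
    ⟨hq.1, fun s => (hq.2.1 s).trans (by norm_num), hq.2.2⟩
  have Φc : ContinuousOn (D.Phi w) C.St :=
    continuousOn_iff_continuous_domRestrict.2 (hs.emb w).continuous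
  have Φi : InjOn (D.Phi w) C.St := injOn_iff_injective.2 (hs.emb w).injective
  have Φl := Φi.leftInvOn_invFunOn
  set ψ := Function.invFunOn (D.Phi w) C.St
  set Z := D.U (T \ C.orb w) ∩ D.Phi w '' C.St with hZ
  have Zc : IsClosed Z := (D.one_closed hb _).inter
    (range_domRestrict (D.Phi w) C.St ▸ (hs.emb w).isClosed_range)
  have big : ∀ q ∈ C.St, D.Phi w q ∈ Z → ∃ s ∈ C.In w, 1 ≤ q s := fun q hq hz => by
    obtain ⟨ρ, -, h2, h3, h4⟩ := (D.one_mem ha hs hq).1 hz.1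
    obtain ⟨s, h5, h6⟩ := CG.one_in ha (CG.one_clique hq.1 h2) h3 (hmax _ h4)
    exact ⟨s, h6, h2 s h5⟩
  have bs : ∀ q ∈ C.Col, D.Phi w q ∈ Z → κ (D.c q) = q ∧ D.c q ∈ K ∪ D.c '' C.Bs (C.In w) :=
    fun q hq hz => by
      obtain ⟨s, h1, h2⟩ := big q (cS hq) hz
      have h3 : q ∈ C.Bs (C.In w) := ⟨hq, s, h1, le_antisymm (hq.2.1 s) h2⟩
      exact ⟨k4 q h3 (Or.inr ⟨q, h3, rfl⟩), Or.inr ⟨q, h3, rfl⟩⟩
  let l : D.Mt → S → ℝ := fun z => if z ∈ Z then ψ z else κ (D.fold z)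
  have l2 : ∀ q ∈ C.St, D.Phi w q ∈ Z → l (D.Phi w q) = q := fun q hq hz =>
    (if_pos hz).trans (Φl hq)
  have l1 : ∀ x, l (D.pt w x) = κ x := fun x => by
    by_cases hz : D.pt w x ∈ Z
    · obtain ⟨q, hq, e⟩ := hz.2
      obtain ⟨ρ, h1, h2, h3⟩ := (hs.mem w w hq).1 ⟨x, e.symm⟩
      have h4 := (CG.one_orb (w := w) ha (CG.one_clique hq.1 h2)).1 ⟨1, by simpa using h3⟩
      have h5 : q ∈ C.Col := ⟨hq.1, fun s => not_lt.1 fun h => by simpa [h4] using h1 s h, hq.2.2⟩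
      rw [← e] at hz ⊢
      rw [l2 q hq hz, ← D.fold_pt w x, ← e, hs.col w h5, fold_pt, (bs q h5 hz).1]
    · exact if_neg hz
  have lc : ContinuousOn l (D.pt w '' K ∪ Z) := by
    refine ContinuousOn.union_of_isClosed ?_ ?_ (hK.image (hb.emb w).continuous).isClosed Zc
    · refine (k1.comp hb.cont_fold.continuousOn ?_).congr ?_ <;> rintro _ ⟨x, hx, rfl⟩
      · exact Or.inl hx
      · exact l1 x
    · exact ((one_inv (hs.emb w).isEmbedding Φl).mono inter_subset_right).congr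
        fun z hz => if_pos hz
  have mix : ∀ x ∈ K, ∀ z ∈ Z, l (D.pt w x) = l z → D.pt w x = z := by
    rintro x hx _ ⟨h1, q, hq, rfl⟩ e
    rw [l1, l2 q hq ⟨h1, q, hq, rfl⟩] at e
    have h2 : q ∈ C.Col := e ▸ (k3 x (Or.inl hx)).1
    obtain ⟨h3, h4⟩ := bs q h2 ⟨h1, q, hq, rfl⟩
    rw [hs.col w h2, k2 (Or.inl hx) h4 (e.trans h3.symm)]
  have li : InjOn l (D.pt w '' K ∪ Z) := by
    rintro z (⟨x, hx, rfl⟩ | hz) z' (⟨x', hx', rfl⟩ | hz') e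
    · rw [l1, l1] at e
      rw [k2 (Or.inl hx) (Or.inl hx') e]
    · exact mix x hx _ hz' e
    · exact (mix x' hx' _ hz e.symm).symm
    · obtain ⟨q, hq, rfl⟩ := hz.2
      obtain ⟨q', hq', rfl⟩ := hz'.2
      rw [l2 q hq hz, l2 q' hq' hz'] at e
      rw [e]
  have lm : MapsTo l (D.pt w '' K ∪ Z) {q | q ∈ C.St ∧ min m 1 ≤ mx (C.In w) q} := by
    rintro _ (⟨x, hx, rfl⟩ | ⟨h1, q, hq, rfl⟩)
    · rw [l1]
      exact ⟨cS (k3 x (Or.inl hx)).1, (min_le_left _ _).trans (hm' x (Or.inl hx))⟩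
    · obtain ⟨s, h2, h3⟩ := big q hq ⟨h1, q, hq, rfl⟩
      rw [l2 q hq ⟨h1, q, hq, rfl⟩]
      exact ⟨hq, (min_le_right _ _).trans (h3.trans (hc.le_mx hq.1 h2))⟩
  have pm : MapsTo p {q | q ∈ C.St ∧ min m 1 ≤ mx (C.In w) q} C.St :=
    fun q hq => (p3 q hq.1 hq.2).1
  have key : ∀ q ∈ C.St, min m 1 ≤ mx (C.In w) q → ∀ ρ : Finset S, (∀ s, 1 < q s → s ∈ ρ) →
      (∀ s ∈ ρ, 1 ≤ q s) → w * C.pr ρ ∈ T → D.Phi w (p q) ∈ Z := fun q hq hq' ρ h1 h2 h3 => by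
    obtain ⟨a1, a2, a3, a4, -⟩ := p3 q hq hq'
    have b1 : ∀ s ∈ ρ ∪ hfin.toFinset.filter fun s => 1 ≤ p q s, 1 ≤ p q s := fun s hs =>
      (Finset.mem_union.1 hs).elim (fun h => (h2 s h).trans (a3 s))
        fun h => (Finset.mem_filter.1 h).2
    refine ⟨(D.one_mem ha hs a1).2 ⟨_, fun s h => ?_, b1, fun h => ?_, ha.down_pr hT
      (CG.one_clique a1.1 b1) Finset.subset_union_left (fun s h h' => ?_) h3⟩, _, a1, rfl⟩
    · by_cases h' : s ∈ C.In w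
      · exact Finset.mem_union_right _ (Finset.mem_filter.2 ⟨hfin.mem_toFinset.2 h', h.le⟩)
      · exact Finset.mem_union_left _ (h1 s (a2 s h' ▸ h))
    · obtain ⟨h4, h5⟩ := Finset.union_eq_empty.1 h
      have h6 := a4 fun s _ => not_lt.1 fun h => by simpa [h4] using h1 s h
      rcases hc.mx_eq (C.In w) a1.1 with h7 | ⟨s, h7, h8⟩
      · linarith
      · exact Finset.filter_eq_empty_iff.1 h5 (hfin.mem_toFinset.2 h7) (h8 ▸ h6)
    · exact hfin.mem_toFinset.1 (Finset.mem_filter.1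
        ((Finset.mem_union.1 h).resolve_left h')).1
  refine ⟨fun z => D.Phi w (p (l z)), (hK.image (hb.emb w).continuous).union ?_,
    Φc.comp (p1.comp lc lm) (pm.comp lm), Φi.comp (p2.comp li lm) (pm.comp lm), ?_, ?_⟩
  · refine ((hc.cpt (3 / 2) hfin one_pos).image_of_continuousOn (Φc.mono fun q hq =>
      ⟨hq.1, hq.2.1, hq.2.2.imp fun s h => le_trans (by norm_num) h.2⟩)).of_isClosed_subset Zc ?_
    rintro _ ⟨h1, q, hq, rfl⟩
    exact ⟨q, ⟨hq.1, hq.2.1, big q hq ⟨h1, q, hq, rfl⟩⟩, rfl⟩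
  · intro z hz
    have h0 := lm hz
    rcases hz with ⟨x, hx, rfl⟩ | ⟨h1, q, hq, rfl⟩
    · refine key _ h0.1 h0.2 ∅ (fun s h => ?_) (by simp) (by simpa [ha.pr_empty] using hw)
      rw [l1] at h
      exact absurd ((k3 x (Or.inl hx)).1.2.1 s) (not_le.2 h)
    · obtain ⟨ρ, h2, h3, -, h4⟩ := (D.one_mem ha hs hq).1 h1
      have e := l2 q hq ⟨h1, q, hq, rfl⟩
      exact key _ h0.1 h0.2 ρ (e.symm ▸ h2) (e.symm ▸ h3) h4
  · rintro _ ⟨h1, q, hq, rfl⟩ hz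
    have h0 := lm (Or.inr ⟨h1, q, hq, rfl⟩)
    obtain ⟨s, -, h3⟩ := big q hq ⟨h1, q, hq, rfl⟩
    rw [l2 q hq ⟨h1, q, hq, rfl⟩] at h0
    show D.Phi w (p (l (D.Phi w q))) = _
    rw [l2 q hq ⟨h1, q, hq, rfl⟩, (p3 q hq h0.2).2.2.2.2 ?_]
    by_contra h4
    exact hz ⟨q, ⟨hq.1, fun s => lt_of_le_of_ne (hq.2.1 s) fun h => h4 ⟨s, h⟩, s,
      lt_of_lt_of_le (by norm_num) h3⟩, rfl⟩

end DavisData

end Vale.Agent.P260Z
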