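import Vale.Agent.P260Z.Dav.Sk

/-!
# P260: the push in the star of a vertex
-/

noncomputable section

namespace Vale.Agent.P260Z

open Set Topology Filter

variable {G S : Type} [Group G] [MulAction G S]

/-- the new value of the largest coordinate -/
def pushV (σ : Set S) (q : S → ℝ) : ℝ :=
  mx σ q + (3 / 2 - mx σ q) * (2 / 3 * min 1 (3 - 2 * mx σᶜ q))

open Classical in
/-- the push -/
def pushP (σ : Set S) (q : S → ℝ) (s : S) : ℝ :=
  if s ∈ σ then q s * (pushV σ q / mx σ q) else q s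

theorem CG.pushF_of (C : CG G S) (hc : C.ConeF) : C.PushF := by
  intro σ m hm
  have on : ∀ {q : S → ℝ} {s}, s ∈ σ → pushP σ q s = q s * (pushV σ q / mx σ q) :=
    fun h => if_pos h
  have off : ∀ {q : S → ℝ} {s}, s ∉ σ → pushP σ q s = q s := fun h => if_neg h
  have top : ∀ (τ : Set S) {q}, q ∈ C.St → mx τ q ≤ 3 / 2 := fun τ q hq => by
    rcases hc.mx_eq τ hq.1 with h | ⟨s, -, h⟩
    · rw [h]; norm_num
    · rw [h]; exact hq.2.1 s
  have b0 : ∀ {q}, q ∈ C.St → 0 ≤ min 1 (3 - 2 * mx σᶜ q) := fun hq =>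
    le_min zero_le_one (by linarith [top σᶜ hq])
  have b1 : ∀ q : S → ℝ, min 1 (3 - 2 * mx σᶜ q) ≤ 1 := fun q => min_le_left _ _
  have f1 : ∀ {q}, q ∈ C.St → mx σ q ≤ pushV σ q := fun {q} hq => by
    have := mul_nonneg (sub_nonneg.2 (top σ hq)) (b0 hq)
    unfold pushV
    linarith
  have f2 : ∀ {q}, q ∈ C.St → pushV σ q ≤ 3 / 2 := fun {q} hq => by
    have := mul_le_mul_of_nonneg_left (b1 q) (sub_nonneg.2 (top σ hq))
    have := top σ hq
    unfold pushV
    linarith
  have r1 : ∀ {q}, q ∈ C.St → m ≤ mx σ q → 1 ≤ pushV σ q / mx σ q := fun hq h =>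
    (one_le_div (hm.trans_le h)).2 (f1 hq)
  have le : ∀ {q}, q ∈ C.St → m ≤ mx σ q → ∀ s, q s ≤ pushP σ q s := fun {q} hq h s => by
    by_cases hs : s ∈ σ
    · rw [on hs]
      exact le_mul_of_one_le_right (hq.1.1 s) (r1 hq h)
    · rw [off hs]
  have up : ∀ {q}, q ∈ C.St → m ≤ mx σ q → ∀ s ∈ σ, pushP σ q s ≤ pushV σ q :=
    fun {q} hq h s hs => by
      rw [on hs]
      refine (mul_le_mul_of_nonneg_right (hc.le_mx hq.1 hs)
        (zero_le_one.trans (r1 hq h))).trans_eq ?_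
      exact mul_div_cancel₀ _ (hm.trans_le h).ne'
  have st : ∀ {q}, q ∈ C.St → m ≤ mx σ q → pushP σ q ∈ C.St := fun {q} hq h => by
    refine ⟨⟨fun s => (hq.1.1 s).trans (le hq h s), hq.1.2.subset (t := {s | pushP σ q s ≠ 0})
      fun s hs (h0 : q s = 0) => hs ?_⟩, fun s => ?_, ?_⟩
    · by_cases h1 : s ∈ σ
      · rw [on h1, h0, zero_mul]
      · rw [off h1, h0]
    · by_cases h1 : s ∈ σ
      · exact (up hq h s h1).trans (f2 hq)
      · rw [off h1]
        exact hq.2.1 s
    · obtain ⟨s, hs⟩ := hq.2.2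
      exact ⟨s, hs.trans (le hq h s)⟩
  have mxp : ∀ {q}, q ∈ C.St → m ≤ mx σ q → mx σ (pushP σ q) = pushV σ q := fun {q} hq h => by
    refine le_antisymm ?_ ?_
    · rcases hc.mx_eq σ (st hq h).1 with h1 | ⟨s, hs, h1⟩
      · rw [h1]
        exact (hm.le.trans h).trans (f1 hq)
      · rw [h1]
        exact up hq h s hs
    · rcases hc.mx_eq σ hq.1 with h1 | ⟨s, hs, h1⟩
      · exact absurd h1 (hm.trans_le h).ne'
      · refine le_trans (le_of_eq ?_) (hc.le_mx (st hq h).1 hs)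
        rw [on hs, ← h1, mul_div_cancel₀ _ (hm.trans_le h).ne']
  have cm : ∀ τ : Set S, ContinuousOn (mx τ) {q | q ∈ C.St ∧ m ≤ mx σ q} := fun τ =>
    (hc.mx_cont τ).mono fun q hq => ⟨hq.1.1, hq.1.2.2.imp fun s hs => by linarith⟩
  refine ⟨pushP σ, continuousOn_pi.2 fun s => ?_, fun q hq q' hq' e => ?_, fun q hq h =>
    ⟨st hq h, fun s hs => off hs, le hq h, fun h1 => ?_, fun ⟨s, hs⟩ => ?_⟩⟩
  · by_cases hs : s ∈ σ
    · simp only [on hs]
      refine (continuous_apply s).continuousOn.mul (ContinuousOn.div ?_ (cm σ)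
        fun q hq => (hm.trans_le hq.2).ne')
      exact (cm σ).add ((continuousOn_const.sub (cm σ)).mul (continuousOn_const.mul
        (continuousOn_const.inf (continuousOn_const.sub (continuousOn_const.mul (cm σᶜ))))))
    · simp only [off hs]
      exact (continuous_apply s).continuousOn
  · have e1 : ∀ s, s ∉ σ → q s = q' s := fun s hs => by
      rw [← off (q := q) hs, e, off hs]
    have e2 : mx σᶜ q = mx σᶜ q' := by
      unfold mx
      rw [image_congr (s := σᶜ) e1]
    have e3 : pushV σ q = pushV σ q' := by rw [← mxp hq.1 hq.2, e, mxp hq'.1 hq'.2]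
    have e4 : mx σ q = mx σ q' := by
      have h1 := e3
      unfold pushV at h1
      rw [e2] at h1
      have h2 : (mx σ q - mx σ q') * (1 - 2 / 3 * min 1 (3 - 2 * mx σᶜ q')) = 0 := by linarith
      exact sub_eq_zero.1 ((mul_eq_zero.1 h2).resolve_right (by linarith [b1 q']))
    funext s
    by_cases hs : s ∈ σ
    · have h1 := congrFun e s
      rw [on hs, on hs, e3, e4] at h1
      exact mul_right_cancel₀ (zero_lt_one.trans_le (r1 hq'.1 hq'.2)).ne' h1
    · exact e1 s hs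
  · have h2 : mx σᶜ q ≤ 1 := by
      rcases hc.mx_eq σᶜ hq.1 with h3 | ⟨s, hs, h3⟩
      · rw [h3]; exact zero_le_one
      · rw [h3]; exact h1 s hs
    rw [mxp hq h, pushV, min_eq_left (by linarith)]
    linarith
  · have h1 : pushV σ q = mx σ q := by
      by_cases h2 : s ∈ σ
      · have h3 : mx σ q = 3 / 2 := le_antisymm (top σ hq) (hs ▸ hc.le_mx hq.1 h2)
        rw [pushV, h3]
        ring
      · have h3 : mx σᶜ q = 3 / 2 := le_antisymm (top σᶜ hq) (hs ▸ hc.le_mx hq.1 h2)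
        rw [pushV, h3]
        norm_num
    funext t
    by_cases ht : t ∈ σ
    · rw [on ht, h1, div_self (hm.trans_le h).ne', mul_one]
    · exact off ht

end Vale.Agent.P260Z
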