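import Vale.Agent.P260Z.Dav.Sk

/-!
# P260: the star of a vertex in the universal cover
-/

noncomputable section

namespace Vale.Agent.P260Z

open Set Topology Filter

namespace StarX

variable {G S : Type} [Group G] [MulAction G S] {C : CG G S}

/-- the chamber `ρ` of the star contains the point `q` -/
def Adm (q : S → ℝ) (ρ : Finset S) : Prop := (∀ s, 1 < q s → s ∈ ρ) ∧ ∀ s ∈ ρ, 1 ≤ q s

open Classical in
/-- the inverse of the folding map on the chamber `ρ` -/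
def unf (ρ : Finset S) (p : S → ℝ) : S → ℝ := fun s => if s ∈ ρ then 2 - p s else p s

theorem cont_unf (ρ : Finset S) : Continuous (unf ρ) := continuous_pi fun s => by
  unfold unf
  split_ifs <;> fun_prop

theorem cont_fld : Continuous (fld : (S → ℝ) → S → ℝ) := continuous_pi fun s => by
  unfold fld
  fun_prop

theorem closed_adm (ρ : Finset S) : IsClosed {q : S → ℝ | Adm q ρ} := by
  have e : {q : S → ℝ | Adm q ρ} =
      (⋂ s ∉ ρ, {q : S → ℝ | q s ≤ 1}) ∩ ⋂ s ∈ ρ, {q : S → ℝ | 1 ≤ q s} := by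
    ext q
    simp only [Adm, mem_ofPred_eq, mem_inter_iff, mem_iInter]
    exact and_congr_left' (forall_congr' fun s => by rw [← not_lt, not_imp_not])
  rw [e]
  exact (isClosed_biInter fun s _ => isClosed_le (continuous_apply s) continuous_const).inter
    (isClosed_biInter fun s _ => isClosed_le continuous_const (continuous_apply s))

theorem Adm.unf_fld {q : S → ℝ} {ρ : Finset S} (h : Adm q ρ) : unf ρ (fld q) = q := by
  funext s
  unfold unf fld
  split_ifs with hs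
  · rw [min_eq_right (by linarith [h.2 s hs])]
    ring
  · exact min_eq_left (by linarith [not_lt.1 fun k => hs (h.1 s k)])

theorem Adm.clique {q : S → ℝ} {ρ : Finset S} (h : Adm q ρ) (hq : q ∈ C.Cone) :
    C.gr.IsClique (ρ : Set S) :=
  hq.2.subset fun s hs => (one_pos.trans_le (h.2 s hs)).ne'

theorem adm_big (hc : C.ConeF) {q : S → ℝ} (hq : q ∈ C.Cone) : Adm q (CG.big q) :=
  ⟨fun _ h => (hc.mem_big hq).2 h, fun _ h => ((hc.mem_big hq).1 h).le⟩

theorem fld_eq_one {q : S → ℝ} {s : S} : fld q s = 1 ↔ q s = 1 := by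
  unfold fld
  rcases le_total (q s) (2 - q s) with h | h
  · rw [min_eq_left h]
  · rw [min_eq_right h]
    constructor <;> intro <;> linarith

theorem fld_ne_zero {q : S → ℝ} {s : S} (hq : q ∈ C.St) (h : 1 ≤ q s) : fld q s ≠ 0 :=
  (lt_min (by linarith) (by linarith [hq.2.1 s])).ne'

theorem col_st {q : S → ℝ} (hq : q ∈ C.Col) : q ∈ C.St :=
  ⟨hq.1, fun s => by linarith [hq.2.1 s], hq.2.2⟩

theorem sto_st {q : S → ℝ} (hq : q ∈ C.Sto) : q ∈ C.St :=
  ⟨hq.1, fun s => (hq.2.1 s).le, hq.2.2.imp fun _ h => h.le⟩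

theorem sh_st (g : G) {q : S → ℝ} (hq : q ∈ C.St) : sh g q ∈ C.St := by
  obtain ⟨⟨h0, h1⟩, h2, s, hs⟩ := hq
  refine ⟨⟨fun t => h0 _, fun a ha b hb hab => ?_⟩, fun t => h2 _, g • s, by simpa [sh] using hs⟩
  simpa using C.adj_smul g (h1 (x := g⁻¹ • a) ha (y := g⁻¹ • b) hb
    fun h => hab (MulAction.injective g⁻¹ h))

theorem unf_spec {p : S → ℝ} {ρ : Finset S} (hp : p ∈ C.Col) (h : ∀ s ∈ ρ, 1 / 2 ≤ p s) :
    unf ρ p ∈ C.St ∧ Adm (unf ρ p) ρ ∧ fld (unf ρ p) = p := by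
  obtain ⟨⟨h0, h1⟩, h2, t, ht⟩ := hp
  refine ⟨⟨⟨fun s => ?_, h1.subset fun s hs (k : p s = 0) => hs ?_⟩, fun s => ?_, t, ?_⟩,
    ⟨fun s => ?_, fun s hs => ?_⟩, funext fun s => ?_⟩
  · unfold unf
    split_ifs <;> linarith [h0 s, h2 s]
  · unfold unf
    split_ifs with hs'
    · linarith [h s hs']
    · exact k
  · unfold unf
    split_ifs with hs
    · linarith [h s hs]
    · linarith [h2 s]
  · unfold unf
    split_ifs <;> linarith [h2 t]
  · unfold unf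
    split_ifs with hs
    · exact fun _ => hs
    · exact fun k => absurd (h2 s) (not_le.2 k)
  · simp only [unf, if_pos hs]
    linarith [h2 s]
  · unfold fld unf
    split_ifs
    · rw [min_eq_right (by linarith [h2 s])]
      ring
    · exact min_eq_left (by linarith [h2 s])

variable {D : DavisData C} (ha : C.Api) (hc : C.ConeF) (hb : D.Basic)
include ha hc hb

theorem phi_eq_iff {w w' : C.W} {q : S → ℝ} {x : D.X} (hq : q ∈ C.St) :
    D.Phi w q = D.pt w' x ↔ D.c (fld q) = x ∧ ∃ ρ, Adm q ρ ∧ w' = w * C.pr ρ := by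
  classical
  have hB := adm_big hc hq.1
  rw [DavisData.Phi, D.pt_eq, ha.mem_Wof (hb.sig_clique _), hb.sig_c (hc.fld_mem hq)]
  simp only [fld_eq_one]
  refine and_congr_right' ⟨?_, ?_⟩
  · rintro ⟨ρ, h1, h2⟩
    refine ⟨symmDiff (CG.big q) ρ, ⟨fun s hs => ?_, fun s hs => ?_⟩, ?_⟩
    · exact Finset.mem_symmDiff.2 (Or.inl ⟨hB.1 s hs, fun k => hs.ne' (h1 k)⟩)
    · rcases Finset.mem_symmDiff.1 hs with k | k
      · exact hB.2 s k.1
      · exact (h1 k.1).ge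
    · rw [← ha.pr_mul (hq.1.2.subset ?_), ← h2, ← mul_assoc, mul_inv_cancel_left]
      rintro s (k | k)
      · exact (one_pos.trans_le (hB.2 s k)).ne'
      · exact (h1 k).trans_ne one_ne_zero
  · rintro ⟨ρ, h, rfl⟩
    refine ⟨symmDiff (CG.big q) ρ, fun s hs => ?_, ?_⟩
    · rcases Finset.mem_symmDiff.1 hs with k | k
      · exact absurd (h.1 s ((hc.mem_big hq.1).1 k.1)) k.2
      · exact le_antisymm (not_lt.1 fun k' => k.2 (hB.1 s k')) (h.2 s k.1)
    · rw [mul_inv_rev, mul_assoc, inv_mul_cancel_left, ha.pr_inv (hB.clique hq.1),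
        ha.pr_mul (hq.1.2.subset ?_)]
      rintro s (k | k)
      · exact (one_pos.trans_le (hB.2 s k)).ne'
      · exact (one_pos.trans_le (h.2 s k)).ne'

theorem phi_eq (w : C.W) {q : S → ℝ} {ρ : Finset S} (hq : q ∈ C.St) (h : Adm q ρ) :
    D.Phi w q = D.pt (w * C.pr ρ) (D.c (fld q)) :=
  (phi_eq_iff ha hc hb hq).2 ⟨rfl, ρ, h, rfl⟩

theorem phi_inj (w : C.W) : InjOn (D.Phi w) C.St := fun q hq q' hq' h => by
  obtain ⟨h1, ρ, h2, h3⟩ := (phi_eq_iff ha hc hb hq).1 h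
  have hB := adm_big hc hq'.1
  rw [← h2.unf_fld, ← hB.unf_fld, hb.c_inj (hc.fld_mem hq) (hc.fld_mem hq') h1,
    ha.pr_inj (hB.clique hq'.1) (h2.clique hq.1) (mul_left_cancel h3)]

theorem phi_cont (w : C.W) : ContinuousOn (D.Phi w) C.St := fun q hq => by
  classical
  obtain ⟨F, hF, h⟩ := hc.lf hq.1 (hq.2.2.imp fun _ h => by linarith)
  have hcc : ContinuousOn D.c C.Col := continuousOn_iff_continuous_domRestrict.2 D.c_emb.continuous
  intro O hO
  have k : ∀ᶠ q' in 𝓝[C.St] q, ∀ ρ ∈ hF.toFinset.powerset,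
      Adm q' ρ → D.pt (w * C.pr ρ) (D.c (fld q')) ∈ O := by
    refine (Filter.eventually_all_finset _).2 fun ρ _ => ?_
    by_cases hρ : Adm q ρ
    · rw [phi_eq ha hc hb w hq hρ] at hO
      exact Eventually.mono (((hb.emb _).continuous.comp_continuousOn
        (hcc.comp cont_fld.continuousOn fun _ => hc.fld_mem)) q hq hO) fun _ k _ => k
    · exact Eventually.mono (nhdsWithin_le_nhds ((closed_adm ρ).isOpen_compl.mem_nhds hρ))
        fun _ k k' => absurd k' k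
  refine mem_map.2 ?_
  filter_upwards [k, self_mem_nhdsWithin, nhdsWithin_mono q (fun _ h => h.1 : C.St ⊆ C.Cone) h]
    with q' h1 h2 h3
  refine h1 _ (Finset.mem_powerset.2 fun s hs => hF.mem_toFinset.2 (h3 s ?_)) (adm_big hc h2.1)
  exact (one_pos.trans ((hc.mem_big h2.1).1 hs)).ne'

/-- the trace of a part of the star on a chamber -/
theorem pre (w w' : C.W) {A : Set (S → ℝ)} (hA : A ⊆ C.St) :
    D.pt w' ⁻¹' (D.Phi w '' A) = ∅ ∨ ∃ ρ : Finset S, D.pt w' ⁻¹' (D.Phi w '' A) =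
      D.c '' {p | p ∈ C.Col ∧ (∀ s ∈ ρ, 1 / 2 ≤ p s) ∧ unf ρ p ∈ A} := by
  refine (eq_empty_or_nonempty _).imp_right ?_
  rintro ⟨x0, q0, h0, e0⟩
  obtain ⟨-, ρ, h1, rfl⟩ := (phi_eq_iff ha hc hb (hA h0)).1 e0
  refine ⟨ρ, Subset.antisymm ?_ ?_⟩
  · rintro x ⟨q, hq, e⟩
    obtain ⟨rfl, ρ', h2, h3⟩ := (phi_eq_iff ha hc hb (hA hq)).1 e
    rw [← ha.pr_inj (h1.clique (hA h0).1) (h2.clique (hA hq).1) (mul_left_cancel h3)] at h2
    exact ⟨fld q, ⟨hc.fld_mem (hA hq), fun s hs =>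
      le_min (by linarith [h2.2 s hs]) (by linarith [(hA hq).2.1 s]), by rwa [h2.unf_fld]⟩, rfl⟩
  · rintro _ ⟨p, ⟨h2, h3, h4⟩, rfl⟩
    obtain ⟨k1, k2, k3⟩ := unf_spec h2 h3
    exact ⟨_, h4, by rw [phi_eq ha hc hb w k1 k2, k3]⟩

theorem phi_closed (w : C.W) {A : Set (S → ℝ)} (hA : IsClosed A) :
    IsClosed (D.Phi w '' (C.St ∩ A)) := by
  refine isOpen_compl_iff.1 (hb.isOpen_iff.2 fun w' => ?_)
  rw [preimage_compl, isOpen_compl_iff]
  obtain h | ⟨ρ, h⟩ := pre ha hc hb w w' (inter_subset_left : C.St ∩ A ⊆ _)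
  · exact h ▸ isClosed_empty
  have k : IsClosed {p : S → ℝ | (∀ s ∈ ρ, 1 / 2 ≤ p s) ∧ unf ρ p ∈ A} := by
    simp only [ofPred_and, ofPred_forall]
    exact (isClosed_biInter fun s _ => isClosed_le continuous_const (continuous_apply s)).inter
      (hA.preimage (cont_unf ρ))
  convert D.c_emb.isClosedMap _ (k.preimage continuous_subtype_val) using 1
  refine h.trans (Subset.antisymm ?_ ?_)
  · rintro _ ⟨p, hp, rfl⟩
    exact ⟨⟨p, hp.1⟩, ⟨hp.2.1, hp.2.2.2⟩, rfl⟩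
  · rintro _ ⟨p, hp, rfl⟩
    exact ⟨p, ⟨p.2, hp.1, (unf_spec p.2 hp.1).1, hp.2⟩, rfl⟩

theorem phi_open (w : C.W) : IsOpen (D.Phi w '' C.Sto) := by
  refine hb.isOpen_iff.2 fun w' => ?_
  obtain h | ⟨ρ, h⟩ := pre ha hc hb w w' (A := C.Sto) fun _ => sto_st
  · exact h ▸ isOpen_empty
  have k : IsOpen {p : S → ℝ | ∀ s ∈ ρ, 1 / 2 < p s} := by
    simp only [ofPred_forall]
    exact isOpen_biInter_finset fun s _ => isOpen_lt continuous_const (continuous_apply s)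
  obtain ⟨V, hV, e⟩ := D.c_emb.isInducing.isOpen_iff.1 (k.preimage continuous_subtype_val)
  have e' : ∀ p ∈ C.Col, D.c p ∈ V ↔ ∀ s ∈ ρ, 1 / 2 < p s := fun p hp => Set.ext_iff.1 e ⟨p, hp⟩
  convert D.c_open.inter hV using 1
  refine h.trans (Subset.antisymm ?_ ?_)
  · rintro _ ⟨p, ⟨h1, -, -, h2, t, ht⟩, rfl⟩
    have k1 : ∀ s ∈ ρ, 1 / 2 < p s := fun s hs => by
      have := h2 s
      simp only [unf, if_pos hs] at this
      linarith
    refine ⟨⟨p, ⟨h1, t, ?_⟩, rfl⟩, (e' p h1).2 k1⟩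
    by_cases hs : t ∈ ρ
    · exact k1 t hs
    · simpa only [unf, if_neg hs] using ht
  · rintro _ ⟨⟨p, ⟨h1, t, ht⟩, rfl⟩, h2⟩
    have k1 := (e' p h1).1 h2
    have k2 := fun s hs => (k1 s hs).le
    refine ⟨p, ⟨h1, k2, (unf_spec h1 k2).1.1, fun s => ?_, t, ?_⟩, rfl⟩
    · unfold unf
      split_ifs with hs
      · linarith [k1 s hs]
      · linarith [h1.2.1 s]
    · unfold unf
      split_ifs <;> linarith [h1.2.1 t]

end StarX

open StarX in
theorem DavisData.star_of {G S : Type} [Group G] [MulAction G S] {C : CG G S} (D : DavisData C)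
    (ha : C.Api) (hc : C.ConeF) (hb : D.Basic) : D.Star where
  emb w := by
    refine .of_continuous_injective_isClosedMap
      (continuousOn_iff_continuous_domRestrict.1 (phi_cont ha hc hb w))
      (injOn_iff_injective.1 (phi_inj ha hc hb w)) fun A hA => ?_
    obtain ⟨B, hB, rfl⟩ := isClosed_induced_iff.1 hA
    convert phi_closed ha hc hb w hB using 1
    rw [← Subtype.image_preimage_coe, image_image]
    rfl
  opn := phi_open ha hc hb
  mem w w' q hq := ⟨fun ⟨_, h⟩ => ((phi_eq_iff ha hc hb hq).1 h.symm).2.imp fun _ => and_assoc.1,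
    fun ⟨ρ, h1, h2, h3⟩ => ⟨_, h3 ▸ (phi_eq ha hc hb w hq ⟨h1, h2⟩).symm⟩⟩
  col w q hq := by
    rw [phi_eq ha hc hb w (ρ := ∅) (col_st hq)
      ⟨fun s h => absurd (hq.2.1 s) (not_le.2 h), by simp⟩, ha.pr_empty, mul_one, hc.fld_col hq]
  smul g w q hq := by
    classical
    have hB := adm_big hc hq.1
    rw [phi_eq ha hc hb _ (ρ := (CG.big q).image (g • ·)) (sh_st g hq) ⟨fun s h =>
      Finset.mem_image.2 ⟨_, hB.1 _ h, smul_inv_smul g s⟩, fun s h => by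
        obtain ⟨t, ht, rfl⟩ := Finset.mem_image.1 h
        simpa [sh] using hB.2 t ht⟩, ← ha.pr_act g (hB.clique hq.1), ← map_mul,
      show fld (sh g q) = sh g (fld q) from rfl, D.c_smul g _ (hc.fld_mem hq)]
    simp [DavisData.ga, DavisData.Phi, D.smul_pt]
  disj w w' q q' hq hq' h hp := by
    obtain ⟨h1, ρ, h2, h3⟩ := (phi_eq_iff ha hc hb hq).1 h
    have e := hb.c_inj (hc.fld_mem hq) (hc.fld_mem hq') h1
    have hk := (hc.fld_mem hq).1.2
    have k1 : C.pr ρ ∈ C.Wof {s | fld q s ≠ 0} :=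
      (ha.mem_Wof hk).2 ⟨ρ, fun s hs => fld_ne_zero hq (h2.2 s hs), rfl⟩
    have k2 : C.pr (CG.big q') ∈ C.Wof {s | fld q s ≠ 0} := (ha.mem_Wof hk).2
      ⟨_, fun s hs => e ▸ fld_ne_zero hq' ((adm_big hc hq'.1).2 s hs), rfl⟩
    have k3 : w⁻¹ * w' = C.pr ρ * (C.pr (CG.big q'))⁻¹ := by
      rw [eq_mul_inv_iff_mul_eq, mul_assoc, h3, inv_mul_cancel_left]
    exact inv_mul_eq_one.1 (ha.par_Wof hk (k3 ▸ mul_mem k1 (inv_mem k2)) (by
      rw [map_mul, map_inv, hp, inv_mul_cancel]))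

end Vale.Agent.P260Z
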