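import Vale.Agent.P260Z.Dav.Sk

/-!
# P260: one orbit of chambers is absorbed
-/

noncomputable section

namespace Vale.Agent.P260Z

open Set Topology Filter

namespace DavisData
variable {G S : Type} [Group G] [MulAction G S] {C : CG G S} (D : DavisData C)

theorem st_ga_pt (g : G) (w : C.W) (x : D.X) :
    D.ga g (D.pt w x) = D.pt (C.act g w) (g • x) := by
  unfold ga
  rw [smul_pt]
  simp

theorem st_ga_mul (g h : G) (z : D.Mt) : D.ga (g * h) z = D.ga g (D.ga h z) := by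
  unfold ga
  rw [map_mul, mul_smul]

theorem st_ga_one (z : D.Mt) : D.ga 1 z = z := by
  unfold ga
  rw [map_one, one_smul]

theorem st_ga_inv (g : G) (z : D.Mt) : D.ga g⁻¹ (D.ga g z) = z := by
  rw [← st_ga_mul, inv_mul_cancel, st_ga_one]

theorem st_ga_inv' (g : G) (z : D.Mt) : D.ga g (D.ga g⁻¹ z) = z := by
  rw [← st_ga_mul, mul_inv_cancel, st_ga_one]

theorem st_ga_cont (hb : D.Basic) (g : G) : Continuous (D.ga g) := by
  have := hb.cts
  exact continuous_const_smul (SemidirectProduct.inr g : C.Gam)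

theorem st_sh_St (g : G) {q : S → ℝ} (hq : q ∈ C.St) : sh g q ∈ C.St := by
  obtain ⟨⟨h0, h1⟩, h2, s, hs⟩ := hq
  refine ⟨⟨fun t => h0 _, fun a ha b hb hab => ?_⟩, fun t => h2 _, g • s, by simpa [sh] using hs⟩
  have := C.adj_smul g (h1 (x := g⁻¹ • a) ha (y := g⁻¹ • b) hb
    fun h => hab (MulAction.injective g⁻¹ h))
  simpa using this

theorem st_sat_ga {K : Set D.Mt} (g : G) {z : D.Mt} (hz : z ∈ D.sat K) : D.ga g z ∈ D.sat K := by
  obtain ⟨h, y, hy, rfl⟩ := mem_iUnion.1 hz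
  exact mem_iUnion.2 ⟨g * h, y, hy, D.st_ga_mul g h y⟩

theorem st_U_ga {T : Set C.W} (hT : ∀ (g : G), ∀ v ∈ T, C.act g v ∈ T) (g : G) {z : D.Mt}
    (hz : z ∈ D.U T) : D.ga g z ∈ D.U T := by
  obtain ⟨v, hv, x, rfl⟩ := hz
  exact ⟨_, hT g v hv, _, D.st_ga_pt g v x⟩

theorem st_diff_inv {T : Set C.W} (hT : ∀ (g : G), ∀ v ∈ T, C.act g v ∈ T) (w : C.W) (g : G) :
    ∀ v ∈ T \ C.orb w, C.act g v ∈ T \ C.orb w := by
  rintro v ⟨hv, hv'⟩
  refine ⟨hT g v hv, ?_⟩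
  rintro ⟨h, hh⟩
  refine hv' ⟨g⁻¹ * h, ?_⟩
  have hh' : C.act h w = C.act g v := hh
  show C.act (g⁻¹ * h) w = v
  rw [map_mul, MulAut.mul_apply, hh', ← MulAut.mul_apply, ← map_mul, inv_mul_cancel, map_one,
    MulAut.one_apply]

/-- a star meets only one chamber of each parity -/
theorem st_star_pt (ha : C.Api) (hs : D.Star) {w w' : C.W} {q : S → ℝ} (hq : q ∈ C.St)
    (hm : D.Phi w q ∈ range (D.pt w')) (hp : C.par w' = C.par w) : w' = w := by
  obtain ⟨ρ, -, h2, rfl⟩ := (hs.mem w w' hq).1 hm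
  have hc : C.gr.IsClique {s | q s ≠ 0} := hq.1.2
  have hW : C.pr ρ ∈ C.Wof {s | q s ≠ 0} := (ha.mem_Wof hc).2 ⟨ρ, fun s hs => by
    have := h2 s hs
    simp only [mem_ofPred_eq]
    intro h0
    linarith, rfl⟩
  rw [map_mul] at hp
  rw [ha.par_Wof hc hW (by simpa using hp), mul_one]

/-- the translates of a chamber with its star are disjoint -/
theorem st_disj (ha : C.Api) (hb : D.Basic) (hs : D.Star) {w : C.W} (hw : w ≠ 1) {g : G}
    {z : D.Mt} (hz : z ∈ range (D.pt w) ∪ D.Phi w '' C.St)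
    (hz' : D.ga g z ∈ range (D.pt w) ∪ D.Phi w '' C.St) : g = 1 := by
  rcases hz with ⟨x, rfl⟩ | ⟨q, hq, rfl⟩
  · rw [st_ga_pt] at hz'
    refine ha.act_free hw ?_
    rcases hz' with ⟨x', hx'⟩ | ⟨q', hq', he⟩
    · have h1 := (D.pt_eq.1 hx').2
      have h2 := ha.par_Wof (hb.sig_clique x') h1 (by simp [C.par_act])
      exact (inv_mul_eq_one.1 h2).symm
    · exact D.st_star_pt ha hs hq' ⟨_, he.symm⟩ (C.par_act g w)
  · rw [hs.smul g w hq] at hz'
    refine ha.act_free hw ?_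
    rcases hz' with hx' | ⟨q', hq', he⟩
    · exact (D.st_star_pt ha hs (st_sh_St g hq) hx' (C.par_act g w).symm).symm
    · exact (hs.disj _ _ hq' (st_sh_St g hq) he (C.par_act g w).symm).symm

theorem st_Kw (ha : C.Api) (hb : D.Basic) {w : C.W} (hw : w ≠ 1) {K : Set D.Mt}
    (hK : IsCompact K) : IsCompact {x | D.pt w x ∈ D.sat K} := by
  have hinj : Function.Injective fun g : G => C.act g⁻¹ w := by
    intro a b hab
    have h1 : C.act (a * b⁻¹) w = w := by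
      have hab' : C.act a⁻¹ w = C.act b⁻¹ w := hab
      rw [map_mul, MulAut.mul_apply, ← hab', ← MulAut.mul_apply, ← map_mul, mul_inv_cancel,
        map_one, MulAut.one_apply]
    exact mul_inv_eq_one.1 (ha.act_free hw h1)
  have hfin := (hb.fin hK).preimage hinj.injOn
  have he : {x | D.pt w x ∈ D.sat K} =
      ⋃ g ∈ (fun g : G => C.act g⁻¹ w) ⁻¹' {v | (K ∩ range (D.pt v)).Nonempty},
        D.pt w ⁻¹' (D.ga g '' K) := by
    ext x
    simp only [mem_ofPred_eq, mem_iUnion, mem_preimage, sat]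
    constructor
    · rintro ⟨g, y, hy, he⟩
      refine ⟨g, ⟨y, hy, g⁻¹ • x, ?_⟩, y, hy, he⟩
      rw [← st_ga_pt, ← he, st_ga_inv]
    · rintro ⟨g, -, h⟩
      exact ⟨g, h⟩
  rw [he]
  exact hfin.isCompact_biUnion fun g _ =>
    (hb.emb w).isCompact_preimage (hK.image (D.st_ga_cont hb g))

theorem st_lf (hA : D.Act) {Z : Set D.Mt} (hZ : IsCompact Z) :
    LocallyFinite fun g : G => D.ga g '' Z := by
  have := hA.lc
  have := hA.pd
  intro z
  obtain ⟨L, hL, hzL⟩ := exists_compact_mem_nhds z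
  refine ⟨L, hzL, ?_⟩
  have hfin := finite_disjoint_inter_image (Γ := C.Pi) hZ hL
  let ι : G → C.Pi := fun g => ⟨SemidirectProduct.inr g, by
    show C.par (SemidirectProduct.inr g : C.Gam).left = 1
    simp⟩
  have hinj : Function.Injective ι := fun a b hab =>
    SemidirectProduct.inr_injective (congrArg Subtype.val hab)
  exact (hfin.preimage hinj.injOn).subset fun g hg => hg

theorem step_of (ha : C.Api) (hb : D.Basic) (hs : D.Star) (hA : D.Act) (h : D.One) :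
    D.Step := by
  classical
  intro T w K hT hD hwT hw hmax hK hKU
  have := hb.t2
  obtain ⟨e1, hZc, hc, hi, hm, hid⟩ := h T w _ hD hwT hw hmax (D.st_Kw ha hb hw hK)
  set Z : Set D.Mt := D.pt w '' {x | D.pt w x ∈ D.sat K} ∪
    D.U (T \ C.orb w) ∩ D.Phi w '' C.St with hZ
  have hZY : Z ⊆ range (D.pt w) ∪ D.Phi w '' C.St :=
    union_subset_union (image_subset_range _ _) inter_subset_right
  have huniq : ∀ {g g' : G} {z : D.Mt}, D.ga g⁻¹ z ∈ range (D.pt w) ∪ D.Phi w '' C.St →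
      D.ga g'⁻¹ z ∈ range (D.pt w) ∪ D.Phi w '' C.St → g = g' := by
    intro g g' z h1 h2
    have h3 : g'⁻¹ * g = 1 := D.st_disj ha hb hs hw h1 (by rwa [st_ga_mul, st_ga_inv'])
    exact (inv_mul_eq_one.1 h3).symm
  let e : D.Mt → D.Mt := fun z =>
    if hz : ∃ g : G, D.ga g⁻¹ z ∈ Z then D.ga hz.choose (e1 (D.ga hz.choose⁻¹ z)) else z
  have he1 : ∀ (g : G) z, D.ga g⁻¹ z ∈ Z → e z = D.ga g (e1 (D.ga g⁻¹ z)) := by
    intro g z hz
    have hz' : ∃ g : G, D.ga g⁻¹ z ∈ Z := ⟨g, hz⟩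
    have h1 : hz'.choose = g := huniq (hZY hz'.choose_spec) (hZY hz)
    simp only [e, dif_pos hz', h1]
  have he2 : ∀ z, (¬ ∃ g : G, D.ga g⁻¹ z ∈ Z) → e z = z := fun z hz => by
    simp only [e, dif_neg hz]
  set O : Set D.Mt := D.Phi w '' C.Sto ∪ D.pt w '' (D.c '' C.Bd)ᶜ with hO
  have hOo : IsOpen O := (hs.opn w).union (hb.open_int w)
  have hSto : C.Sto ⊆ C.St := fun q hq =>
    ⟨hq.1, fun s => (hq.2.1 s).le, hq.2.2.imp fun s hs => hs.le⟩
  have hR : ∀ z, (∀ g : G, D.ga g⁻¹ z ∉ O) → e z = z := by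
    intro z hz
    by_cases hz' : ∃ g : G, D.ga g⁻¹ z ∈ Z
    · obtain ⟨g, hg⟩ := hz'
      rw [he1 g z hg]
      rcases hg with ⟨x, -, hx⟩ | hg
      · exfalso
        refine hz g ?_
        by_cases hxb : x ∈ D.c '' C.Bd
        · obtain ⟨q, hq, rfl⟩ := hxb
          refine Or.inl ⟨q, ⟨hq.1.1, fun s => ?_, ?_⟩, (hs.col w hq.1).trans hx⟩
          · have := hq.1.2.1 s
            linarith
          · obtain ⟨s, hs⟩ := hq.2
            exact ⟨s, by rw [hs]; norm_num⟩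
        · exact Or.inr ⟨x, hxb, hx⟩
      · rw [hid _ hg fun h' => hz g (Or.inl h'), st_ga_inv']
    · exact he2 z hz'
  have hsatU : D.sat K ⊆ D.U T := by
    intro z hz
    obtain ⟨g, y, hy, rfl⟩ := mem_iUnion.1 hz
    exact D.st_U_ga hT g (hKU hy)
  have hcov : ∀ z ∈ D.sat K, z ∈ O → z ∈ Z := by
    intro z hz hzO
    rcases hzO with ⟨q, hq, hqz⟩ | ⟨x, -, rfl⟩
    · obtain ⟨v, hv, x, hx⟩ := hsatU hz
      by_cases hvo : v ∈ C.orb w
      · obtain ⟨g, hg⟩ := hvo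
        have hg' : C.act g w = v := hg
        have h1 : v = w := D.st_star_pt ha hs (hSto hq) ⟨x, by rw [hqz, hx]⟩
          (by rw [← hg', C.par_act])
        rw [h1] at hx
        exact Or.inl ⟨x, by show D.pt w x ∈ D.sat K; rwa [← hx], hx.symm⟩
      · exact Or.inr ⟨⟨v, ⟨hv, hvo⟩, x, hx⟩, q, hSto hq, hqz⟩
    · exact Or.inl ⟨x, hz, rfl⟩
  refine ⟨e, ?_, ?_, ?_, ?_⟩
  · have h1 : ContinuousOn e (⋃ g : G, D.ga g '' Z) := by
      refine (D.st_lf hA hZc).continuousOn_iUnion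
        (fun g => (hZc.image (D.st_ga_cont hb g)).isClosed) fun g => ?_
      have hmap : MapsTo (D.ga g⁻¹) (D.ga g '' Z) Z := by
        rintro _ ⟨y, hy, rfl⟩
        rwa [st_ga_inv]
      refine ((D.st_ga_cont hb g).comp_continuousOn
        (hc.comp (D.st_ga_cont hb g⁻¹).continuousOn hmap)).congr fun z hz => ?_
      exact he1 g z (hmap hz)
    have h2 : ContinuousOn e (⋃ g : G, D.ga g⁻¹ ⁻¹' O)ᶜ :=
      continuousOn_id.congr fun z hz => hR z fun g hg => hz (mem_iUnion.2 ⟨g, hg⟩)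
    have h3 : IsClosed (⋃ g : G, D.ga g '' Z) :=
      (D.st_lf hA hZc).isClosed_iUnion fun g => (hZc.image (D.st_ga_cont hb g)).isClosed
    have h4 : IsClosed (⋃ g : G, D.ga g⁻¹ ⁻¹' O)ᶜ :=
      (isOpen_iUnion fun g => hOo.preimage (D.st_ga_cont hb g⁻¹)).isClosed_compl
    refine (h1.union_of_isClosed h2 h3 h4).mono fun z hz => ?_
    by_cases hz' : z ∈ ⋃ g : G, D.ga g⁻¹ ⁻¹' O
    · obtain ⟨g, hg⟩ := mem_iUnion.1 hz'
      exact Or.inl (mem_iUnion.2 ⟨g, _, hcov _ (D.st_sat_ga g⁻¹ hz) hg, D.st_ga_inv' g z⟩)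
    · exact Or.inr hz'
  · have key : ∀ z z', (∃ g : G, D.ga g⁻¹ z ∈ Z) → e z = e z' → z = z' := by
      rintro z z' ⟨g, hg⟩ hee
      rw [he1 g z hg] at hee
      by_cases hz' : ∃ g : G, D.ga g⁻¹ z' ∈ Z
      · obtain ⟨g', hg'⟩ := hz'
        rw [he1 g' z' hg'] at hee
        have h1 : g = g' := huniq (z := D.ga g (e1 (D.ga g⁻¹ z)))
          (by rw [st_ga_inv]; exact Or.inr (hm hg).2)
          (by rw [hee, st_ga_inv]; exact Or.inr (hm hg').2)
        subst h1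
        have h2 := congrArg (D.ga g⁻¹) hee
        rw [st_ga_inv, st_ga_inv] at h2
        have h3 := congrArg (D.ga g) (hi hg hg' h2)
        rwa [st_ga_inv', st_ga_inv'] at h3
      · exfalso
        rw [he2 z' hz'] at hee
        exact hz' ⟨g, by rw [← hee, st_ga_inv]; exact Or.inr (hm hg)⟩
    intro z _ z' _ hee
    by_cases hz : ∃ g : G, D.ga g⁻¹ z ∈ Z
    · exact key z z' hz hee
    · by_cases hz' : ∃ g : G, D.ga g⁻¹ z' ∈ Z
      · exact (key z' z hz' hee.symm).symm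
      · rwa [he2 z hz, he2 z' hz'] at hee
  · intro g z _
    by_cases hz : ∃ g : G, D.ga g⁻¹ z ∈ Z
    · obtain ⟨k, hk⟩ := hz
      have h1 : D.ga (g * k)⁻¹ (D.ga g z) = D.ga k⁻¹ z := by
        rw [mul_inv_rev, st_ga_mul, st_ga_inv]
      rw [he1 (g * k) _ (by rwa [h1]), h1, he1 k z hk, st_ga_mul]
    · rw [he2 z hz, he2]
      rintro ⟨k, hk⟩
      refine hz ⟨g⁻¹ * k, ?_⟩
      rwa [mul_inv_rev, inv_inv, st_ga_mul]
  · intro z hz
    by_cases hz' : ∃ g : G, D.ga g⁻¹ z ∈ Z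
    · obtain ⟨g, hg⟩ := hz'
      rw [he1 g z hg]
      exact D.st_U_ga (st_diff_inv hT w) g (hm hg).1
    · rw [he2 z hz']
      obtain ⟨v, hv, x, hx⟩ := hKU hz
      refine ⟨v, ⟨hv, ?_⟩, x, hx⟩
      rintro ⟨g, hg⟩
      have hg' : C.act g w = v := hg
      have h1 : D.ga g⁻¹ z = D.pt w (g⁻¹ • x) := by
        rw [hx, st_ga_pt, ← hg', ← MulAut.mul_apply, ← map_mul, inv_mul_cancel, map_one,
          MulAut.one_apply]
      refine hz' ⟨g, Or.inl ⟨g⁻¹ • x, ?_, h1.symm⟩⟩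
      show D.pt w (g⁻¹ • x) ∈ D.sat K
      rw [← h1]
      exact mem_iUnion.2 ⟨g⁻¹, z, hz, rfl⟩

end DavisData

end Vale.Agent.P260Z
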