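import Vale.Agent.P260Z.Dav.AE1
import Vale.Agent.P260Z.Dav.AE2
import Vale.Agent.P260Z.Dav.AE3
import Vale.Agent.P260Z.Dav.EQX
import Vale.Agent.P260Z.Dav.HEQ
import Vale.Agent.P260Z.Dav.Lift
import Vale.Agent.P260Z.Dav.Len
import Vale.Agent.P260Z.Dav.Api
import Vale.Agent.P260Z.Dav.NF
import Vale.Agent.P260Z.Dav.Cone
import Vale.Agent.P260Z.Dav.BsAE
import Vale.Agent.P260Z.Dav.Push
import Vale.Agent.P260Z.Dav.Basic
import Vale.Agent.P260Z.Dav.Star
import Vale.Agent.P260Z.Dav.Chart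
import Vale.Agent.P260Z.Dav.Act
import Vale.Agent.P260Z.Dav.MtAE
import Vale.Agent.P260Z.Dav.One
import Vale.Agent.P260Z.Dav.Step
import Vale.Agent.P260Z.Dav.Absorb
import Vale.Agent.P260Z.Dav.KL
import Vale.Agent.P260Z.Dav.Fin

/-!
# P260: the reflection group construction, assembled
-/

namespace Vale.Agent.P260Z

variable {G S : Type} [Group G] [MulAction G S]

theorem DavisData.all {C : CG G S} (D : DavisData C) : D.All := by
  have ha := C.api_of C.len_thm
  have hc := C.coneF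
  have hb := D.basic_of ha hc
  have hs := D.star_of ha hc hb
  have hch := D.chart_of hc hb hs
  have hA := D.act_of ha hb hch
  exact ⟨hb, hch, hA, D.mtAE_of ae1 ae2 ha (C.bsAE_of ae1 ae2 hc) hb, fun h =>
    D.absorb_of ha hb (D.step_of ha hb hs hA (D.one_of ha hc (C.pushF_of hc) hb hs h))⟩

theorem dav : DAV := fun _ _ _ _ _ _ P =>
  P.counter ae3 (heq_of eqx) lift_thm (P.C.api_of P.C.len_thm) (P.C.kl_of (P.C.nf_of P.C.len_thm))
    P.D.all P.D'.all

end Vale.Agent.P260Z
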