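import Vale.Agent.P260Z.Dav.Sk

/-!
# P260: special subgroups are closed under even square roots
-/

noncomputable section

namespace Vale.Agent.P260Z

open Set

/-- cancellation in a product of two reduced words in involutions -/
theorem canc {H : Type} [Group H] (l' : List H) : ∀ l : List H, (∀ r ∈ l', r * r = 1) →
    l.IsChain (· ≠ ·) → l'.IsChain (· ≠ ·) → ∃ a c b : List H, l = a ++ c ∧
      l' = c.reverse ++ b ∧ (a ++ b).IsChain (· ≠ ·) ∧ l.prod * l'.prod = (a ++ b).prod := by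
  induction l' with
  | nil => exact fun l _ h _ => ⟨l, [], [], by simp, by simp, by simpa using h, by simp⟩
  | cons r t ih =>
    intro l hi h h'
    rcases List.eq_nil_or_concat l with rfl | ⟨l0, r', rfl⟩
    · exact ⟨[], [], r :: t, by simp, by simp, by simpa using h', by simp⟩
    · rw [List.concat_eq_append] at h ⊢
      by_cases e : r' = r
      · subst e
        obtain ⟨a, c, b, rfl, rfl, h1, h2⟩ := ih l0 (fun x hx => hi x (List.mem_cons_of_mem _ hx))
          h.left_of_append h'.tail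
        refine ⟨a, c ++ [r'], b, by simp, by simp, h1, ?_⟩
        rw [← h2]
        have := hi r' List.mem_cons_self
        simp only [List.prod_append, List.prod_cons, List.prod_nil, mul_one, mul_assoc]
        rw [← mul_assoc r' r', this, one_mul]
      · refine ⟨l0 ++ [r'], [], r :: t, by simp, by simp, ?_, by simp [mul_assoc]⟩
        refine List.IsChain.append h h' ?_
        simpa using e

/-- at most one half of an even word cancels against its image -/
theorem canc_le {H : Type} {φ : H → H} {l a c b : List H} (h : l.IsChain (· ≠ ·))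
    (he : Even l.length) (hR : ∀ r ∈ l, φ (φ r) = r → φ r = r) (h1 : l = a ++ c)
    (h2 : l.map φ = c.reverse ++ b) : c.length ≤ a.length := by
  by_contra hlt
  obtain ⟨m, hm⟩ := he
  have hl : l.length = a.length + c.length := by rw [h1, List.length_append]
  have key : ∀ j (hj : j < c.length), φ (l[j]'(by omega)) = l[l.length - 1 - j]'(by omega) := by
    intro j hj
    have e1 : φ (l[j]'(by omega)) = (l.map φ)[j]'(by simp; omega) := by simp
    rw [e1]
    simp only [h2]
    rw [List.getElem_append_left (by simpa using hj), List.getElem_reverse]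
    subst h1
    rw [List.getElem_append_right (by simp; omega)]
    congr 1
    simp
    omega
  have k1 := key (m - 1) (by omega)
  have k2 := key m (by omega)
  have e1 : l.length - 1 - (m - 1) = m := by omega
  have e2 : l.length - 1 - m = m - 1 := by omega
  simp only [e1] at k1
  simp only [e2] at k2
  have k3 := hR _ (List.getElem_mem (n := m - 1) (by omega)) (by rw [k1, k2])
  have k4 := List.isChain_iff_getElem.1 h (m - 1) (by omega)
  have e3 : m - 1 + 1 = m := by omega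
  simp only [e3] at k4
  exact k4 (k3.symm.trans k1)

namespace CG
variable {G S : Type} [Group G] [MulAction G S] (C : CG G S)

/-- conjugation of the Coxeter group by an element of the full group -/
def cj (u : C.Gam) : C.W →* C.W :=
  (MulAut.conj u.left).toMonoidHom.comp (C.act u.right).toMonoidHom

theorem cj_apply (u : C.Gam) (r : C.W) : C.cj u r = u.left * C.act u.right r * u.left⁻¹ := rfl

theorem cj_mul (u v : C.Gam) (r : C.W) : C.cj (u * v) r = C.cj u (C.cj v r) := by
  simp [cj_apply, mul_assoc]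

theorem cj_inj (u : C.Gam) : Function.Injective (C.cj u) := fun a b h => by
  simpa [cj_apply] using h

theorem Wof_mono {L L' : Set S} (h : L ⊆ L') : C.Wof L ≤ C.Wof L' :=
  Subgroup.closure_mono (image_mono h)

theorem gen_mem {L : Set S} {s : S} (h : s ∈ L) : C.gen s ∈ C.Wof L :=
  Subgroup.subset_closure ⟨s, h, rfl⟩

theorem Wn_le (L : Set S) (n : ℕ) : C.Wn L n ≤ C.Wn univ n :=
  C.Wof_mono fun _ h => ⟨trivial, h.2⟩

theorem Wn_le_Wof (L : Set S) (n : ℕ) : C.Wn L n ≤ C.Wof L := C.Wof_mono fun _ h => h.1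

theorem Wn_succ (L : Set S) (n : ℕ) : C.Wn L n ≤ C.Wn L (n + 1) :=
  C.Wof_mono fun _ h => ⟨h.1, Nat.lt_succ_of_lt h.2⟩

theorem Rf_sub (L : Set S) (n : ℕ) : C.Rf L n ⊆ C.Rf univ n := by
  rintro _ ⟨x, hx, s, -, hs, rfl⟩
  exact ⟨x, C.Wn_le L n hx, s, trivial, hs, rfl⟩

theorem Rf_mem {L : Set S} {n : ℕ} {r : C.W} (h : r ∈ C.Rf L n) : r ∈ C.Wn L (n + 1) := by
  obtain ⟨x, hx, s, hs, hc, rfl⟩ := h
  have hx' := C.Wn_succ L n hx
  exact mul_mem (mul_mem hx' (C.gen_mem ⟨hs, by omega⟩)) (inv_mem hx')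

theorem Rf_sq {L : Set S} {n : ℕ} {r : C.W} (h : r ∈ C.Rf L n) : r * r = 1 := by
  obtain ⟨x, -, s, -, -, rfl⟩ := h
  have := C.gen_mul_self s
  calc x * C.gen s * x⁻¹ * (x * C.gen s * x⁻¹) = x * (C.gen s * C.gen s) * x⁻¹ := by group
    _ = 1 := by rw [this]; group

theorem Rf_conj {L : Set S} {n : ℕ} {r x : C.W} (hx : x ∈ C.Wn L n) (h : r ∈ C.Rf L n) :
    x * r * x⁻¹ ∈ C.Rf L n := by
  obtain ⟨y, hy, s, hs, hc, rfl⟩ := h
  exact ⟨x * y, mul_mem hx hy, s, hs, hc, by group⟩

theorem act_mem_Wn (g : G) {n : ℕ} {x : C.W} (h : x ∈ C.Wn univ n) : C.act g x ∈ C.Wn univ n := by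
  refine Subgroup.closure_induction (p := fun u _ => C.act g u ∈ C.Wn univ n) ?_ ?_ ?_ ?_ h
  · rintro _ ⟨s, hs, rfl⟩
    rw [C.act_gen]
    exact C.gen_mem ⟨trivial, by rw [C.col_smul]; exact hs.2⟩
  · simp
  · intro a b _ _ ha hb
    rw [map_mul]
    exact mul_mem ha hb
  · intro a _ ha
    rw [map_inv]
    exact inv_mem ha

theorem cj_mem_Rf {n : ℕ} {u : C.Gam} (hu : u.left ∈ C.Wn univ n) {r : C.W}
    (h : r ∈ C.Rf univ n) : C.cj u r ∈ C.Rf univ n := by
  refine C.Rf_conj hu ?_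
  obtain ⟨y, hy, s, -, hc, rfl⟩ := h
  exact ⟨C.act u.right y, C.act_mem_Wn _ hy, u.right • s, trivial, by rw [C.col_smul]; exact hc,
    by simp⟩

theorem comm_of_mem {s : S} {x : C.W} (h : x ∈ C.Wof (C.gr.neighborSet s)) :
    x * C.gen s = C.gen s * x := by
  refine Subgroup.closure_induction (p := fun u _ => Commute u (C.gen s)) ?_ ?_ ?_ ?_ h
  · rintro _ ⟨t, ht, rfl⟩
    exact (C.gen_comm ht).symm
  · exact Commute.one_left _
  · exact fun a b _ _ ha hb => ha.mul_left hb
  · exact fun a _ ha => ha.inv_left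

/-- an element which fixes a reflection has trivial image in `G` -/
theorem right_eq_one (h : C.NF) {u : C.Gam} {z : C.W} {s : S}
    (e : C.cj u (z * C.gen s * z⁻¹) = z * C.gen s * z⁻¹) : u.right = 1 := by
  refine C.free _ s (h.type (u.left * C.act u.right z) z _ _ ?_)
  rw [← e]
  simp [cj_apply, mul_assoc]

def RCn (n : ℕ) : Prop :=
  ∀ (L : Set S) (y : C.W), y ∈ C.Wn univ n → C.par y = 1 → y ^ 2 ∈ C.Wof L → y ∈ C.Wof L

theorem fix_of_sq (h : C.NF) {n : ℕ} (hn : C.RCn n) {u : C.Gam} (hu : u.left ∈ C.Wn univ n)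
    (hp : C.par u.left = 1) {r : C.W} (hr : r ∈ C.Rf univ n) (e : C.cj u (C.cj u r) = r) :
    C.cj u r = r := by
  obtain ⟨z, hz, s, -, hc, rfl⟩ := hr
  have h1 : u.right = 1 := by
    refine C.two _ ?_
    have := C.right_eq_one h (u := u * u) (by rw [cj_mul]; exact e)
    simpa [pow_two] using this
  simp only [cj_apply, h1, map_one, MulAut.one_apply] at e ⊢
  have hx : z⁻¹ * u.left * z ∈ C.Wn univ n := mul_mem (mul_mem (inv_mem hz) hu) hz
  have h2 : (z⁻¹ * u.left * z) ^ 2 ∈ C.Wof (C.gr.neighborSet s) := by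
    refine h.cent _ s (fun hs => ?_) _ (pow_mem hx 2) ?_
    · have := hs.2
      omega
    · calc (z⁻¹ * u.left * z) ^ 2 * C.gen s
          = z⁻¹ * (u.left * (u.left * (z * C.gen s * z⁻¹) * u.left⁻¹) * u.left⁻¹) * z *
            (z⁻¹ * u.left * z) ^ 2 := by rw [pow_two]; group
        _ = C.gen s * (z⁻¹ * u.left * z) ^ 2 := by rw [e]; group
  have h3 := C.comm_of_mem (hn _ _ hx (by simp [hp]) h2)
  calc u.left * (z * C.gen s * z⁻¹) * u.left⁻¹
      = z * (z⁻¹ * u.left * z * C.gen s) * z⁻¹ * u.left⁻¹ := by group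
    _ = z * C.gen s * z⁻¹ := by rw [h3]; group

theorem Wn_zero {y : C.W} (h : y ∈ C.Wn univ 0) : y = 1 := by
  simpa [Wn, Wof] using h

theorem mem_Wn_four (y : C.W) : y ∈ C.Wn univ 4 := by
  have : C.Wn univ 4 = ⊤ := by
    rw [Wn, Wof]
    have e : {s | s ∈ univ ∧ (C.col s : ℕ) < 4} = univ := eq_univ_of_forall fun s =>
      ⟨trivial, (C.col s).2⟩
    rw [e, image_univ]
    exact PresentedGroup.closure_range_of C.rels
  rw [this]
  trivial

theorem mem_Wn (h : C.NF) {L : Set S} {n : ℕ} {y : C.W} (h1 : y ∈ C.Wof L)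
    (h2 : y ∈ C.Wn univ n) : y ∈ C.Wn L n :=
  C.Wof_mono (L' := {s | s ∈ L ∧ (C.col s : ℕ) < n}) (fun _ hs => ⟨hs.1, hs.2.2⟩)
    (h.inter _ _ _ h1 h2)

/-- the normal form of a square -/
theorem sq_form (h : C.NF) {n : ℕ} (hn : C.RCn n) {u : C.Gam} (hu : u.left ∈ C.Wn univ n)
    (hp : C.par u.left = 1) {l : List C.W} (hl : ∀ r ∈ l, r ∈ C.Rf univ n)
    (hc : l.IsChain (· ≠ ·)) (he : Even l.length) : ∃ a c b : List C.W, l = a ++ c ∧
      l.map (C.cj u) = c.reverse ++ b ∧ (a ++ b).IsChain (· ≠ ·) ∧ c.length ≤ a.length ∧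
      (∀ r ∈ a ++ b, r ∈ C.Rf univ n) ∧ l.prod * C.cj u l.prod = (a ++ b).prod := by
  have hl' : ∀ r ∈ l.map (C.cj u), r ∈ C.Rf univ n := by
    intro r hr
    obtain ⟨r', hr', rfl⟩ := List.mem_map.1 hr
    exact C.cj_mem_Rf hu (hl _ hr')
  obtain ⟨a, c, b, h1, h2, h3, h4⟩ := canc (l.map (C.cj u)) l (fun r hr => C.Rf_sq (hl' r hr)) hc
    ((List.isChain_map _).2 (hc.imp fun _ _ hne e => hne (C.cj_inj u e)))
  refine ⟨a, c, b, h1, h2, h3, canc_le hc he (fun r hr => C.fix_of_sq h hn hu hp (hl r hr)) h1 h2,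
    fun r hr => ?_, by rw [← h4, map_list_prod]⟩
  rcases List.mem_append.1 hr with hr | hr
  · exact hl r (h1 ▸ List.mem_append_left _ hr)
  · exact hl' r (h2 ▸ List.mem_append_right _ hr)

theorem rcn (h : C.NF) : ∀ n, C.RCn n
  | 0 => fun L y hy _ _ => by rw [C.Wn_zero hy]; exact one_mem _
  | n + 1 => by
    intro L y hy hp h2
    have ih := rcn h n
    obtain ⟨l, hl, hc, x, hx, rfl⟩ := h.ex univ n y hy
    obtain ⟨he, hpx⟩ := h.even n l x hl hx hp
    obtain ⟨l', hl', hc', x', hx', e⟩ := h.ex L n _ (C.mem_Wn h h2 (pow_mem hy 2))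
    obtain ⟨a, c, b, h1, h3, h4, h5, h6, h7⟩ :=
      C.sq_form h ih (u := SemidirectProduct.inl x) hx hpx hl hc he
    have e1 : (l.prod * x) ^ 2 = (a ++ b).prod * x ^ 2 := by
      rw [← h7]
      simp [cj_apply, pow_two, mul_assoc]
    have e2 := h.uniq n _ _ _ _ h6 (fun r hr => C.Rf_sub L n (hl' r hr)) h4 hc' (pow_mem hx 2)
      (C.Wn_le L n hx') (e1.symm.trans e)
    have e3 : x ^ 2 = x' := by
      rw [e1, e2] at e
      exact mul_left_cancel e
    have hxL : x ∈ C.Wof L := ih L x hx hpx (e3 ▸ C.Wn_le_Wof L n hx')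
    have hxn := C.mem_Wn h hxL hx
    refine mul_mem (Subgroup.list_prod_mem _ fun r hr => ?_) hxL
    refine C.Wn_le_Wof L (n + 1) (C.Rf_mem ?_)
    rw [h1] at hr
    rcases List.mem_append.1 hr with hr | hr
    · exact hl' r (e2 ▸ List.mem_append_left _ hr)
    · have h8 : b = (l.drop c.length).map (C.cj (SemidirectProduct.inl x)) := by
        rw [List.map_drop, h3]
        simp
      have h9 : r ∈ l.drop c.length := by
        rw [h1, List.drop_append_of_le_length h5]
        exact List.mem_append_right _ hr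
      have h10 : C.cj (SemidirectProduct.inl x) r ∈ C.Rf L n :=
        hl' _ (e2 ▸ List.mem_append_right _ (h8 ▸ List.mem_map_of_mem h9))
      have := C.Rf_conj (inv_mem hxn) h10
      simpa [cj_apply, mul_assoc] using this

theorem rc_of (h : C.NF) : C.RC := fun L y => C.rcn h 4 L y (C.mem_Wn_four y)

end CG

end Vale.Agent.P260Z
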