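import Vale.Agent.P260Z.Dav.Defs

/-!
# P260: statements of the blocks of the reflection group construction
-/

noncomputable section

namespace Vale.Agent.P260Z

open Set Topology Filter

/-! ### absolute extensors -/

structure AE1 : Prop where
  ret : ∀ {T T' : Type} [TopologicalSpace T] [TopologicalSpace T'] {Y : Set T} {Y' : Set T'}
    (r : T → T') (i : T' → T), AE Y → ContinuousOn r Y → MapsTo r Y Y' → ContinuousOn i Y' →
    MapsTo i Y' Y → (∀ y ∈ Y', r (i y) = y) → AE Y'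
  emb : ∀ {T T' : Type} [TopologicalSpace T] [TopologicalSpace T'] {Y : Set T} {φ : T → T'},
    IsEmbedding (Y.domRestrict φ) → AE Y → AE (φ '' Y)
  cpt : ∀ {T T' : Type} [TopologicalSpace T] [TopologicalSpace T'] [T2Space T'] {Y : Set T}
    {φ : T → T'}, IsCompact Y → ContinuousOn φ Y → InjOn φ Y → AE Y → AE (φ '' Y)
  icc : ∀ {a b : ℝ}, a ≤ b → AE (Icc a b)
  real : AE (univ : Set ℝ)
  prod : ∀ {T T' : Type} [TopologicalSpace T] [TopologicalSpace T'] {Y : Set T} {Y' : Set T'},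
    AE Y → AE Y' → AE (Y ×ˢ Y')
  pi : ∀ {ι : Type} {T : ι → Type} [∀ i, TopologicalSpace (T i)] {Y : ∀ i, Set (T i)},
    (∀ i, AE (Y i)) → AE (Set.pi univ Y)
  dir : ∀ {T : Type} [TopologicalSpace T] {Y : Set T},
    (∀ K ⊆ Y, IsCompact K → ∃ Y', K ⊆ Y' ∧ Y' ⊆ Y ∧ AE Y') → AE Y

structure AE2 : Prop where
  union : ∀ {T : Type} [TopologicalSpace T] {Y Y' : Set T}, IsClosed Y → IsClosed Y' →
    AE Y → AE Y' → AE (Y ∩ Y') → AE (Y ∪ Y')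
  fam : ∀ {T : Type} [TopologicalSpace T] {F : Set (Set T)}, (∀ Y ∈ F, IsClosed Y ∧ AE Y) →
    (∀ Y ∈ F, ∀ Y' ∈ F, Y ∩ Y' ∈ F) → ∀ F' ⊆ F, F'.Finite → F'.Nonempty → AE (⋃₀ F')

structure AE3 : Prop where
  ext : ∀ {T : Type} [TopologicalSpace T] {Y : Set T}, AE Y →
    ∀ {Z : Type} [TopologicalSpace Z] [T2Space Z] [LocallyCompactSpace Z]
      [SecondCountableTopology Z] (A : Set Z) (f : Z → T), IsClosed A → ContinuousOn f A →
      MapsTo f A Y → ∃ g : Z → T, Continuous g ∧ (∀ z, g z ∈ Y) ∧ EqOn g f A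
  contr : ∀ {T : Type} [TopologicalSpace T] [T2Space T] [LocallyCompactSpace T]
    [SecondCountableTopology T], AE (univ : Set T) → ContractibleSpace T

/-- a free, properly discontinuous, cocompact action on a nice space -/
structure Nice (Γ T : Type) [Group Γ] [TopologicalSpace T] [MulAction Γ T] : Prop where
  t2 : T2Space T
  lc : LocallyCompactSpace T
  sc : SecondCountableTopology T
  cts : ContinuousConstSMul Γ T
  pd : ProperlyDiscontinuousSMul Γ T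
  fr : IsCancelSMul Γ T
  cpt : ∃ K : Set T, IsCompact K ∧ ∀ x, ∃ g : Γ, g • x ∈ K

/-- equivariant extension -/
def EQX : Prop :=
  ∀ (Γ Z T : Type) [Group Γ] [TopologicalSpace Z] [TopologicalSpace T] [MulAction Γ Z]
    [MulAction Γ T] [ContinuousConstSMul Γ T], Nice Γ Z → AE (univ : Set T) →
    ∀ (A : Set Z) (f : Z → T), IsClosed A → (∀ (g : Γ), ∀ z ∈ A, g • z ∈ A) → ContinuousOn f A →
      (∀ (g : Γ), ∀ z ∈ A, f (g • z) = g • f z) →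
      ∃ F : Z → T, Continuous F ∧ (∀ (g : Γ) z, F (g • z) = g • F z) ∧ EqOn F f A

/-- homotopy equivalence of the quotients -/
def HEQ : Prop :=
  ∀ (Γ T T' : Type) [Group Γ] [TopologicalSpace T] [TopologicalSpace T'] [MulAction Γ T]
    [MulAction Γ T'], Nice Γ T → Nice Γ T' → AE (univ : Set T) → AE (univ : Set T') →
    Nonempty (ContinuousMap.HomotopyEquiv (MulAction.orbitRel.Quotient Γ T)
      (MulAction.orbitRel.Quotient Γ T'))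

/-- lifting a homeomorphism of the quotients -/
def LIFT : Prop :=
  ∀ (Γ T T' : Type) [Group Γ] [TopologicalSpace T] [TopologicalSpace T'] [MulAction Γ T]
    [MulAction Γ T'] [ContractibleSpace T] [ContractibleSpace T'] [LocallyPathConnectedSpace T]
    [LocallyPathConnectedSpace T'], Nice Γ T → Nice Γ T' →
    (MulAction.orbitRel.Quotient Γ T ≃ₜ MulAction.orbitRel.Quotient Γ T') →
    ∃ (θ : Γ ≃* Γ) (F : T → T'), Continuous F ∧ Function.Injective F ∧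
      ∀ (g : Γ) z, F (g • z) = θ g • F z

/-! ### the Coxeter group -/

namespace CG
variable {G S : Type} [Group G] [MulAction G S] (C : CG G S)

structure Len : Prop where
  len_one : C.len 1 = 0
  eq_one : ∀ {w}, C.len w = 0 → w = 1
  word : ∀ w, ∃ l : List S, l.length = C.len w ∧ (l.map C.gen).prod = w
  len_le : ∀ l : List S, C.len (l.map C.gen).prod ≤ l.length
  len_in : ∀ {w s}, s ∈ C.In w → C.len (w * C.gen s) + 1 = C.len w
  len_out : ∀ {w s}, s ∉ C.In w → C.len (w * C.gen s) = C.len w + 1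
  clique : ∀ w, C.gr.IsClique (C.In w)
  in_adj : ∀ {w s t}, C.gr.Adj s t → (t ∈ C.In (w * C.gen s) ↔ t ∈ C.In w)
  in_ne : ∀ {w}, w ≠ 1 → (C.In w).Nonempty

open Classical in
structure Api : Prop extends C.Len where
  cntW : Countable C.W
  len_act : ∀ (g : G) w, C.len (C.act g w) = C.len w
  in_act : ∀ (g : G) w s, g • s ∈ C.In (C.act g w) ↔ s ∈ C.In w
  act_free : ∀ {g : G} {w}, w ≠ 1 → C.act g w = w → g = 1
  fin : ∀ {τ : Set S}, C.gr.IsClique τ → τ.Finite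
  pr_empty : C.pr ∅ = 1
  pr_insert : ∀ {ρ : Finset S} {s}, C.gr.IsClique (insert s (ρ : Set S)) → s ∉ ρ →
    C.pr (insert s ρ) = C.pr ρ * C.gen s
  pr_mul : ∀ {ρ ρ' : Finset S}, C.gr.IsClique ((ρ : Set S) ∪ ρ') →
    C.pr ρ * C.pr ρ' = C.pr (symmDiff ρ ρ')
  pr_inv : ∀ {ρ : Finset S}, C.gr.IsClique (ρ : Set S) → (C.pr ρ)⁻¹ = C.pr ρ
  pr_act : ∀ (g : G) {ρ : Finset S}, C.gr.IsClique (ρ : Set S) →
    C.act g (C.pr ρ) = C.pr (ρ.image (g • ·))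
  mem_Wof : ∀ {τ : Set S} {u}, C.gr.IsClique τ →
    (u ∈ C.Wof τ ↔ ∃ ρ : Finset S, (ρ : Set S) ⊆ τ ∧ u = C.pr ρ)
  par_Wof : ∀ {τ : Set S} {u}, C.gr.IsClique τ → u ∈ C.Wof τ → C.par u = 1 → u = 1
  pr_inj : ∀ {ρ ρ' : Finset S}, C.gr.IsClique (ρ : Set S) → C.gr.IsClique (ρ' : Set S) →
    C.pr ρ = C.pr ρ' → ρ = ρ'
  len_pr : ∀ w {ρ : Finset S}, C.gr.IsClique (ρ : Set S) →
    C.len (w * C.pr ρ) + 2 * (ρ.filter (· ∈ C.In w)).card = C.len w + ρ.card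
  down_pr : ∀ {T : Set C.W} {w} {ρ ρ' : Finset S}, C.Down T → C.gr.IsClique (ρ' : Set S) →
    ρ ⊆ ρ' → (∀ s ∈ ρ', s ∉ ρ → s ∈ C.In w) → w * C.pr ρ ∈ T → w * C.pr ρ' ∈ T
  hull : ∀ {F : Set C.W}, F.Finite → ∃ T, F ⊆ T ∧ T.Finite ∧ C.Down T

/-- normal forms for the tree of one colour -/
structure NF : Prop where
  ex : ∀ (L : Set S) n, ∀ w ∈ C.Wn L (n + 1), ∃ l : List C.W, (∀ r ∈ l, r ∈ C.Rf L n) ∧
    l.IsChain (· ≠ ·) ∧ ∃ x ∈ C.Wn L n, w = l.prod * x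
  uniq : ∀ n (l l' : List C.W) x x', (∀ r ∈ l, r ∈ C.Rf univ n) → (∀ r ∈ l', r ∈ C.Rf univ n) →
    l.IsChain (· ≠ ·) → l'.IsChain (· ≠ ·) → x ∈ C.Wn univ n → x' ∈ C.Wn univ n →
    l.prod * x = l'.prod * x' → l = l'
  inter : ∀ (L L' : Set S) w, w ∈ C.Wof L → w ∈ C.Wof L' → w ∈ C.Wof (L ∩ L')
  cent : ∀ (L : Set S) s, s ∉ L → ∀ x ∈ C.Wof L, x * C.gen s = C.gen s * x →
    x ∈ C.Wof (C.gr.neighborSet s)
  type : ∀ x x' s s', x * C.gen s * x⁻¹ = x' * C.gen s' * x'⁻¹ → s = s'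
  even : ∀ n (l : List C.W) x, (∀ r ∈ l, r ∈ C.Rf univ n) → x ∈ C.Wn univ n →
    C.par (l.prod * x) = 1 → Even l.length ∧ C.par x = 1

/-- special subgroups are closed under even square roots -/
def RC : Prop := ∀ (L : Set S) (y : C.W), C.par y = 1 → y ^ 2 ∈ C.Wof L → y ∈ C.Wof L

/-- two different square roots of one element fix a common chamber -/
def KL : Prop :=
  ∀ u v : C.Gam, u ∈ C.Pi → v ∈ C.Pi → u ^ 2 = v ^ 2 → u ≠ v → ∃ (γ : C.Gam) (a b : G),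
    γ * u * γ⁻¹ = SemidirectProduct.inr a ∧ γ * v * γ⁻¹ = SemidirectProduct.inr b

structure ConeF : Prop where
  closed : IsClosed C.Cone
  fin : ∀ {q}, q ∈ C.Cone → {s | q s ≠ 0}.Finite
  mx_nonneg : ∀ (σ : Set S) {q}, q ∈ C.Cone → 0 ≤ mx σ q
  le_mx : ∀ {σ : Set S} {q s}, q ∈ C.Cone → s ∈ σ → q s ≤ mx σ q
  mx_eq : ∀ (σ : Set S) {q}, q ∈ C.Cone → mx σ q = 0 ∨ ∃ s ∈ σ, mx σ q = q s
  mx_cont : ∀ σ : Set S, ContinuousOn (mx σ) {q | q ∈ C.Cone ∧ ∃ s, 0 < q s}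
  cpt : ∀ {σ : Set S} {a : ℝ} (b : ℝ), σ.Finite → 0 < a →
    IsCompact {q | q ∈ C.Cone ∧ (∀ s, q s ≤ b) ∧ ∃ s ∈ σ, a ≤ q s}
  lf : ∀ {q}, q ∈ C.Cone → (∃ s, 0 < q s) → ∃ F : Set S, F.Finite ∧
    ∀ᶠ q' in 𝓝[C.Cone] q, ∀ s, q' s ≠ 0 → s ∈ F
  mem_big : ∀ {q s}, q ∈ C.Cone → (s ∈ big q ↔ 1 < q s)
  fld_mem : ∀ {q}, q ∈ C.St → fld q ∈ C.Col
  fld_col : ∀ {q}, q ∈ C.Col → fld q = q
  cpt_Bs : ∀ {σ : Set S}, σ.Finite → IsCompact (C.Bs σ)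

def BsAE : Prop := ∀ σ : Set S, σ.Nonempty → C.gr.IsClique σ → AE (C.Bs σ)

/-- the push in the star of a vertex -/
def PushF : Prop :=
  ∀ σ : Set S, ∀ m : ℝ, 0 < m → ∃ p : (S → ℝ) → S → ℝ,
    ContinuousOn p {q | q ∈ C.St ∧ m ≤ mx σ q} ∧ InjOn p {q | q ∈ C.St ∧ m ≤ mx σ q} ∧
    ∀ q ∈ C.St, m ≤ mx σ q → p q ∈ C.St ∧ (∀ s, s ∉ σ → p q s = q s) ∧ (∀ s, q s ≤ p q s) ∧
      ((∀ s, s ∉ σ → q s ≤ 1) → 1 ≤ mx σ (p q)) ∧ ((∃ s, q s = 3 / 2) → p q = q)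

end CG

/-! ### the manifold -/

namespace DavisData
variable {G S : Type} [Group G] [MulAction G S] {C : CG G S} (D : DavisData C)

structure Basic : Prop where
  c_inj : InjOn D.c C.Col
  sig_c : ∀ {q}, q ∈ C.Col → D.sig (D.c q) = {s | q s = 1}
  sig_clique : ∀ x, C.gr.IsClique (D.sig x)
  sig_empty : ∀ {x}, D.sig x = ∅ ↔ x ∉ D.c '' C.Bd
  sig_nhds : ∀ x, ∀ᶠ y in 𝓝 x, D.sig y ⊆ D.sig x
  closed_Bd : IsClosed (D.c '' C.Bd)
  isOpen_iff : ∀ {O : Set D.Mt}, IsOpen O ↔ ∀ w, IsOpen (D.pt w ⁻¹' O)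
  cont_fold : Continuous D.fold
  emb : ∀ w, IsClosedEmbedding (D.pt w)
  open_int : ∀ w, IsOpen (D.pt w '' (D.c '' C.Bd)ᶜ)
  lf : LocallyFinite fun w => range (D.pt w)
  fin : ∀ {K : Set D.Mt}, IsCompact K → {w | (K ∩ range (D.pt w)).Nonempty}.Finite
  t2 : T2Space D.Mt
  cts : ContinuousConstSMul C.Gam D.Mt

structure Star : Prop where
  emb : ∀ w, IsClosedEmbedding (C.St.domRestrict (D.Phi w))
  opn : ∀ w, IsOpen (D.Phi w '' C.Sto)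
  mem : ∀ w w' {q}, q ∈ C.St → (D.Phi w q ∈ range (D.pt w') ↔ ∃ ρ : Finset S,
    (∀ s, 1 < q s → s ∈ ρ) ∧ (∀ s ∈ ρ, 1 ≤ q s) ∧ w' = w * C.pr ρ)
  col : ∀ w {q}, q ∈ C.Col → D.Phi w q = D.pt w (D.c q)
  smul : ∀ (g : G) w {q}, q ∈ C.St → D.ga g (D.Phi w q) = D.Phi (C.act g w) (sh g q)
  disj : ∀ w w' {q q'}, q ∈ C.St → q' ∈ C.St → D.Phi w q = D.Phi w' q' →
    C.par w = C.par w' → w = w'

def Chart : Prop := Nonempty (ChartedSpace E4 D.Mt)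

def Act : Prop := Nice C.Pi D.Mt

def MtAE : Prop := AE (univ : Set D.Mt)

/-- one chamber is absorbed -/
def One : Prop :=
  ∀ (T : Set C.W) (w : C.W) (K : Set D.X), C.Down T → w ∈ T → w ≠ 1 →
    (∀ w' ∈ T, C.len w' ≤ C.len w) → IsCompact K → ∃ e : D.Mt → D.Mt,
      IsCompact (D.pt w '' K ∪ D.U (T \ C.orb w) ∩ D.Phi w '' C.St) ∧
      ContinuousOn e (D.pt w '' K ∪ D.U (T \ C.orb w) ∩ D.Phi w '' C.St) ∧
      InjOn e (D.pt w '' K ∪ D.U (T \ C.orb w) ∩ D.Phi w '' C.St) ∧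
      MapsTo e (D.pt w '' K ∪ D.U (T \ C.orb w) ∩ D.Phi w '' C.St)
        (D.U (T \ C.orb w) ∩ D.Phi w '' C.St) ∧
      ∀ z ∈ D.U (T \ C.orb w) ∩ D.Phi w '' C.St, z ∉ D.Phi w '' C.Sto → e z = z

/-- one orbit of chambers is absorbed -/
def Step : Prop :=
  ∀ (T : Set C.W) (w : C.W) (K : Set D.Mt), (∀ (g : G), ∀ v ∈ T, C.act g v ∈ T) → C.Down T →
    w ∈ T → w ≠ 1 → (∀ w' ∈ T, C.len w' ≤ C.len w) → IsCompact K → K ⊆ D.U T →
    ∃ e : D.Mt → D.Mt, ContinuousOn e (D.sat K) ∧ InjOn e (D.sat K) ∧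
      (∀ (g : G), ∀ z ∈ D.sat K, e (D.ga g z) = D.ga g (e z)) ∧ MapsTo e K (D.U (T \ C.orb w))

/-- cocompact sets are absorbed in the base chamber -/
def Absorb : Prop :=
  ∀ K : Set D.Mt, IsCompact K → ∃ e : D.Mt → D.X, ContinuousOn e (D.sat K) ∧
    InjOn e (D.sat K) ∧ ∀ (g : G), ∀ z ∈ D.sat K, e (D.ga g z) = g • e z

end DavisData

/-- the data from which a counterexample is built -/
structure Pair (G S E : Type) [Group G] [MulAction G S] [TopologicalSpace E] where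
  C : CG G S
  D : DavisData C
  D' : DavisData C
  J : Subgroup G
  [mul : MulAction J E]
  u : J
  v : J
  sq : u ^ 2 = v ^ 2
  ne : u ≠ v
  gen : Subgroup.closure {u, v} = ⊤
  gk : ∀ a b : G, a ^ 2 = b ^ 2 → a ≠ b → ∃ g : G, g * a * g⁻¹ ∈ J ∧ g * b * g⁻¹ ∈ J
  cpt : ∃ K : Set E, IsCompact K ∧ ∀ y, ∃ j : J, j • y ∈ K
  plane : ∃ p, D'.Plane J E (MonoidHom.id J) p
  abs : D.Abs
  obs : ∀ ψ p, ¬ D.Plane J E ψ p

/-- the main theorem of the generic half -/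
def DAV : Prop :=
  ∀ (G S E : Type) [Group G] [MulAction G S] [TopologicalSpace E], Pair G S E → Counter

end Vale.Agent.P260Z
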